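import Crest.Agent.R220.Defs

/-! Basic calculus for `d1`, `d2`, `dw`. -/

set_option autoImplicit false
open scoped ContDiff Topology
open Set MeasureTheory Filter

namespace Crest.Agent.R220

/-- directional derivative -/
noncomputable def dv (e : P) (f : P → ℝ) : P → ℝ := fun z => fderiv ℝ f z e

theorem d1_eq (f : P → ℝ) : d1 f = dv (1, 0) f := rfl
theorem d2_eq (f : P → ℝ) : d2 f = dv (0, 1) f := rfl

@[simp] theorem dw_nil (f : P → ℝ) : dw [] f = f := rfl
@[simp] theorem dw_false (w : List Bool) (f : P → ℝ) : dw (false :: w) f = d1 (dw w f) := rfl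
@[simp] theorem dw_true (w : List Bool) (f : P → ℝ) : dw (true :: w) f = d2 (dw w f) := rfl

theorem mem_sq {r : ℝ} {z : P} : z ∈ sq r ↔ ‖z‖ < r := by simp [sq]
theorem mem_sq' {r : ℝ} {z : P} : z ∈ sq r ↔ |z.1| < r ∧ |z.2| < r := by
  rw [mem_sq, Prod.norm_def, max_lt_iff]; simp
theorem isOpen_sq (r : ℝ) : IsOpen (sq r) := Metric.isOpen_ball
theorem convex_sq (r : ℝ) : Convex ℝ (sq r) := convex_ball _ _
theorem sq_mem_nhds {r : ℝ} {z : P} (hz : z ∈ sq r) : sq r ∈ 𝓝 z := (isOpen_sq r).mem_nhds hz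
theorem measurableSet_sq (r : ℝ) : MeasurableSet (sq r) := (isOpen_sq r).measurableSet
theorem abs_fst_le (z : P) : |z.1| ≤ ‖z‖ := norm_fst_le z
theorem abs_snd_le (z : P) : |z.2| ≤ ‖z‖ := norm_snd_le z

section dv
variable {e : P} {f g : P → ℝ} {z : P}

theorem contDiffAt_dv (hf : ContDiffAt ℝ ∞ f z) : ContDiffAt ℝ ∞ (dv e f) z :=
  (hf.fderiv_right (m := ∞) le_rfl).clm_apply contDiffAt_const

theorem contDiff_dv (hf : ContDiff ℝ ∞ f) : ContDiff ℝ ∞ (dv e f) :=
  contDiff_iff_contDiffAt.2 fun _ => contDiffAt_dv hf.contDiffAt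

theorem dv_congr (h : f =ᶠ[𝓝 z] g) : dv e f =ᶠ[𝓝 z] dv e g := by
  filter_upwards [h.fderiv (𝕜 := ℝ)] with x hx
  simp [dv, hx]

theorem dv_add (hf : DifferentiableAt ℝ f z) (hg : DifferentiableAt ℝ g z) :
    dv e (fun z => f z + g z) z = dv e f z + dv e g z := by
  simp [dv, fderiv_fun_add hf hg]

theorem dv_sub (hf : DifferentiableAt ℝ f z) (hg : DifferentiableAt ℝ g z) :
    dv e (fun z => f z - g z) z = dv e f z - dv e g z := by
  simp [dv, fderiv_fun_sub hf hg]

theorem dv_neg : dv e (fun z => - f z) z = - dv e f z := by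
  simp [dv, fderiv_fun_neg]

theorem dv_mul (hf : DifferentiableAt ℝ f z) (hg : DifferentiableAt ℝ g z) :
    dv e (fun z => f z * g z) z = dv e f z * g z + f z * dv e g z := by
  simp [dv, fderiv_fun_mul hf hg]; ring

theorem dv_const (c : ℝ) : dv e (fun _ => c) z = 0 := by simp [dv]

theorem dv_const_mul (c : ℝ) (hf : DifferentiableAt ℝ f z) :
    dv e (fun z => c * f z) z = c * dv e f z := by
  rw [dv_mul (differentiableAt_const c) hf, dv_const]; ring

theorem dv_fst : dv e (fun z => z.1) z = e.1 := by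
  simp only [dv]; rw [show (fun z : P => z.1) = Prod.fst from rfl, fderiv_fst]; rfl

theorem dv_snd : dv e (fun z => z.2) z = e.2 := by
  simp only [dv]; rw [show (fun z : P => z.2) = Prod.snd from rfl, fderiv_snd]; rfl

/-- chain rule with a scalar outer function -/
theorem dv_comp {h : ℝ → ℝ} {h' : ℝ} (hh : HasDerivAt h h' (f z)) (hf : DifferentiableAt ℝ f z) :
    dv e (fun z => h (f z)) z = h' * dv e f z := by
  have := (hh.comp_hasFDerivAt z hf.hasFDerivAt).fderiv
  simp only [dv]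
  rw [show (fun z => h (f z)) = h ∘ f from rfl, this]; simp

theorem dv_pow (n : ℕ) (hf : DifferentiableAt ℝ f z) :
    dv e (fun z => f z ^ n) z = n * f z ^ (n - 1) * dv e f z :=
  dv_comp (h := fun x => x ^ n) (by simpa using hasDerivAt_pow n (f z)) hf

theorem dv_exp (hf : DifferentiableAt ℝ f z) :
    dv e (fun z => Real.exp (f z)) z = Real.exp (f z) * dv e f z :=
  dv_comp (Real.hasDerivAt_exp _) hf

theorem dv_inv (hf : DifferentiableAt ℝ f z) (h0 : f z ≠ 0) :
    dv e (fun z => (f z)⁻¹) z = - (f z ^ 2)⁻¹ * dv e f z :=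
  dv_comp (h := fun x => x⁻¹) (hasDerivAt_inv h0) hf

theorem dv_div (hf : DifferentiableAt ℝ f z) (hg : DifferentiableAt ℝ g z) (h0 : g z ≠ 0) :
    dv e (fun z => f z / g z) z = (dv e f z * g z - f z * dv e g z) / g z ^ 2 := by
  simp only [div_eq_mul_inv]
  rw [dv_mul (g := fun z => (g z)⁻¹) hf (hg.inv h0), dv_inv hg h0]; field_simp; ring

theorem fderiv_apply_eq (f : P → ℝ) (z e : P) :
    fderiv ℝ f z e = e.1 * d1 f z + e.2 * d2 f z := by
  have : e = e.1 • ((1, 0) : P) + e.2 • ((0, 1) : P) := by ext <;> simp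
  conv_lhs => rw [this]
  simp only [map_add, map_smul, d1, d2, smul_eq_mul]

/-- chain rule with a planar inner map -/
theorem dv_comp2 {h x y : P → ℝ} (hh : DifferentiableAt ℝ h (x z, y z))
    (hx : DifferentiableAt ℝ x z) (hy : DifferentiableAt ℝ y z) :
    dv e (fun z => h (x z, y z)) z
      = dv e x z * d1 h (x z, y z) + dv e y z * d2 h (x z, y z) := by
  have h1 := (hh.hasFDerivAt.comp z (hx.hasFDerivAt.prodMk hy.hasFDerivAt)).fderiv
  simp only [dv]
  rw [show (fun z => h (x z, y z)) = h ∘ (fun z => (x z, y z)) from rfl, h1]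
  simp only [ContinuousLinearMap.comp_apply, ContinuousLinearMap.prod_apply]
  rw [fderiv_apply_eq]

/-- symmetry of second derivatives -/
theorem dv_comm {e e' : P} (hf : ContDiffAt ℝ ∞ f z) : dv e (dv e' f) z = dv e' (dv e f) z := by
  have h2 : ContDiffAt ℝ 2 f z := hf.of_le (by norm_cast)
  have hs := h2.isSymmSndFDerivAt (by simp)
  have hd : DifferentiableAt ℝ (fderiv ℝ f) z :=
    (hf.fderiv_right (m := 1) (by norm_cast)).differentiableAt (by norm_num)
  have key : ∀ a b : P, dv a (dv b f) z = fderiv ℝ (fderiv ℝ f) z a b := by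
    intro a b
    show fderiv ℝ (fun z => (fderiv ℝ f z) ((fun _ => b) z)) z a = _
    rw [fderiv_clm_apply hd (differentiableAt_const b)]
    simp
  rw [key, key, hs.eq]

/-- the integral of a derivative of a compactly supported function vanishes -/
theorem integral_dv_eq_zero (hf : ContDiff ℝ ∞ f) (hc : HasCompactSupport f) :
    ∫ z, dv e f z = 0 := by
  have hc' : HasCompactSupport (dv e f) := by
    have := hc.fderiv_apply ℝ e
    exact this
  have h := integral_mul_fderiv_eq_neg_fderiv_mul_of_integrable (μ := (volume : Measure P))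
    (f := fun _ : P => (1 : ℝ)) (g := f) (v := e) (by simp)
    (by
      simp only [one_mul]
      exact (contDiff_dv (e := e) hf).continuous.integrable_of_hasCompactSupport hc')
    (by simpa using hf.continuous.integrable_of_hasCompactSupport hc)
    (by fun_prop) (fun x _ => hf.differentiable (by simp) x)
  simpa [dv] using h

/-- integration by parts when one factor has compact support -/
theorem integral_mul_dv (hf : ContDiff ℝ ∞ f) (hg : ContDiff ℝ ∞ g) (hc : HasCompactSupport f) :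
    ∫ z, f z * dv e g z = - ∫ z, dv e f z * g z := by
  have h0 := integral_dv_eq_zero (e := e) (hf.mul hg) hc.mul_right
  have hc' : HasCompactSupport (dv e f) := hc.fderiv_apply ℝ e
  have h1 : (fun z => dv e (fun z => f z * g z) z) = fun z => dv e f z * g z + f z * dv e g z := by
    funext z
    exact dv_mul (hf.differentiable (by simp) z) (hg.differentiable (by simp) z)
  rw [h1, integral_add] at h0
  · linarith
  · exact ((contDiff_dv hf).mul hg).continuous.integrable_of_hasCompactSupport hc'.mul_right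
  · exact (hf.mul (contDiff_dv hg)).continuous.integrable_of_hasCompactSupport hc.mul_right

end dv

@[fun_prop] theorem contDiff_d1 {f : P → ℝ} (hf : ContDiff ℝ ∞ f) : ContDiff ℝ ∞ (d1 f) :=
  contDiff_dv hf
@[fun_prop] theorem contDiff_d2 {f : P → ℝ} (hf : ContDiff ℝ ∞ f) : ContDiff ℝ ∞ (d2 f) :=
  contDiff_dv hf
theorem contDiff_dw {f : P → ℝ} (hf : ContDiff ℝ ∞ f) : ∀ w, ContDiff ℝ ∞ (dw w f)
  | [] => hf
  | false :: w => contDiff_d1 (contDiff_dw hf w)
  | true :: w => contDiff_d2 (contDiff_dw hf w)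
theorem contDiffAt_dw {f : P → ℝ} {z : P} (hf : ContDiffAt ℝ ∞ f z) :
    ∀ w, ContDiffAt ℝ ∞ (dw w f) z
  | [] => hf
  | false :: w => contDiffAt_dv (contDiffAt_dw hf w)
  | true :: w => contDiffAt_dv (contDiffAt_dw hf w)
theorem dw_congr {f g : P → ℝ} {z : P} (h : f =ᶠ[𝓝 z] g) : ∀ w, dw w f =ᶠ[𝓝 z] dw w g
  | [] => h
  | false :: w => dv_congr (dw_congr h w)
  | true :: w => dv_congr (dw_congr h w)
theorem contDiff_d2_iter {f : P → ℝ} (hf : ContDiff ℝ ∞ f) : ∀ j : ℕ, ContDiff ℝ ∞ (d2^[j] f)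
  | 0 => hf
  | j + 1 => by rw [Function.iterate_succ_apply']; exact contDiff_d2 (contDiff_d2_iter hf j)
theorem d2_iter_congr {f g : P → ℝ} {z : P} (h : f =ᶠ[𝓝 z] g) :
    ∀ j : ℕ, d2^[j] f =ᶠ[𝓝 z] d2^[j] g
  | 0 => h
  | j + 1 => by
    rw [Function.iterate_succ_apply', Function.iterate_succ_apply']
    exact dv_congr (d2_iter_congr h j)
theorem d1_d2_comm {f : P → ℝ} {z : P} (hf : ContDiffAt ℝ ∞ f z) :
    d1 (d2 f) z = d2 (d1 f) z := dv_comm hf

/-- a continuous function is integrable on a bounded measurable set -/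
theorem integrableOn_of_subset_sq {f : P → ℝ} (hf : Continuous f) {s : Set P} {r : ℝ}
    (hs : s ⊆ sq r) : IntegrableOn f s :=
  (hf.continuousOn.integrableOn_compact (isCompact_closedBall (0 : P) r)).mono_set
    (hs.trans Metric.ball_subset_closedBall)

/-- mean value inequality on a square, in terms of the two partial derivatives -/
theorem abs_sub_le_of_d {f : P → ℝ} {r C : ℝ} (hf : ∀ z ∈ sq r, DifferentiableAt ℝ f z)
    (h : ∀ z ∈ sq r, |d1 f z| + |d2 f z| ≤ C) {z z' : P} (hz : z ∈ sq r) (hz' : z' ∈ sq r) :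
    |f z' - f z| ≤ C * ‖z' - z‖ := by
  refine (convex_sq r).norm_image_sub_le_of_norm_fderiv_le (𝕜 := ℝ) hf (fun x hx => ?_) hz hz'
  refine ContinuousLinearMap.opNorm_le_bound _ (le_trans (by positivity) (h x hx)) fun e => ?_
  rw [fderiv_apply_eq, Real.norm_eq_abs]
  have h1 := abs_fst_le e
  have h2 := abs_snd_le e
  calc |e.1 * d1 f x + e.2 * d2 f x| ≤ |e.1| * |d1 f x| + |e.2| * |d2 f x| := by
        rw [← abs_mul, ← abs_mul]; exact abs_add_le _ _
    _ ≤ ‖e‖ * |d1 f x| + ‖e‖ * |d2 f x| := by gcongr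
    _ = (|d1 f x| + |d2 f x|) * ‖e‖ := by ring
    _ ≤ C * ‖e‖ := by gcongr; exact h x hx

theorem Hyp.mono {η η' a0 a0' : ℝ} {φ t Y f : P → ℝ} (h : Hyp η a0 φ t Y f) (ha : 0 ≤ a0)
    (hη : η ≤ η') (ha' : a0' ≤ a0) : Hyp η' a0' φ t Y f :=
  { h with
    ha0 := ha'.trans h.ha0
    bd := fun w h1 h2 z hz =>
      ⟨(h.bd w h1 h2 z hz).1.trans hη, (h.bd w h1 h2 z hz).2.1.trans hη,
        (h.bd w h1 h2 z hz).2.2.trans hη⟩
    bd3 := fun w h1 z hz => (h.bd3 w h1 z hz).trans
      (mul_le_mul_of_nonneg_right hη (ha.trans h.ha0)) }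

end Crest.Agent.R220
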