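import Crest.Agent.R220.CfgOfInv

/-! B1c: the configuration in Legendre coordinates. -/

set_option autoImplicit false
open scoped ContDiff Topology
open Set MeasureTheory Filter

namespace Crest.Agent.R220

namespace CfgOf

/-- what is used from `Hyp` and `StmtEst` to invert the Legendre map -/
structure Bd (t Y f : P → ℝ) : Prop where
  smt : ContDiff ℝ ∞ t
  smY : ContDiff ℝ ∞ Y
  smf : ContDiff ℝ ∞ f
  apos : 0 < aa f
  t0 : t 0 = 0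
  fx0 : d1 f 0 = 0
  fy0 : d2 f 0 = 0
  tx : ∀ z ∈ sq 4, |d1 t z - 1| ≤ 1 / 100
  ty : ∀ z ∈ sq 4, |d2 t z| ≤ 1 / 100
  Yx : ∀ z ∈ sq 4, |d1 Y z| ≤ 1 / 100
  Yy : ∀ z ∈ sq 4, |d2 Y z - 1| ≤ 1 / 100
  px1 : ∀ z ∈ sq 4, |d1 (px t Y f) z / aa f| ≤ 1 / 100
  px2 : ∀ z ∈ sq 4, |d2 (px t Y f) z / aa f - 1| ≤ 1 / 100

variable {t Y f : P → ℝ}

theorem Sm.of {g : P → ℝ} (h : ContDiff ℝ ∞ g) : Sm g := fun _ _ => h.contDiffAt
theorem Sm.d1 {g : P → ℝ} (h : Sm g) : Sm (d1 g) := fun z hz => contDiffAt_dv (h z hz)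
theorem Sm.d2 {g : P → ℝ} (h : Sm g) : Sm (d2 g) := fun z hz => contDiffAt_dv (h z hz)

theorem Bd.J_bd (h : Bd t Y f) {z : P} (hz : z ∈ sq 4) :
    49 / 50 ≤ Jx t Y z ∧ Jx t Y z ≤ 103 / 100 := by
  have h1 := abs_le.1 (h.tx z hz)
  have h2 := abs_le.1 (h.ty z hz)
  have h3 := abs_le.1 (h.Yx z hz)
  have h4 := abs_le.1 (h.Yy z hz)
  unfold Jx
  constructor <;> nlinarith [h1.1, h1.2, h2.1, h2.2, h3.1, h3.2, h4.1, h4.2]

theorem Bd.J_ne (h : Bd t Y f) {z : P} (hz : z ∈ sq 4) : Jx t Y z ≠ 0 := by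
  have := (h.J_bd hz).1
  linarith

theorem Bd.smJ (h : Bd t Y f) : Sm (Jx t Y) := fun z hz =>
  (((Sm.of h.smt).d1 z hz).mul ((Sm.of h.smY).d2 z hz)).sub
    (((Sm.of h.smt).d2 z hz).mul ((Sm.of h.smY).d1 z hz))

theorem Bd.smp (h : Bd t Y f) : Sm (px t Y f) := fun z hz =>
  ((((Sm.of h.smt).d1 z hz).mul ((Sm.of h.smf).d2 z hz)).sub
    (((Sm.of h.smt).d2 z hz).mul ((Sm.of h.smf).d1 z hz))).div (h.smJ z hz) (h.J_ne hz)

theorem Bd.smq (h : Bd t Y f) : Sm (qx t Y f) := fun z hz =>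
  ((((Sm.of h.smf).d1 z hz).mul ((Sm.of h.smY).d2 z hz)).sub
    (((Sm.of h.smf).d2 z hz).mul ((Sm.of h.smY).d1 z hz))).div (h.smJ z hz) (h.J_ne hz)

/-- the second Legendre coordinate -/
noncomputable def vv (t Y f : P → ℝ) : P → ℝ := fun z => px t Y f z / aa f

theorem Bd.dv_vv (h : Bd t Y f) {z : P} (hz : z ∈ sq 4) (e : P) :
    dv e (vv t Y f) z = dv e (px t Y f) z / aa f := by
  have : vv t Y f = fun z => (aa f)⁻¹ * px t Y f z := by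
    funext z; simp [vv, div_eq_inv_mul]
  rw [this, dv_const_mul _ (h.smp.diff hz), div_eq_inv_mul]

theorem Bd.d1_vv (h : Bd t Y f) {z : P} (hz : z ∈ sq 4) :
    d1 (vv t Y f) z = d1 (px t Y f) z / aa f := h.dv_vv hz _
theorem Bd.d2_vv (h : Bd t Y f) {z : P} (hz : z ∈ sq 4) :
    d2 (vv t Y f) z = d2 (px t Y f) z / aa f := h.dv_vv hz _

theorem Bd.near (h : Bd t Y f) : Near t (vv t Y f) where
  su := Sm.of h.smt
  sv := fun z hz => (h.smp z hz).div_const _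
  u0 := h.t0
  v0 := by simp [vv, px, h.fx0, h.fy0]
  b11 := h.tx
  b12 := h.ty
  b21 := fun z hz => by rw [h.d1_vv hz]; exact h.px1 z hz
  b22 := fun z hz => by rw [h.d2_vv hz]; exact h.px2 z hz

theorem Bd.D_eq (h : Bd t Y f) {z : P} (hz : z ∈ sq 4) :
    d1 t z * d2 (vv t Y f) z - d2 t z * d1 (vv t Y f) z = Dx t Y f z / aa f := by
  rw [h.d1_vv hz, h.d2_vv hz, Dx]; ring

theorem Bd.D_bd (h : Bd t Y f) {z : P} (hz : z ∈ sq 4) :
    49 / 50 * aa f ≤ Dx t Y f z ∧ Dx t Y f z ≤ 103 / 100 * aa f := by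
  have := h.near.det_bd hz
  rw [h.D_eq hz, le_div_iff₀ h.apos, div_le_iff₀ h.apos] at this
  exact this

theorem Bd.D_pos (h : Bd t Y f) {z : P} (hz : z ∈ sq 4) : 0 < Dx t Y f z := by
  have := (h.D_bd hz).1
  have := h.apos
  linarith

theorem Bd.smD (h : Bd t Y f) : Sm (Dx t Y f) := fun z hz =>
  (((Sm.of h.smt).d1 z hz).mul (h.smp.d2 z hz)).sub (((Sm.of h.smt).d2 z hz).mul (h.smp.d1 z hz))

theorem Bd.smξ1 (h : Bd t Y f) : Sm (ξ1x t Y) := fun z hz =>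
  ((Sm.of h.smt).d2 z hz).neg.div (h.smJ z hz) (h.J_ne hz)
theorem Bd.smξ2 (h : Bd t Y f) : Sm (ξ2x t Y) := fun z hz =>
  ((Sm.of h.smt).d1 z hz).div (h.smJ z hz) (h.J_ne hz)
theorem Bd.smζ1 (h : Bd t Y f) : Sm (ζ1x t Y) := fun z hz =>
  ((Sm.of h.smY).d2 z hz).div (h.smJ z hz) (h.J_ne hz)
theorem Bd.smζ2 (h : Bd t Y f) : Sm (ζ2x t Y) := fun z hz =>
  ((Sm.of h.smY).d1 z hz).neg.div (h.smJ z hz) (h.J_ne hz)
theorem Bd.smβ (h : Bd t Y f) : Sm (βx t Y f) := fun z hz =>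
  (contDiffAt_const.mul (h.smJ z hz)).div (h.smD z hz) (h.D_pos hz).ne'
theorem Bd.smα (h : Bd t Y f) : Sm (αx t Y f) := fun z hz =>
  ((((Sm.of h.smY).d1 z hz).mul (h.smp.d2 z hz)).sub
    (((Sm.of h.smY).d2 z hz).mul (h.smp.d1 z hz))).div (h.smD z hz) (h.D_pos hz).ne'

theorem Bd.smVd (h : Bd t Y f) {g : P → ℝ} (hg : Sm g) : Sm (Vd t Y f g) := fun z hz =>
  (h.smβ z hz).mul (((h.smξ1 z hz).mul (hg.d1 z hz)).add ((h.smξ2 z hz).mul (hg.d2 z hz)))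

theorem Bd.smVd_iter (h : Bd t Y f) {g : P → ℝ} (hg : Sm g) : ∀ j : ℕ, Sm ((Vd t Y f)^[j] g)
  | 0 => hg
  | j + 1 => by rw [Function.iterate_succ_apply']; exact h.smVd (h.smVd_iter hg j)

theorem Bd.β_bd (h : Bd t Y f) {z : P} (hz : z ∈ sq 4) :
    1 / 2 ≤ βx t Y f z ∧ βx t Y f z ≤ 2 := by
  have h1 := h.J_bd hz
  have h2 := h.D_bd hz
  have h3 := h.apos
  unfold βx
  rw [le_div_iff₀ (h.D_pos hz), div_le_iff₀ (h.D_pos hz)]
  constructor <;> nlinarith [h1.1, h1.2, h2.1, h2.2]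

theorem Bd.α_bd (h : Bd t Y f) {z : P} (hz : z ∈ sq 4) : |αx t Y f z| ≤ 1 / 10 := by
  have h2 := h.D_bd hz
  have h3 := h.apos
  have h4 := abs_le.1 (h.Yx z hz)
  have h5 := abs_le.1 (h.Yy z hz)
  have h6 := abs_le.1 (h.px1 z hz)
  have h7 := abs_le.1 (h.px2 z hz)
  have e : αx t Y f z = (d1 Y z * (d2 (px t Y f) z / aa f) - d2 Y z * (d1 (px t Y f) z / aa f))
      / (Dx t Y f z / aa f) := by
    unfold αx
    have := (h.D_pos hz).ne'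
    field_simp
  have h8 : 49 / 50 ≤ Dx t Y f z / aa f := by rw [le_div_iff₀ h3]; exact h2.1
  rw [e, abs_div, abs_of_pos (show 0 < Dx t Y f z / aa f by linarith),
    div_le_iff₀ (by linarith), abs_le]
  constructor <;> nlinarith [h4.1, h4.2, h5.1, h5.2, h6.1, h6.2, h7.1, h7.2]

theorem Bd.div_J_bd (h : Bd t Y f) {z : P} (hz : z ∈ sq 4) {s : ℝ} (hs : |s| ≤ 3 / 2) :
    |s / Jx t Y z| ≤ 2 := by
  have h1 := (h.J_bd hz).1
  rw [abs_div, abs_of_pos (show 0 < Jx t Y z by linarith), div_le_iff₀ (by linarith)]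
  linarith

variable {Ψ : P → P}

theorem h23 : sq 2 ⊆ sq 3 := sq_mono (by norm_num)

theorem Bd.d1_ext (h : Bd t Y f) (hΨ : Inv t (vv t Y f) Ψ) {g : P → ℝ} (hg : Sm g) {w : P}
    (hw : w ∈ sq 2) : d1 (ext Ψ g) w = Td t Y f g (Ψ w) := by
  have hm := hΨ.mem w (h23 hw)
  rw [d1_eq, (dv_congr (ext_ev Ψ g hw)).eq_of_nhds, hΨ.dv_comp h.near (h23 hw) (hg.diff hm),
    h.D_eq hm, h.d1_vv hm, h.d2_vv hm]
  have h1 := h.J_ne hm
  have h2 := (h.D_pos hm).ne'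
  have h3 := h.apos.ne'
  simp only [Td, ζ1x, ζ2x, ξ1x, ξ2x, αx]
  field_simp
  simp only [Jx, Dx]
  ring

theorem Bd.d2_ext (h : Bd t Y f) (hΨ : Inv t (vv t Y f) Ψ) {g : P → ℝ} (hg : Sm g) {w : P}
    (hw : w ∈ sq 2) : d2 (ext Ψ g) w = Vd t Y f g (Ψ w) := by
  have hm := hΨ.mem w (h23 hw)
  rw [d2_eq, (dv_congr (ext_ev Ψ g hw)).eq_of_nhds, hΨ.dv_comp h.near (h23 hw) (hg.diff hm),
    h.D_eq hm, h.d1_vv hm, h.d2_vv hm]
  have h1 := h.J_ne hm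
  have h2 := (h.D_pos hm).ne'
  have h3 := h.apos.ne'
  simp only [Vd, βx, ξ1x, ξ2x]
  field_simp
  ring

theorem Bd.d2_iter_ext (h : Bd t Y f) (hΨ : Inv t (vv t Y f) Ψ) {g : P → ℝ} (hg : Sm g) :
    ∀ (j : ℕ) {w : P}, w ∈ sq 2 → d2^[j] (ext Ψ g) w = (Vd t Y f)^[j] g (Ψ w)
  | 0, w, hw => ext_eq Ψ g hw
  | j + 1, w, hw => by
    rw [Function.iterate_succ_apply', Function.iterate_succ_apply',
      ← h.d2_ext hΨ (h.smVd_iter hg j) hw]
    refine (dv_congr (e := (0, 1)) ?_).eq_of_nhds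
    filter_upwards [sq_mem_nhds hw] with x hx
    rw [h.d2_iter_ext hΨ hg j hx, ext_eq _ _ hx]

theorem Bd.α_v (h : Bd t Y f) (hΨ : Inv t (vv t Y f) Ψ) {w : P} (hw : w ∈ sq 2) :
    d2 (ext Ψ (αx t Y f)) w = d1 (ext Ψ (βx t Y f)) w := by
  have hY := Sm.of h.smY
  have e1 : ext Ψ (αx t Y f) =ᶠ[𝓝 w] d1 (ext Ψ Y) := by
    filter_upwards [sq_mem_nhds hw] with x hx
    have hm := hΨ.mem x (h23 hx)
    have h1 := h.J_ne hm
    rw [h.d1_ext hΨ hY hx, ext_eq _ _ hx]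
    simp only [Td, ζ1x, ζ2x, ξ1x, ξ2x]
    field_simp
    simp only [Jx]
    ring
  have e2 : ext Ψ (βx t Y f) =ᶠ[𝓝 w] d2 (ext Ψ Y) := by
    filter_upwards [sq_mem_nhds hw] with x hx
    have hm := hΨ.mem x (h23 hx)
    have h1 := h.J_ne hm
    rw [h.d2_ext hΨ hY hx, ext_eq _ _ hx]
    simp only [Vd, ξ1x, ξ2x]
    field_simp
    simp only [Jx]
    ring
  rw [d2_eq, (dv_congr e1).eq_of_nhds, d1_eq (ext Ψ (βx t Y f)), (dv_congr e2).eq_of_nhds]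
  exact (d1_d2_comm (hΨ.contDiff_ext hY).contDiffAt).symm

theorem smfst : Sm (fun z : P => z.1) := fun _ _ => contDiffAt_fst
theorem smsnd : Sm (fun z : P => z.2) := fun _ _ => contDiffAt_snd

theorem d1_fst (z : P) : d1 (fun z : P => z.1) z = 1 := dv_fst
theorem d2_fst (z : P) : d2 (fun z : P => z.1) z = 0 := dv_fst
theorem d1_snd (z : P) : d1 (fun z : P => z.2) z = 0 := dv_snd
theorem d2_snd (z : P) : d2 (fun z : P => z.2) z = 1 := dv_snd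

theorem ext_pair (Ψ : P → P) {w : P} (hw : w ∈ sq 2) :
    (ext Ψ (fun z => z.1) w, ext Ψ (fun z => z.2) w) = Ψ w := by
  rw [ext_eq _ _ hw, ext_eq _ _ hw]

theorem Bd.p_eq (h : Bd t Y f) (hΨ : Inv t (vv t Y f) Ψ) {w : P} (hw : w ∈ sq 2) :
    px t Y f (Ψ w) = aa f * w.2 := by
  have := hΨ.hv w (h23 hw)
  rw [vv, div_eq_iff h.apos.ne'] at this
  rw [this, mul_comm]

theorem Bd.d1p0 (h : Bd t Y f) (ty0 : d2 t 0 = 0) (fxy0 : d1 (d2 f) 0 = 0) :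
    d1 (px t Y f) 0 = 0 := by
  have h0 : (0 : P) ∈ sq 4 := zero_mem_sq (by norm_num)
  have ht := Sm.of h.smt
  have hf := Sm.of h.smf
  have e : d1 (px t Y f) 0 = dv (1, 0)
    (fun z => (d1 t z * d2 f z - d2 t z * d1 f z) / Jx t Y z) 0 := rfl
  rw [e, dv_div (f := fun z => d1 t z * d2 f z - d2 t z * d1 f z)
      (((ht.d1.diff h0).mul (hf.d2.diff h0)).sub ((ht.d2.diff h0).mul (hf.d1.diff h0)))
      (h.smJ.diff h0) (h.J_ne h0),
    dv_sub (f := fun z => d1 t z * d2 f z) (g := fun z => d2 t z * d1 f z)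
      ((ht.d1.diff h0).mul (hf.d2.diff h0)) ((ht.d2.diff h0).mul (hf.d1.diff h0)),
    dv_mul (ht.d1.diff h0) (hf.d2.diff h0), dv_mul (ht.d2.diff h0) (hf.d1.diff h0),
    ← d1_eq (d2 f), fxy0, h.fx0, h.fy0, ty0]
  simp

end CfgOf

open CfgOf in
theorem cfgOf : StmtCfgOf := by
  rintro ⟨η, hη, hη1, hE⟩ hI
  refine ⟨η, hη, fun a0 ha0 => ?_⟩
  obtain ⟨M, hM⟩ := hE a0 ha0
  refine ⟨M, fun φ t Y f hφ hφ0 H => ?_⟩
  have hB := hM φ t Y f hφ0 H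
  have h0 : (0 : P) ∈ sq 4 := zero_mem_sq (by norm_num)
  have h : Bd t Y f :=
    { smt := H.smt, smY := H.smY, smf := H.smf, apos := ha0.trans_le H.ha0, t0 := H.t0,
      fx0 := H.fx0, fy0 := H.fy0
      tx := fun z hz => (hB z hz).1
      ty := fun z hz => (hB z hz).2.1
      Yx := fun z hz => (hB z hz).2.2.1
      Yy := fun z hz => (hB z hz).2.2.2.1
      px1 := fun z hz => (hB z hz).2.2.2.2.1
      px2 := fun z hz => (hB z hz).2.2.2.2.2.1 }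
  obtain ⟨Ψ, hΨ⟩ := h.near.exists_inv
  have hid := hI η a0 φ t Y f ha0 hφ H (fun z hz => h.J_ne hz) (fun z hz => (h.D_pos hz).ne')
  have hm : ∀ w ∈ sq 2, Ψ w ∈ sq 4 := fun w hw => hΨ.mem w (h23 hw)
  have hΨ0 : Ψ 0 = 0 := hΨ.zero h.near
  have h02 : (0 : P) ∈ sq 2 := zero_mem_sq (by norm_num)
  refine ⟨
    { a := aa f
      x := ext Ψ (fun z => z.1)
      y := ext Ψ (fun z => z.2)
      ξ1 := ext Ψ (ξ1x t Y)
      ξ2 := ext Ψ (ξ2x t Y)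
      ζ1 := ext Ψ (ζ1x t Y)
      ζ2 := ext Ψ (ζ2x t Y)
      q := ext Ψ (qx t Y f)
      α := ext Ψ (αx t Y f)
      β := ext Ψ (βx t Y f)
      smx := hΨ.contDiff_ext smfst
      smy := hΨ.contDiff_ext smsnd
      smξ1 := hΨ.contDiff_ext h.smξ1
      smξ2 := hΨ.contDiff_ext h.smξ2
      smζ1 := hΨ.contDiff_ext h.smζ1
      smζ2 := hΨ.contDiff_ext h.smζ2
      smq := hΨ.contDiff_ext h.smq
      smα := hΨ.contDiff_ext h.smα
      smβ := hΨ.contDiff_ext h.smβ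
      ha0 := H.ha0
      ha1 := ?ha1
      x_v := ?x_v
      y_v := ?y_v
      x_t := ?x_t
      y_t := ?y_t
      ξ1_v := ?ξ1_v
      ξ2_v := ?ξ2_v
      ζ1_v := ?ζ1_v
      ζ2_v := ?ζ2_v
      ξ1_t := ?ξ1_t
      ξ2_t := ?ξ2_t
      q_v := ?q_v
      q_t := ?q_t
      α_v := fun z hz => h.α_v hΨ hz
      gram12 := ?gram12
      gram22 := ?gram22
      α0 := ?α0
      q0 := ?q0
      β_lb := fun z hz => by rw [ext_eq _ _ hz]; exact (h.β_bd (hm z hz)).1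
      β_ub := fun z hz => by rw [ext_eq _ _ hz]; exact (h.β_bd (hm z hz)).2
      α_bd := fun z hz => by rw [ext_eq _ _ hz]; exact h.α_bd (hm z hz)
      q_bd := fun z hz => by rw [ext_eq _ _ hz]; exact (hB _ (hm z hz)).2.2.2.2.2.2.2.1
      ξ1_bd := ?ξ1_bd
      ξ2_bd := ?ξ2_bd
      ζ1_bd := ?ζ1_bd
      ζ2_bd := ?ζ2_bd
      geomx := ?geomx
      geomy := ?geomy
      αM := fun j hj z hz => by
        rw [h.d2_iter_ext hΨ h.smα j hz]; exact ((hB _ (hm z hz)).2.2.2.2.2.2.2.2.1 j hj).1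
      βM := fun j hj z hz => by
        rw [h.d2_iter_ext hΨ h.smβ j hz]; exact ((hB _ (hm z hz)).2.2.2.2.2.2.2.2.1 j hj).2 },
    { a_eq := rfl
      t_eq := fun z hz => ?t_eq
      p_eq := fun z hz => ?p_eq
      q_eq := fun z hz => ?q_eq
      cov := fun g hg => ?cov }⟩
  case ha1 =>
    exact ((le_abs_self _).trans (H.bd [true, true] (by simp) (by simp) 0 h0).2.2).trans hη1
  case x_v =>
    intro z hz
    rw [h.d2_ext hΨ smfst hz, ext_eq _ _ hz, ext_eq _ _ hz]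
    simp [Vd, d1_fst, d2_fst]
  case y_v =>
    intro z hz
    rw [h.d2_ext hΨ smsnd hz, ext_eq _ _ hz, ext_eq _ _ hz]
    simp [Vd, d1_snd, d2_snd]
  case x_t =>
    intro z hz
    rw [h.d1_ext hΨ smfst hz, ext_eq _ _ hz, ext_eq _ _ hz, ext_eq _ _ hz]
    simp [Td, d1_fst, d2_fst]
  case y_t =>
    intro z hz
    rw [h.d1_ext hΨ smsnd hz, ext_eq _ _ hz, ext_eq _ _ hz, ext_eq _ _ hz]
    simp [Td, d1_snd, d2_snd]
  case ξ1_v =>
    intro z hz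
    rw [h.d2_ext hΨ h.smξ1 hz, ext_pair _ hz, ← h.p_eq hΨ hz]
    simp only [ext_eq _ _ hz]
    exact (hid _ (hm z hz)).1
  case ξ2_v =>
    intro z hz
    rw [h.d2_ext hΨ h.smξ2 hz, ext_pair _ hz, ← h.p_eq hΨ hz]
    simp only [ext_eq _ _ hz]
    exact (hid _ (hm z hz)).2.1
  case ζ1_v =>
    intro z hz
    rw [h.d2_ext hΨ h.smζ1 hz, ext_pair _ hz, ← h.p_eq hΨ hz]
    simp only [ext_eq _ _ hz]
    exact (hid _ (hm z hz)).2.2.1
  case ζ2_v =>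
    intro z hz
    rw [h.d2_ext hΨ h.smζ2 hz, ext_pair _ hz, ← h.p_eq hΨ hz]
    simp only [ext_eq _ _ hz]
    exact (hid _ (hm z hz)).2.2.2.1
  case ξ1_t =>
    intro z hz
    rw [h.d1_ext hΨ h.smξ1 hz, ext_pair _ hz]
    simp only [ext_eq _ _ hz]
    exact (hid _ (hm z hz)).2.2.2.2.1
  case ξ2_t =>
    intro z hz
    rw [h.d1_ext hΨ h.smξ2 hz, ext_pair _ hz]
    simp only [ext_eq _ _ hz]
    exact (hid _ (hm z hz)).2.2.2.2.2.1
  case q_v =>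
    intro z hz
    rw [h.d2_ext hΨ h.smq hz]
    simp only [ext_eq _ _ hz]
    exact (hid _ (hm z hz)).2.2.2.2.2.2.1
  case q_t =>
    intro z hz
    rw [h.d1_ext hΨ h.smq hz, ext_pair _ hz, ← h.p_eq hΨ hz]
    simp only [ext_eq _ _ hz]
    exact (hid _ (hm z hz)).2.2.2.2.2.2.2.1
  case gram12 =>
    intro z hz
    rw [ext_pair _ hz, ← h.p_eq hΨ hz]
    simp only [ext_eq _ _ hz]
    exact (hid _ (hm z hz)).2.2.2.2.2.2.2.2.1
  case gram22 =>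
    intro z hz
    rw [ext_pair _ hz, ← h.p_eq hΨ hz]
    simp only [ext_eq _ _ hz]
    exact (hid _ (hm z hz)).2.2.2.2.2.2.2.2.2
  case α0 =>
    rw [ext_eq _ _ h02, hΨ0]
    simp [αx, H.Yx0, h.d1p0 H.ty0 H.fxy0]
  case q0 =>
    rw [ext_eq _ _ h02, hΨ0]
    simp [qx, H.fx0, H.fy0]
  case ξ1_bd =>
    intro z hz
    rw [ext_eq _ _ hz]
    refine h.div_J_bd (hm z hz) ?_
    rw [abs_neg]
    linarith [h.ty _ (hm z hz)]
  case ξ2_bd =>
    intro z hz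
    rw [ext_eq _ _ hz]
    refine h.div_J_bd (hm z hz) ?_
    have := abs_le.1 (h.tx _ (hm z hz))
    rw [abs_le]; constructor <;> linarith [this.1, this.2]
  case ζ1_bd =>
    intro z hz
    rw [ext_eq _ _ hz]
    refine h.div_J_bd (hm z hz) ?_
    have := abs_le.1 (h.Yy _ (hm z hz))
    rw [abs_le]; constructor <;> linarith [this.1, this.2]
  case ζ2_bd =>
    intro z hz
    rw [ext_eq _ _ hz]
    refine h.div_J_bd (hm z hz) ?_
    rw [abs_neg]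
    linarith [h.Yx _ (hm z hz)]
  case geomx =>
    intro z hz
    rw [ext_eq _ _ hz]
    exact (abs_fst_le (Ψ z - z)).trans (hΨ.geom h.near (h23 hz))
  case geomy =>
    intro z hz
    rw [ext_eq _ _ hz]
    exact (abs_snd_le (Ψ z - z)).trans (hΨ.geom h.near (h23 hz))
  case t_eq =>
    show t (ext Ψ (fun z => z.1) z, ext Ψ (fun z => z.2) z) = z.1
    rw [ext_pair _ hz]
    exact hΨ.hu z (h23 hz)
  case p_eq =>
    show px t Y f (ext Ψ (fun z => z.1) z, ext Ψ (fun z => z.2) z) = aa f * z.2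
    rw [ext_pair _ hz]
    exact h.p_eq hΨ hz
  case q_eq =>
    show qx t Y f (ext Ψ (fun z => z.1) z, ext Ψ (fun z => z.2) z) = ext Ψ (qx t Y f) z
    rw [ext_pair _ hz, ext_eq _ _ hz]
  case cov =>
    show ∫ z in sq 2, g (ext Ψ (fun z => z.1) z, ext Ψ (fun z => z.2) z) * ext Ψ (βx t Y f) z
      = ∫ p in sq 1, g p * Jx t Y p
    rw [hΨ.cov h.near _ (fun w hw hn => by rw [ext_pair _ hw, hg _ hn, zero_mul])]
    refine setIntegral_congr_fun (measurableSet_sq 1) fun p hp => ?_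
    have hp4 : p ∈ sq 4 := sq_mono (by norm_num) hp
    have hp2 := h.near.maps hp
    have h2 := (h.D_pos hp4).ne'
    have h3 := h.apos.ne'
    rw [ext_pair _ hp2, ext_eq _ _ hp2, hΨ.left p hp4, h.D_eq hp4, βx]
    field_simp

end Crest.Agent.R220
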