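import Crest.Agent.R220.Basic

/-! The inverse of an almost-identity map of the square, and the change of variables. -/

set_option autoImplicit false
open scoped ContDiff Topology NNReal
open Set MeasureTheory Filter

namespace Crest.Agent.R220.CfgOf

/-- smooth on the square `sq 4` -/
def Sm (g : P → ℝ) : Prop := ∀ z ∈ sq 4, ContDiffAt ℝ ∞ g z

theorem Sm.diff {g : P → ℝ} (h : Sm g) {z : P} (hz : z ∈ sq 4) : DifferentiableAt ℝ g z :=
  (h z hz).differentiableAt (by simp)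

theorem det_eq (A : P →L[ℝ] P) :
    A.det = (A (1, 0)).1 * (A (0, 1)).2 - (A (0, 1)).1 * (A (1, 0)).2 := by
  rw [ContinuousLinearMap.det, ← LinearMap.det_toMatrix (Module.Basis.finTwoProd ℝ),
    Matrix.det_fin_two]
  simp [LinearMap.toMatrix_apply, Module.Basis.coe_finTwoProd_repr]

/-- the hypotheses on the map `(u, v)` -/
structure Near (u v : P → ℝ) : Prop where
  su : Sm u
  sv : Sm v
  u0 : u 0 = 0
  v0 : v 0 = 0
  b11 : ∀ z ∈ sq 4, |d1 u z - 1| ≤ 1 / 100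
  b12 : ∀ z ∈ sq 4, |d2 u z| ≤ 1 / 100
  b21 : ∀ z ∈ sq 4, |d1 v z| ≤ 1 / 100
  b22 : ∀ z ∈ sq 4, |d2 v z - 1| ≤ 1 / 100

variable {u v : P → ℝ}

theorem Near.hasFDerivAt (h : Near u v) {z : P} (hz : z ∈ sq 4) :
    HasFDerivAt (fun z => (u z, v z)) ((fderiv ℝ u z).prod (fderiv ℝ v z)) z :=
  (h.su.diff hz).hasFDerivAt.prodMk (h.sv.diff hz).hasFDerivAt

theorem det_prod (u v : P → ℝ) (z : P) :
    ((fderiv ℝ u z).prod (fderiv ℝ v z)).det = d1 u z * d2 v z - d2 u z * d1 v z := by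
  rw [det_eq]; rfl

theorem Near.det_bd (h : Near u v) {z : P} (hz : z ∈ sq 4) :
    49 / 50 ≤ d1 u z * d2 v z - d2 u z * d1 v z ∧ d1 u z * d2 v z - d2 u z * d1 v z ≤ 103 / 100 := by
  have h1 := abs_le.1 (h.b11 z hz)
  have h2 := abs_le.1 (h.b12 z hz)
  have h3 := abs_le.1 (h.b21 z hz)
  have h4 := abs_le.1 (h.b22 z hz)
  constructor <;> nlinarith [h1.1, h1.2, h2.1, h2.2, h3.1, h3.2, h4.1, h4.2]

theorem Near.approx (h : Near u v) {z z' : P} (hz : z ∈ sq 4) (hz' : z' ∈ sq 4) :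
    ‖(u z', v z') - (u z, v z) - (z' - z)‖ ≤ 1 / 50 * ‖z' - z‖ := by
  have h1 : |(u z' - z'.1) - (u z - z.1)| ≤ 1 / 50 * ‖z' - z‖ := by
    refine abs_sub_le_of_d (f := fun z => u z - z.1) (r := 4)
      (fun z hz => (h.su.diff hz).sub differentiableAt_fst) (fun z hz => ?_) hz hz'
    rw [d1_eq, d2_eq, dv_sub (h.su.diff hz) differentiableAt_fst,
      dv_sub (h.su.diff hz) differentiableAt_fst, dv_fst, dv_fst, ← d1_eq, ← d2_eq]
    have := h.b11 z hz
    have := h.b12 z hz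
    simp only [sub_zero]
    linarith
  have h2 : |(v z' - z'.2) - (v z - z.2)| ≤ 1 / 50 * ‖z' - z‖ := by
    refine abs_sub_le_of_d (f := fun z => v z - z.2) (r := 4)
      (fun z hz => (h.sv.diff hz).sub differentiableAt_snd) (fun z hz => ?_) hz hz'
    rw [d1_eq, d2_eq, dv_sub (h.sv.diff hz) differentiableAt_snd,
      dv_sub (h.sv.diff hz) differentiableAt_snd, dv_snd, dv_snd, ← d1_eq, ← d2_eq]
    have := h.b21 z hz
    have := h.b22 z hz
    simp only [sub_zero]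
    linarith
  rw [Prod.norm_def, max_le_iff]
  constructor
  · rw [Real.norm_eq_abs]
    refine le_of_eq_of_le (congrArg _ ?_) h1
    simp only [Prod.fst_sub]; ring
  · rw [Real.norm_eq_abs]
    refine le_of_eq_of_le (congrArg _ ?_) h2
    simp only [Prod.snd_sub]; ring

theorem zero_mem_sq {r : ℝ} (hr : 0 < r) : (0 : P) ∈ sq r := by simpa [mem_sq] using hr

theorem sq_mono {r r' : ℝ} (h : r ≤ r') : sq r ⊆ sq r' := Metric.ball_subset_ball h

theorem Near.approx0 (h : Near u v) {z : P} (hz : z ∈ sq 4) :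
    ‖(u z, v z) - z‖ ≤ 1 / 50 * ‖z‖ := by
  have := h.approx (zero_mem_sq (by norm_num)) hz
  rw [h.u0, h.v0] at this
  simpa [show ((0 : ℝ), (0 : ℝ)) = (0 : P) from rfl] using this

/-- the properties of the inverse map -/
structure Inv (u v : P → ℝ) (Ψ : P → P) : Prop where
  mem : ∀ w ∈ sq 3, Ψ w ∈ sq 4
  hu : ∀ w ∈ sq 3, u (Ψ w) = w.1
  hv : ∀ w ∈ sq 3, v (Ψ w) = w.2
  sm : ∀ w ∈ sq 3, ContDiffAt ℝ ∞ Ψ w
  left : ∀ z ∈ sq 4, Ψ (u z, v z) = z

theorem Near.exists_inv (h : Near u v) : ∃ Ψ, Inv u v Ψ := by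
  have hA : ApproximatesLinearOn (fun z => (u z, v z))
      ((ContinuousLinearEquiv.refl ℝ P : P ≃L[ℝ] P) : P →L[ℝ] P) (sq 4) (1 / 50 : ℝ≥0) := by
    intro x hx y hy
    simpa using h.approx hy hx
  have hN : ‖((ContinuousLinearEquiv.refl ℝ P).symm : P →L[ℝ] P)‖₊ = 1 := by
    simp
  have hc : Subsingleton P ∨
      (1 / 50 : ℝ≥0) < ‖((ContinuousLinearEquiv.refl ℝ P).symm : P →L[ℝ] P)‖₊⁻¹ := by
    right; rw [hN]; norm_num
  set e := hA.toOpenPartialHomeomorph (fun z => (u z, v z)) (sq 4) hc (isOpen_sq 4) with he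
  have hsub : sq 3 ⊆ e.target := by
    have h1 := hA.closedBall_subset_target hc (isOpen_sq 4) (b := 0) (ε := 7 / 2) (by norm_num)
      (Metric.closedBall_subset_ball (by norm_num))
    refine subset_trans ?_ h1
    rw [hN, h.u0, h.v0]
    refine Metric.ball_subset_closedBall.trans (Metric.closedBall_subset_closedBall ?_)
    norm_num
  have hr : ∀ w ∈ sq 3, (u (e.symm w), v (e.symm w)) = w := fun w hw => e.right_inv (hsub hw)
  have hm : ∀ w ∈ sq 3, e.symm w ∈ sq 4 := fun w hw => e.map_target (hsub hw)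
  refine ⟨e.symm, hm, fun w hw => congrArg Prod.fst (hr w hw),
    fun w hw => congrArg Prod.snd (hr w hw), fun w hw => ?_, fun z hz => e.left_inv hz⟩
  have hdet : ((fderiv ℝ u (e.symm w)).prod (fderiv ℝ v (e.symm w))).det ≠ 0 := by
    rw [det_prod]
    have := (h.det_bd (hm w hw)).1
    linarith
  refine e.contDiffAt_symm (f₀' := ContinuousLinearMap.toContinuousLinearEquivOfDetNeZero _ hdet)
    (hsub hw) ?_ ((h.su _ (hm w hw)).prodMk (h.sv _ (hm w hw)))
  rw [ContinuousLinearMap.coe_toContinuousLinearEquivOfDetNeZero]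
  exact h.hasFDerivAt (hm w hw)

variable {Ψ : P → P}

theorem Inv.geom (h : Near u v) (hΨ : Inv u v Ψ) {w : P} (hw : w ∈ sq 3) :
    ‖Ψ w - w‖ ≤ ‖w‖ / 40 := by
  have h1 := h.approx0 (hΨ.mem w hw)
  rw [hΨ.hu w hw, hΨ.hv w hw, norm_sub_rev] at h1
  have h2 : ‖Ψ w‖ ≤ ‖Ψ w - w‖ + ‖w‖ := by simpa using norm_add_le (Ψ w - w) w
  have h3 := norm_nonneg w
  change ‖Ψ w - w‖ ≤ _ at h1
  linarith

theorem Inv.zero (h : Near u v) (hΨ : Inv u v Ψ) : Ψ 0 = 0 := by
  have := hΨ.geom h (zero_mem_sq (r := 3) (by norm_num))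
  simpa using this

theorem Near.maps (h : Near u v) {z : P} (hz : z ∈ sq 1) : (u z, v z) ∈ sq 2 := by
  have h1 := h.approx0 (sq_mono (by norm_num) hz)
  rw [mem_sq] at hz ⊢
  have h2 : ‖(u z, v z)‖ ≤ ‖(u z, v z) - z‖ + ‖z‖ := by simpa using norm_add_le ((u z, v z) - z) z
  linarith

/-- change of variables -/
theorem Inv.cov (h : Near u v) (hΨ : Inv u v Ψ) (g : P → ℝ)
    (hg : ∀ w ∈ sq 2, Ψ w ∉ sq 1 → g w = 0) :
    ∫ w in sq 2, g w = ∫ p in sq 1, (d1 u p * d2 v p - d2 u p * d1 v p) * g (u p, v p) := by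
  have h14 : sq 1 ⊆ sq 4 := sq_mono (by norm_num)
  have h1 := integral_image_eq_integral_abs_det_fderiv_smul (μ := (volume : Measure P))
    (f := fun z => (u z, v z)) (f' := fun z => (fderiv ℝ u z).prod (fderiv ℝ v z))
    (measurableSet_sq 1) (fun x hx => (h.hasFDerivAt (h14 hx)).hasFDerivWithinAt)
    (fun x hx y hy hxy => by
      rw [← hΨ.left x (h14 hx), ← hΨ.left y (h14 hy)]
      exact congrArg Ψ hxy) g
  have h2 : ∫ w in sq 2, g w = ∫ w in (fun z => (u z, v z)) '' sq 1, g w := by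
    refine setIntegral_eq_of_subset_of_forall_sdiff_eq_zero (measurableSet_sq 2) ?_ ?_
    · rintro _ ⟨z, hz, rfl⟩
      exact h.maps hz
    · intro w hw
      refine hg w hw.1 fun hm => hw.2 ⟨Ψ w, hm, ?_⟩
      have h3 : w ∈ sq 3 := sq_mono (by norm_num) hw.1
      exact Prod.ext (hΨ.hu w h3) (hΨ.hv w h3)
  rw [h2, h1]
  refine setIntegral_congr_fun (measurableSet_sq 1) fun p hp => ?_
  have := (h.det_bd (h14 hp)).1
  simp only [det_prod, smul_eq_mul]
  rw [abs_of_nonneg (by linarith)]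

/-- chain rule through the inverse map -/
theorem Inv.chain (hΨ : Inv u v Ψ) {w : P} (hw : w ∈ sq 3) {g : P → ℝ}
    (hg : DifferentiableAt ℝ g (Ψ w)) (e : P) :
    dv e (fun w => g (Ψ w)) w = dv e (fun w => (Ψ w).1) w * d1 g (Ψ w)
      + dv e (fun w => (Ψ w).2) w * d2 g (Ψ w) := by
  have hd : DifferentiableAt ℝ Ψ w := (hΨ.sm w hw).differentiableAt (by simp)
  exact dv_comp2 (h := g) (x := fun w => (Ψ w).1) (y := fun w => (Ψ w).2) hg hd.fst hd.snd

/-- the derivative of a function composed with the inverse map -/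
theorem Inv.dv_comp (h : Near u v) (hΨ : Inv u v Ψ) {w : P} (hw : w ∈ sq 3) {g : P → ℝ}
    (hg : DifferentiableAt ℝ g (Ψ w)) (e : P) :
    dv e (fun w => g (Ψ w)) w =
      ((e.1 * d2 v (Ψ w) - e.2 * d2 u (Ψ w)) * d1 g (Ψ w)
        + (e.2 * d1 u (Ψ w) - e.1 * d1 v (Ψ w)) * d2 g (Ψ w))
      / (d1 u (Ψ w) * d2 v (Ψ w) - d2 u (Ψ w) * d1 v (Ψ w)) := by
  have hm := hΨ.mem w hw
  have h1 := hΨ.chain hw (h.su.diff hm) e
  have h2 := hΨ.chain hw (h.sv.diff hm) e
  have e1 : (fun w => u (Ψ w)) =ᶠ[𝓝 w] fun w => w.1 := by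
    filter_upwards [sq_mem_nhds hw] with x hx using hΨ.hu x hx
  have e2 : (fun w => v (Ψ w)) =ᶠ[𝓝 w] fun w => w.2 := by
    filter_upwards [sq_mem_nhds hw] with x hx using hΨ.hv x hx
  rw [(dv_congr e1).eq_of_nhds, dv_fst] at h1
  rw [(dv_congr e2).eq_of_nhds, dv_snd] at h2
  have hdet := (h.det_bd hm).1
  rw [hΨ.chain hw hg e, eq_div_iff (by linarith), h1, h2]
  ring

/-- a cutoff which is `1` on `sq 2` and has its support well inside `sq 3` -/
noncomputable def cutoff : ContDiffBump (0 : P) := ⟨2, 5 / 2, by norm_num, by norm_num⟩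

/-- global smooth extension of `g ∘ Ψ` from `sq 2` -/
noncomputable def ext (Ψ : P → P) (g : P → ℝ) : P → ℝ := fun w => cutoff w * g (Ψ w)

theorem ext_eq (Ψ : P → P) (g : P → ℝ) {w : P} (hw : w ∈ sq 2) : ext Ψ g w = g (Ψ w) := by
  have : cutoff w = 1 := cutoff.one_of_mem_closedBall (Metric.ball_subset_closedBall hw)
  simp [ext, this]

theorem ext_ev (Ψ : P → P) (g : P → ℝ) {w : P} (hw : w ∈ sq 2) :
    ext Ψ g =ᶠ[𝓝 w] fun w => g (Ψ w) := by
  filter_upwards [sq_mem_nhds hw] with x hx using ext_eq Ψ g hx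

theorem Inv.contDiff_ext (hΨ : Inv u v Ψ) {g : P → ℝ} (hg : Sm g) : ContDiff ℝ ∞ (ext Ψ g) := by
  refine contDiff_iff_contDiffAt.2 fun w => ?_
  by_cases hw : w ∈ sq 3
  · exact cutoff.contDiff.contDiffAt.mul ((hg _ (hΨ.mem w hw)).comp w (hΨ.sm w hw))
  · have h0 : ext Ψ g =ᶠ[𝓝 w] fun _ => 0 := by
      have hw' : w ∈ (Metric.closedBall (0 : P) (5 / 2))ᶜ := fun hc =>
        hw (Metric.closedBall_subset_ball (by norm_num) hc)
      filter_upwards [Metric.isClosed_closedBall.isOpen_compl.mem_nhds hw'] with x hx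
      have : cutoff x = 0 := cutoff.zero_of_le_dist (by
        simp only [mem_compl_iff, Metric.mem_closedBall, not_le] at hx
        exact hx.le)
      simp [ext, this]
    exact contDiffAt_const.congr_of_eventuallyEq h0

end Crest.Agent.R220.CfgOf
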