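import Crest.Agent.R220.Basic

/-! Uniform `L²` / `L^∞` classes for families of functions. -/

set_option autoImplicit false
open scoped ContDiff Topology
open Set MeasureTheory Filter

namespace Crest.Agent.R220

theorem d2_eq_deriv {f : P → ℝ} (hf : Differentiable ℝ f) (t v : ℝ) :
    d2 f (t, v) = deriv (fun v => f (t, v)) v := by
  have h1 : HasDerivAt (fun v : ℝ => ((t, v) : P)) (0, 1) v :=
    (hasDerivAt_const v t).prodMk (hasDerivAt_id v)
  exact ((hf (t, v)).hasFDerivAt.comp_hasDerivAt v h1).deriv.symm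

theorem d2_iter_eq {f : P → ℝ} (hf : ContDiff ℝ ∞ f) (t : ℝ) :
    ∀ (n : ℕ) (v : ℝ), d2^[n] f (t, v) = iteratedDeriv n (fun v => f (t, v)) v
  | 0, v => by simp
  | n + 1, v => by
    rw [Function.iterate_succ_apply', iteratedDeriv_succ,
      d2_eq_deriv ((contDiff_d2_iter hf n).differentiable (by simp))]
    congr 1
    funext v
    exact d2_iter_eq hf t n v

theorem d2_iter_mul {f g : P → ℝ} (hf : ContDiff ℝ ∞ f) (hg : ContDiff ℝ ∞ g) (n : ℕ) (z : P) :
    d2^[n] (fun z => f z * g z) z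
      = ∑ i ∈ Finset.range (n + 1), (n.choose i : ℝ) * (d2^[i] f z * d2^[n - i] g z) := by
  obtain ⟨t, v⟩ := z
  have hf' : ContDiff ℝ n (fun v => f (t, v)) :=
    (hf.of_le (by exact_mod_cast le_top)).comp (by fun_prop)
  have hg' : ContDiff ℝ n (fun v => g (t, v)) :=
    (hg.of_le (by exact_mod_cast le_top)).comp (by fun_prop)
  rw [d2_iter_eq (hf.mul hg), iteratedDeriv_fun_mul hf'.contDiffAt hg'.contDiffAt]
  refine Finset.sum_congr rfl fun i _ => ?_
  rw [d2_iter_eq hf, d2_iter_eq hg, mul_assoc]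

theorem d2_iter_add {f g : P → ℝ} (hf : ContDiff ℝ ∞ f) (hg : ContDiff ℝ ∞ g) :
    ∀ (n : ℕ), d2^[n] (fun z => f z + g z) = fun z => d2^[n] f z + d2^[n] g z
  | 0 => rfl
  | n + 1 => by
    rw [Function.iterate_succ_apply', d2_iter_add hf hg n]
    funext z
    rw [Function.iterate_succ_apply', Function.iterate_succ_apply']
    exact dv_add ((contDiff_d2_iter hf n).differentiable (by simp) z)
      ((contDiff_d2_iter hg n).differentiable (by simp) z)

theorem d2_iter_neg {f : P → ℝ} : ∀ (n : ℕ), d2^[n] (fun z => - f z) = fun z => - d2^[n] f z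
  | 0 => rfl
  | n + 1 => by
    rw [Function.iterate_succ_apply', d2_iter_neg n]
    funext z
    rw [Function.iterate_succ_apply']
    exact dv_neg

theorem d1_d2_iter {f : P → ℝ} (hf : ContDiff ℝ ∞ f) :
    ∀ (n : ℕ), d1 (d2^[n] f) = d2^[n] (d1 f)
  | 0 => rfl
  | n + 1 => by
    rw [Function.iterate_succ_apply', Function.iterate_succ_apply', ← d1_d2_iter hf n]
    funext z
    exact d1_d2_comm (contDiff_d2_iter hf n).contDiffAt

theorem eventuallyEq_of_sq {f g : P → ℝ} {r : ℝ} (h : ∀ z ∈ sq r, f z = g z) {z : P}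
    (hz : z ∈ sq r) : f =ᶠ[𝓝 z] g := by
  filter_upwards [sq_mem_nhds hz] with x hx using h x hx

theorem d2_iter_congr_sq {f g : P → ℝ} {r : ℝ} (h : ∀ z ∈ sq r, f z = g z) (j : ℕ) :
    ∀ z ∈ sq r, d2^[j] f z = d2^[j] g z :=
  fun _ hz => (d2_iter_congr (eventuallyEq_of_sq h hz) j).eq_of_nhds

theorem volume_real_sq2 : (volume : Measure P).real (sq 2) = 16 := by
  have : sq 2 = Metric.ball (0 : ℝ) 2 ×ˢ Metric.ball (0 : ℝ) 2 := by
    rw [sq, ball_prod_same]; rfl
  rw [this, Measure.volume_eq_prod, Measure.real, Measure.prod_prod, Real.volume_ball]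
  norm_num

abbrev Fam := ℕ → P → ℝ

def Sm (f : Fam) : Prop := ∀ n, ContDiff ℝ ∞ (f n)

/-- a family of measurable subsets of the square -/
structure Dom where
  Ω : ℕ → Set P
  sub : ∀ n, Ω n ⊆ sq 2
  meas : ∀ n, MeasurableSet (Ω n)

def L2 (O : Dom) (g : ℕ → ℝ) (f : Fam) : Prop :=
  ∃ C, ∀ n, ∫ z in O.Ω n, f n z ^ 2 ≤ C * g n ^ 2

def Bd (O : Dom) (f : Fam) : Prop := ∃ C, ∀ n, ∀ z ∈ O.Ω n, |f n z| ≤ C

noncomputable def D (j : ℕ) (f : Fam) : Fam := fun n => d2^[j] (f n)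

theorem Sm.D {f : Fam} (hf : Sm f) (j : ℕ) : Sm (D j f) := fun n => contDiff_d2_iter (hf n) j
theorem Sm.mul {f g : Fam} (hf : Sm f) (hg : Sm g) : Sm (fun n z => f n z * g n z) :=
  fun n => (hf n).mul (hg n)
theorem Sm.add {f g : Fam} (hf : Sm f) (hg : Sm g) : Sm (fun n z => f n z + g n z) :=
  fun n => (hf n).add (hg n)
theorem Sm.neg {f : Fam} (hf : Sm f) : Sm (fun n z => - f n z) := fun n => (hf n).neg
theorem Sm.const (c : ℕ → ℝ) : Sm (fun n _ => c n) := fun _ => contDiff_const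

section L2
variable {O : Dom} {g g' : ℕ → ℝ} {f f' : Fam}

theorem Dom.int (O : Dom) {h : P → ℝ} (hh : Continuous h) (n : ℕ) : IntegrableOn h (O.Ω n) :=
  integrableOn_of_subset_sq hh (O.sub n)

theorem L2.nonneg (h : L2 O g f) : ∃ C, 0 ≤ C ∧ ∀ n, ∫ z in O.Ω n, f n z ^ 2 ≤ C * g n ^ 2 := by
  obtain ⟨C, hC⟩ := h
  exact ⟨max C 0, le_max_right _ _, fun n => (hC n).trans (by gcongr; exact le_max_left _ _)⟩

theorem Bd.nonneg (h : Bd O f) : ∃ C, 0 ≤ C ∧ ∀ n, ∀ z ∈ O.Ω n, |f n z| ≤ C := by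
  obtain ⟨C, hC⟩ := h
  exact ⟨max C 0, le_max_right _ _, fun n z hz => (hC n z hz).trans (le_max_left _ _)⟩

/-- comparison -/
theorem L2.of_le (hf : Sm f) (hf' : Sm f') (h : L2 O g f') (c : ℝ)
    (hle : ∀ n, ∀ z ∈ O.Ω n, f n z ^ 2 ≤ c * f' n z ^ 2) (hc : 0 ≤ c) : L2 O g f := by
  obtain ⟨C, hC⟩ := h
  refine ⟨c * C, fun n => ?_⟩
  calc ∫ z in O.Ω n, f n z ^ 2 ≤ ∫ z in O.Ω n, c * f' n z ^ 2 :=
        setIntegral_mono_on (O.int ((hf n).continuous.pow 2) n)
          (O.int (continuous_const.mul ((hf' n).continuous.pow 2)) n) (O.meas n) (hle n)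
    _ = c * ∫ z in O.Ω n, f' n z ^ 2 := integral_const_mul _ _
    _ ≤ c * (C * g n ^ 2) := by gcongr; exact hC n
    _ = _ := by ring

theorem L2.congr (h : L2 O g f') (heq : ∀ n, ∀ z ∈ O.Ω n, f n z = f' n z) : L2 O g f := by
  obtain ⟨C, hC⟩ := h
  refine ⟨C, fun n => ?_⟩
  rw [setIntegral_congr_fun (O.meas n) (g := fun z => f' n z ^ 2)
    (fun z hz => by simp only [heq n z hz])]
  exact hC n

theorem Bd.congr (h : Bd O f') (heq : ∀ n, ∀ z ∈ O.Ω n, f n z = f' n z) : Bd O f := by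
  obtain ⟨C, hC⟩ := h
  exact ⟨C, fun n z hz => by rw [heq n z hz]; exact hC n z hz⟩

theorem L2.mono (h : L2 O g f) (h0 : ∀ n, 0 ≤ g n) (hle : ∀ n, g n ≤ g' n) : L2 O g' f := by
  obtain ⟨C, hC0, hC⟩ := h.nonneg
  exact ⟨C, fun n => (hC n).trans (by gcongr; exacts [h0 n, hle n])⟩

theorem L2.add (hf : Sm f) (hf' : Sm f') (h : L2 O g f) (h' : L2 O g f') :
    L2 O g (fun n z => f n z + f' n z) := by
  obtain ⟨C, hC⟩ := h
  obtain ⟨C', hC'⟩ := h'
  refine ⟨2 * C + 2 * C', fun n => ?_⟩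
  have i1 : IntegrableOn (fun z => f n z ^ 2) _ := O.int ((hf n).continuous.pow 2) n
  have i2 : IntegrableOn (fun z => f' n z ^ 2) _ := O.int ((hf' n).continuous.pow 2) n
  calc ∫ z in O.Ω n, (f n z + f' n z) ^ 2 ≤ ∫ z in O.Ω n, (2 * f n z ^ 2 + 2 * f' n z ^ 2) :=
        setIntegral_mono_on (O.int (((hf n).add (hf' n)).continuous.pow 2) n)
          (O.int (by have := (hf n).continuous; have := (hf' n).continuous; fun_prop) n) (O.meas n)
          (fun z _ => by nlinarith [sq_nonneg (f n z - f' n z)])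
    _ = 2 * (∫ z in O.Ω n, f n z ^ 2) + 2 * ∫ z in O.Ω n, f' n z ^ 2 := by
        rw [integral_add (i1.const_mul 2) (i2.const_mul 2), integral_const_mul, integral_const_mul]
    _ ≤ _ := by nlinarith [hC n, hC' n]

theorem L2.neg (h : L2 O g f) : L2 O g (fun n z => - f n z) := by
  obtain ⟨C, hC⟩ := h
  exact ⟨C, fun n => by simpa using hC n⟩

theorem L2.bd_mul (hf : Sm f) (hf' : Sm f') (h : Bd O f) (h' : L2 O g f') :
    L2 O g (fun n z => f n z * f' n z) := by
  obtain ⟨C, hC0, hC⟩ := h.nonneg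
  refine L2.of_le (hf.mul hf') hf' h' (C ^ 2) (fun n z hz => ?_) (by positivity)
  rw [mul_pow]
  exact mul_le_mul_of_nonneg_right
    (sq_le_sq' (abs_le.1 (hC n z hz)).1 (abs_le.1 (hC n z hz)).2) (sq_nonneg _)

theorem L2.mul_bd (hf : Sm f) (hf' : Sm f') (h : L2 O g f) (h' : Bd O f') :
    L2 O g (fun n z => f n z * f' n z) :=
  (L2.bd_mul hf' hf h' h).congr fun _ _ _ => mul_comm _ _

theorem L2.one (h1 : ∀ n, 1 ≤ g n) : L2 O g (fun _ _ => 1) := by
  refine ⟨16, fun n => ?_⟩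
  have : (volume : Measure P).real (O.Ω n) ≤ 16 := by
    rw [← volume_real_sq2]
    exact measureReal_mono (O.sub n) (Metric.isBounded_ball.measure_lt_top.ne)
  simp only [one_pow, integral_const, MeasurableSet.univ, measureReal_restrict_apply, univ_inter,
    smul_eq_mul, mul_one]
  nlinarith [h1 n]

theorem L2.of_bd (hf : Sm f) (h : Bd O f) (h1 : ∀ n, 1 ≤ g n) : L2 O g f :=
  (L2.bd_mul hf (Sm.const fun _ => 1) h (L2.one h1)).congr fun _ _ _ => (mul_one _).symm

theorem Bd.const {c : ℕ → ℝ} {C : ℝ} (h : ∀ n, |c n| ≤ C) : Bd O (fun n _ => c n) :=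
  ⟨C, fun n _ _ => h n⟩

theorem Bd.add (h : Bd O f) (h' : Bd O f') : Bd O (fun n z => f n z + f' n z) := by
  obtain ⟨C, hC⟩ := h
  obtain ⟨C', hC'⟩ := h'
  exact ⟨C + C', fun n z hz => (abs_add_le _ _).trans (add_le_add (hC n z hz) (hC' n z hz))⟩

theorem Bd.neg (h : Bd O f) : Bd O (fun n z => - f n z) := by
  obtain ⟨C, hC⟩ := h
  exact ⟨C, fun n z hz => by simpa using hC n z hz⟩

theorem Bd.mul (h : Bd O f) (h' : Bd O f') : Bd O (fun n z => f n z * f' n z) := by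
  obtain ⟨C, hC0, hC⟩ := h.nonneg
  obtain ⟨C', hC'⟩ := h'
  exact ⟨C * C', fun n z hz => by
    rw [abs_mul]; exact mul_le_mul (hC n z hz) (hC' n z hz) (abs_nonneg _) hC0⟩

theorem Sm.sum {ι : Type*} (s : Finset ι) {F : ι → Fam} (h : ∀ i ∈ s, Sm (F i)) :
    Sm (fun n z => ∑ i ∈ s, F i n z) :=
  fun n => ContDiff.sum fun i hi => h i hi n

theorem L2.sum {ι : Type*} (s : Finset ι) {F : ι → Fam} (hs : ∀ i ∈ s, Sm (F i))
    (h : ∀ i ∈ s, L2 O g (F i)) : L2 O g (fun n z => ∑ i ∈ s, F i n z) := by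
  classical
  induction s using Finset.induction_on with
  | empty => exact ⟨0, fun n => by simp⟩
  | insert a s ha ih =>
    have h1 := ih (fun i hi => hs i (Finset.mem_insert_of_mem hi))
      (fun i hi => h i (Finset.mem_insert_of_mem hi))
    refine (L2.add (hs a (Finset.mem_insert_self _ _))
      (Sm.sum s fun i hi => hs i (Finset.mem_insert_of_mem hi))
      (h a (Finset.mem_insert_self _ _)) h1).congr fun n z _ => ?_
    rw [Finset.sum_insert ha]

theorem Bd.sum {ι : Type*} (s : Finset ι) {F : ι → Fam}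
    (h : ∀ i ∈ s, Bd O (F i)) : Bd O (fun n z => ∑ i ∈ s, F i n z) := by
  classical
  induction s using Finset.induction_on with
  | empty => exact ⟨0, fun n => by simp⟩
  | insert a s ha ih =>
    have h1 := ih (fun i hi => h i (Finset.mem_insert_of_mem hi))
    refine (Bd.add (h a (Finset.mem_insert_self _ _)) h1).congr fun n z _ => ?_
    rw [Finset.sum_insert ha]

theorem L2.const_mul (c : ℝ) (hf : Sm f) (h : L2 O g f) : L2 O g (fun n z => c * f n z) :=
  L2.bd_mul (Sm.const fun _ => c) hf (Bd.const (C := |c|) fun _ => le_rfl) h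

theorem Bd.const_mul (c : ℝ) (h : Bd O f) : Bd O (fun n z => c * f n z) :=
  Bd.mul (Bd.const (C := |c|) fun _ => le_rfl) h

theorem L2.subset {O' : Dom} (hf : Sm f) (h : L2 O g f) (hs : ∀ n, O'.Ω n ⊆ O.Ω n) :
    L2 O' g f := by
  obtain ⟨C, hC⟩ := h
  refine ⟨C, fun n => le_trans ?_ (hC n)⟩
  exact setIntegral_mono_set (O.int ((hf n).continuous.pow 2) n)
    (Eventually.of_forall fun z => sq_nonneg _) (hs n).eventuallyLE

theorem Bd.subset {O' : Dom} (h : Bd O f) (hs : ∀ n, O'.Ω n ⊆ O.Ω n) : Bd O' f := by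
  obtain ⟨C, hC⟩ := h
  exact ⟨C, fun n z hz => hC n z (hs n hz)⟩

end L2

/-- weights and thresholds -/
structure Ctx extends Dom where
  G : ℕ → ℕ → ℝ
  l : ℕ
  N : ℕ
  G1 : ∀ o n, 1 ≤ G o n
  Gm : ∀ o o' n, o ≤ o' → G o n ≤ G o' n

/-- `f` has order `o`, up to `J` derivatives -/
def Cl (X : Ctx) (o J : ℕ) (f : Fam) : Prop :=
  Sm f ∧ ∀ j ≤ J, o + j ≤ X.N →
    L2 X.toDom (X.G (o + j)) (D j f) ∧ (o + j ≤ X.l → Bd X.toDom (D j f))

section Cl
variable {X : Ctx} {o o' J J' : ℕ} {f g : Fam}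

theorem Ctx.L2_mono {r r' : ℕ} (h : L2 X.toDom (X.G r) f) (hr : r ≤ r') :
    L2 X.toDom (X.G r') f :=
  h.mono (fun n => zero_le_one.trans (X.G1 r n)) fun n => X.Gm _ _ n hr

theorem Cl.mono (h : Cl X o J f) (ho : o ≤ o') : Cl X o' J f :=
  ⟨h.1, fun j hj hN => ⟨X.L2_mono (h.2 j hj (by omega)).1 (by omega),
    fun hl => (h.2 j hj (by omega)).2 (by omega)⟩⟩

theorem Cl.monoJ (h : Cl X o J f) (hJ : J' ≤ J) : Cl X o J' f :=
  ⟨h.1, fun j hj hN => h.2 j (by omega) hN⟩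

theorem Cl.congr (h : Cl X o J f) (hg : Sm g) (heq : ∀ n, ∀ z ∈ sq 2, g n z = f n z) :
    Cl X o J g := by
  refine ⟨hg, fun j hj hN => ?_⟩
  have e : ∀ n, ∀ z ∈ X.Ω n, D j g n z = D j f n z :=
    fun n z hz => d2_iter_congr_sq (heq n) j z (X.sub n hz)
  exact ⟨(h.2 j hj hN).1.congr e, fun hl => ((h.2 j hj hN).2 hl).congr e⟩

theorem Cl.term {i i' r : ℕ} (hf : Cl X o J f) (hg : Cl X o' J' g) (hi : i ≤ J) (hi' : i' ≤ J')
    (h1 : o + i ≤ r) (h2 : o' + i' ≤ r) (hr : r ≤ X.N) (hs : o + i + (o' + i') ≤ 2 * X.l + 1) :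
    L2 X.toDom (X.G r) (fun n z => D i f n z * D i' g n z) := by
  by_cases h : o + i ≤ X.l
  · exact L2.bd_mul (hf.1.D i) (hg.1.D i') ((hf.2 i hi (by omega)).2 h)
      (X.L2_mono (hg.2 i' hi' (by omega)).1 h2)
  · exact L2.mul_bd (hf.1.D i) (hg.1.D i') (X.L2_mono (hf.2 i hi (by omega)).1 h1)
      ((hg.2 i' hi' (by omega)).2 (by omega))

theorem Cl.mul {r : ℕ} (hN : X.N + 3 ≤ 2 * X.l + 1) (hf : Cl X o J f) (hg : Cl X o' J g)
    (h1 : o ≤ r) (h2 : o' ≤ r) (h3 : o ≤ 3) : Cl X r J (fun n z => f n z * g n z) := by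
  refine ⟨hf.1.mul hg.1, fun j hj hr => ⟨?_, fun hl => ?_⟩⟩
  · refine (L2.sum (Finset.range (j + 1))
      (F := fun i n z => (j.choose i : ℝ) * (D i f n z * D (j - i) g n z))
      (fun i _ => (Sm.const _).mul ((hf.1.D i).mul (hg.1.D _))) (fun i hi => ?_)).congr
      fun n z _ => d2_iter_mul (hf.1 n) (hg.1 n) j z
    have := Finset.mem_range.1 hi
    exact L2.const_mul _ ((hf.1.D i).mul (hg.1.D _))
      (hf.term hg (by omega) (by omega) (by omega) (by omega) hr (by omega))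
  · refine (Bd.sum (Finset.range (j + 1))
      (F := fun i n z => (j.choose i : ℝ) * (D i f n z * D (j - i) g n z))
      (fun i hi => ?_)).congr fun n z _ => d2_iter_mul (hf.1 n) (hg.1 n) j z
    have := Finset.mem_range.1 hi
    exact Bd.const_mul _ (((hf.2 i (by omega) (by omega)).2 (by omega)).mul
      ((hg.2 (j - i) (by omega) (by omega)).2 (by omega)))

theorem Cl.add (hf : Cl X o J f) (hg : Cl X o J g) : Cl X o J (fun n z => f n z + g n z) := by
  refine ⟨hf.1.add hg.1, fun j hj hr => ?_⟩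
  have e : ∀ n, ∀ z ∈ X.Ω n, D j (fun n z => f n z + g n z) n z = D j f n z + D j g n z :=
    fun n z _ => congrFun (d2_iter_add (hf.1 n) (hg.1 n) j) z
  exact ⟨(L2.add (hf.1.D j) (hg.1.D j) (hf.2 j hj hr).1 (hg.2 j hj hr).1).congr e,
    fun hl => (((hf.2 j hj hr).2 hl).add ((hg.2 j hj hr).2 hl)).congr e⟩

theorem Cl.neg (hf : Cl X o J f) : Cl X o J (fun n z => - f n z) := by
  refine ⟨hf.1.neg, fun j hj hr => ?_⟩
  have e : ∀ n, ∀ z ∈ X.Ω n, D j (fun n z => - f n z) n z = - D j f n z :=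
    fun n z _ => congrFun (d2_iter_neg j) z
  exact ⟨(hf.2 j hj hr).1.neg.congr e, fun hl => ((hf.2 j hj hr).2 hl).neg.congr e⟩

theorem Cl.sub (hf : Cl X o J f) (hg : Cl X o J g) : Cl X o J (fun n z => f n z - g n z) := by
  simpa only [sub_eq_add_neg] using hf.add hg.neg

theorem Cl.zero (hf : Sm f) (h : L2 X.toDom (X.G o) f) (hb : o ≤ X.l → Bd X.toDom f) :
    Cl X o 0 f :=
  ⟨hf, fun j hj _ => by obtain rfl : j = 0 := by omega
                        exact ⟨h, hb⟩⟩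

theorem Cl.zero' (hf : Sm f) (hb : Bd X.toDom f) : Cl X o 0 f :=
  Cl.zero hf (L2.of_bd hf hb (X.G1 o)) fun _ => hb

theorem Cl.succ (h0 : Cl X o 0 f) (h : Cl X (o + 1) J (fun n => d2 (f n))) :
    Cl X o (J + 1) f := by
  refine ⟨h0.1, fun j hj hr => ?_⟩
  rcases j with _ | j
  · exact h0.2 0 le_rfl hr
  · have := h.2 j (by omega) (by omega)
    rw [show o + 1 + j = o + (j + 1) by omega] at this
    exact this

theorem Cl.deriv (h : Cl X o (J + 1) f) : Cl X (o + 1) J (fun n => d2 (f n)) := by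
  refine ⟨fun n => contDiff_d2 (h.1 n), fun j hj hr => ?_⟩
  have := h.2 (j + 1) (by omega) (by omega)
  rw [show o + 1 + j = o + (j + 1) by omega]
  exact this

theorem Cl.const {c : ℕ → ℝ} {C : ℝ} (h : ∀ n, |c n| ≤ C) : ∀ {o J}, Cl X o J (fun n _ => c n) := by
  have h0 : ∀ J o, Cl X o J (fun _ _ => 0) := by
    intro J
    induction J with
    | zero => exact fun o => Cl.zero' (Sm.const _) (Bd.const (C := 0) (by simp))
    | succ J ih =>
      intro o
      refine Cl.succ (Cl.zero' (Sm.const _) (Bd.const (C := 0) (by simp))) ?_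
      exact (ih (o + 1)).congr (fun n => contDiff_d2 contDiff_const) fun n z _ => dv_const 0
  intro o J
  rcases J with _ | J
  · exact Cl.zero' (Sm.const _) (Bd.const h)
  · refine Cl.succ (Cl.zero' (Sm.const _) (Bd.const h)) ?_
    exact (h0 J (o + 1)).congr (fun n => contDiff_d2 contDiff_const) fun n z _ => dv_const _

theorem Cl.num (c : ℝ) : Cl X o J (fun _ _ => c) := Cl.const (C := |c|) fun _ => le_rfl

theorem Cl.snd : Cl X o J (fun _ z => z.2) := by
  have hb : Bd X.toDom (fun _ z => z.2) :=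
    ⟨2, fun n z hz => (mem_sq'.1 (X.sub n hz)).2.le⟩
  have hs : Sm (fun _ z => z.2) := fun _ => contDiff_snd
  rcases J with _ | J
  · exact Cl.zero' hs hb
  · refine Cl.succ (Cl.zero' hs hb) ?_
    exact (Cl.num 1).congr (fun n => contDiff_d2 contDiff_snd) fun n z _ => dv_snd

/-- Leibniz with the top derivative on the first factor removed -/
theorem Cl.top {s r : ℕ} (hf : Cl X o J f) (hg : Cl X o' J' g) (hJ : s ≤ J + 1) (hJ' : s ≤ J')
    (h1 : o + s ≤ r + 1) (h2 : o' + s ≤ r) (hr : r ≤ X.N) (hs : o + o' + s ≤ 2 * X.l + 1) :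
    L2 X.toDom (X.G r) (fun n z => D s (fun n z => f n z * g n z) n z - D s f n z * g n z) := by
  refine (L2.sum (Finset.range s)
      (F := fun i n z => (s.choose i : ℝ) * (D i f n z * D (s - i) g n z))
      (fun i _ => (Sm.const _).mul ((hf.1.D i).mul (hg.1.D _))) (fun i hi => ?_)).congr
      fun n z _ => ?_
  · have := Finset.mem_range.1 hi
    exact L2.const_mul _ ((hf.1.D i).mul (hg.1.D _))
      (hf.term hg (by omega) (by omega) (by omega) (by omega) hr (by omega))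
  · simp only [D]
    rw [d2_iter_mul (hf.1 n) (hg.1 n), Finset.sum_range_succ]
    simp

/-- Leibniz with three terms removed -/
theorem Cl.top3 {s r : ℕ} (hf : Cl X o J f) (hg : Cl X o' J' g) (hJ : s ≤ J) (hJ' : s + 1 ≤ J')
    (h1 : o + s ≤ r) (h2 : o' + s + 1 ≤ r) (hr : r ≤ X.N) (hs : o + o' + s + 2 ≤ 2 * X.l + 1) :
    L2 X.toDom (X.G r) (fun n z => D (s + 2) (fun n z => f n z * g n z) n z
      - (D (s + 2) f n z * g n z + (s + 2) * (D (s + 1) f n z * d2 (g n) z)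
        + f n z * D (s + 2) g n z)) := by
  refine (L2.sum (Finset.range s)
      (F := fun i n z => ((s + 2).choose (i + 1) : ℝ) * (D (i + 1) f n z * D (s + 2 - (i + 1)) g n z))
      (fun i _ => (Sm.const _).mul ((hf.1.D _).mul (hg.1.D _))) (fun i hi => ?_)).congr
      fun n z _ => ?_
  · have := Finset.mem_range.1 hi
    exact L2.const_mul _ ((hf.1.D _).mul (hg.1.D _))
      (hf.term hg (by omega) (by omega) (by omega) (by omega) hr (by omega))
  · simp only [D]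
    rw [d2_iter_mul (hf.1 n) (hg.1 n), Finset.sum_range_succ, Finset.sum_range_succ,
      Finset.sum_range_succ']
    have e1 : (s + 2).choose (s + 1) = s + 2 := Nat.choose_succ_self_right _
    simp only [e1, Nat.choose_self, Nat.choose_zero_right, Nat.sub_self, Nat.sub_zero,
      show s + 2 - (s + 1) = 1 by omega, Function.iterate_zero, Function.iterate_one, id]
    push_cast
    ring

end Cl

end Crest.Agent.R220
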