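import Crest.Agent.R220.Iter

/-! Reflection, the analytic core and the local obstruction. -/

set_option autoImplicit false
open scoped ContDiff Topology
open Set MeasureTheory Filter

namespace Crest.Agent.R220

/-- reflection in the first axis -/
def rf (z : P) : P := (z.1, -z.2)

theorem contDiff_rf : ContDiff ℝ ∞ rf := by unfold rf; fun_prop
theorem norm_rf (z : P) : ‖rf z‖ = ‖z‖ := by simp [rf, Prod.norm_def]
theorem rf_mem {r : ℝ} {z : P} (hz : z ∈ sq r) : rf z ∈ sq r := by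
  rw [mem_sq] at *; rwa [norm_rf]

theorem d1_rf {f : P → ℝ} (hf : ContDiff ℝ ∞ f) (z : P) :
    d1 (fun z => f (rf z)) z = d1 f (rf z) := by
  have := dv_comp2 (e := (1, 0)) (z := z) (h := f) (x := fun z => z.1) (y := fun z => -z.2)
    (hf.differentiable (by simp) _) (by fun_prop) (by fun_prop)
  rw [dv_neg, dv_fst, dv_snd] at this
  simp only [one_mul, neg_zero, zero_mul, add_zero] at this
  exact this

theorem d2_rf {f : P → ℝ} (hf : ContDiff ℝ ∞ f) (z : P) :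
    d2 (fun z => f (rf z)) z = - d2 f (rf z) := by
  have := dv_comp2 (e := (0, 1)) (z := z) (h := f) (x := fun z => z.1) (y := fun z => -z.2)
    (hf.differentiable (by simp) _) (by fun_prop) (by fun_prop)
  rw [dv_neg, dv_fst, dv_snd] at this
  simp only [one_mul, neg_mul, zero_mul, zero_add] at this
  exact this

theorem d2_iter_rf {f : P → ℝ} (hf : ContDiff ℝ ∞ f) :
    ∀ j : ℕ, d2^[j] (fun z => f (rf z)) = fun z => (-1) ^ j * d2^[j] f (rf z)
  | 0 => by simp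
  | j + 1 => by
    rw [Function.iterate_succ_apply', d2_iter_rf hf j]
    funext z
    have h := contDiff_d2_iter hf j
    rw [d2_eq, dv_const_mul (f := fun z => d2^[j] f (rf z)) _
      ((h.comp contDiff_rf).differentiable (by simp) z), ← d2_eq, d2_rf h,
      Function.iterate_succ_apply']
    ring

theorem d1_neg_rf {f : P → ℝ} (hf : ContDiff ℝ ∞ f) (z : P) :
    d1 (fun z => - f (rf z)) z = - d1 f (rf z) := by
  rw [d1_eq, dv_neg, ← d1_eq, d1_rf hf]

theorem d2_neg_rf {f : P → ℝ} (hf : ContDiff ℝ ∞ f) (z : P) :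
    d2 (fun z => - f (rf z)) z = d2 f (rf z) := by
  rw [d2_eq, dv_neg, ← d2_eq, d2_rf hf, neg_neg]

/-- the reflected configuration -/
noncomputable def Cfg.refl {φ : P → ℝ} {a0 M : ℝ} (c : Cfg φ a0 M)
    (hφ : ∀ z, φ (rf z) = φ z) (h1 : ∀ z, d1 φ (rf z) = d1 φ z) (h2 : ∀ z, d2 φ (rf z) = - d2 φ z)
    (hK : ∀ z, Kf φ (rf z) = Kf φ z) : Cfg φ a0 M where
  a := c.a
  x z := c.x (rf z)
  y z := - c.y (rf z)
  ξ1 z := - c.ξ1 (rf z)
  ξ2 z := c.ξ2 (rf z)
  ζ1 z := c.ζ1 (rf z)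
  ζ2 z := - c.ζ2 (rf z)
  q z := c.q (rf z)
  α z := - c.α (rf z)
  β z := c.β (rf z)
  smx := c.smx.comp contDiff_rf
  smy := (c.smy.comp contDiff_rf).neg
  smξ1 := (c.smξ1.comp contDiff_rf).neg
  smξ2 := c.smξ2.comp contDiff_rf
  smζ1 := c.smζ1.comp contDiff_rf
  smζ2 := (c.smζ2.comp contDiff_rf).neg
  smq := c.smq.comp contDiff_rf
  smα := (c.smα.comp contDiff_rf).neg
  smβ := c.smβ.comp contDiff_rf
  ha0 := c.ha0
  ha1 := c.ha1
  x_v z hz := by rw [d2_rf c.smx, c.x_v _ (rf_mem hz)]; ring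
  y_v z hz := by rw [d2_neg_rf c.smy, c.y_v _ (rf_mem hz)]
  x_t z hz := by rw [d1_rf c.smx, c.x_t _ (rf_mem hz)]; ring
  y_t z hz := by rw [d1_neg_rf c.smy, c.y_t _ (rf_mem hz)]; ring
  ξ1_v z hz := by
    rw [d2_neg_rf c.smξ1, c.ξ1_v _ (rf_mem hz)]
    have e1 := h1 (c.x (rf z), c.y (rf z))
    have e2 := h2 (c.x (rf z), c.y (rf z))
    simp only [rf] at e1 e2 ⊢
    rw [e1, e2]; simp only [Gam1]; ring
  ξ2_v z hz := by
    rw [d2_rf c.smξ2, c.ξ2_v _ (rf_mem hz)]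
    have e1 := h1 (c.x (rf z), c.y (rf z))
    have e2 := h2 (c.x (rf z), c.y (rf z))
    simp only [rf] at e1 e2 ⊢
    rw [e1, e2]; simp only [Gam2]; ring
  ζ1_v z hz := by
    rw [d2_rf c.smζ1, c.ζ1_v _ (rf_mem hz)]
    have e1 := h1 (c.x (rf z), c.y (rf z))
    have e2 := h2 (c.x (rf z), c.y (rf z))
    simp only [rf] at e1 e2 ⊢
    rw [e1, e2]; simp only [Gam1]; ring
  ζ2_v z hz := by
    rw [d2_neg_rf c.smζ2, c.ζ2_v _ (rf_mem hz)]
    have e1 := h1 (c.x (rf z), c.y (rf z))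
    have e2 := h2 (c.x (rf z), c.y (rf z))
    simp only [rf] at e1 e2 ⊢
    rw [e1, e2]; simp only [Gam2]; ring
  ξ1_t z hz := by
    rw [d1_neg_rf c.smξ1, c.ξ1_t _ (rf_mem hz)]
    have e1 := h1 (c.x (rf z), c.y (rf z))
    have e2 := h2 (c.x (rf z), c.y (rf z))
    simp only [rf] at e1 e2 ⊢
    rw [e1, e2]; simp only [Gam1]; ring
  ξ2_t z hz := by
    rw [d1_rf c.smξ2, c.ξ2_t _ (rf_mem hz)]
    have e1 := h1 (c.x (rf z), c.y (rf z))
    have e2 := h2 (c.x (rf z), c.y (rf z))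
    simp only [rf] at e1 e2 ⊢
    rw [e1, e2]; simp only [Gam2]; ring
  q_v z hz := by rw [d2_rf c.smq, c.q_v _ (rf_mem hz)]; ring
  q_t z hz := by
    rw [d1_rf c.smq, c.q_t _ (rf_mem hz)]
    have e1 := hK (c.x (rf z), c.y (rf z))
    simp only [rf] at e1 ⊢
    rw [e1]; ring
  α_v z hz := by rw [d2_neg_rf c.smα, d1_rf c.smβ, c.α_v _ (rf_mem hz)]
  gram12 z hz := by
    have := c.gram12 _ (rf_mem hz)
    have e1 := hφ (c.x (rf z), c.y (rf z))
    simp only [rf] at e1 this ⊢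
    rw [e1]; linarith
  gram22 z hz := by
    have := c.gram22 _ (rf_mem hz)
    have e1 := hφ (c.x (rf z), c.y (rf z))
    simp only [rf] at e1 this ⊢
    rw [e1]; linarith
  α0 := by rw [show rf 0 = 0 by simp [rf, Prod.ext_iff], c.α0, neg_zero]
  q0 := by rw [show rf 0 = 0 by simp [rf, Prod.ext_iff], c.q0]
  β_lb z hz := c.β_lb _ (rf_mem hz)
  β_ub z hz := c.β_ub _ (rf_mem hz)
  α_bd z hz := by simpa using c.α_bd _ (rf_mem hz)
  q_bd z hz := c.q_bd _ (rf_mem hz)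
  ξ1_bd z hz := by simpa using c.ξ1_bd _ (rf_mem hz)
  ξ2_bd z hz := c.ξ2_bd _ (rf_mem hz)
  ζ1_bd z hz := c.ζ1_bd _ (rf_mem hz)
  ζ2_bd z hz := by simpa using c.ζ2_bd _ (rf_mem hz)
  geomx z hz := by
    have := c.geomx _ (rf_mem hz)
    rw [norm_rf] at this
    exact this
  geomy z hz := by
    have := c.geomy _ (rf_mem hz)
    rw [norm_rf] at this
    rw [← abs_neg]
    convert this using 2
    simp [rf]; ring
  αM j hj z hz := by
    rw [d2_iter_neg, d2_iter_rf c.smα]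
    simpa [abs_mul] using c.αM j hj _ (rf_mem hz)
  βM j hj z hz := by
    rw [d2_iter_rf c.smβ]
    simpa [abs_mul] using c.βM j hj _ (rf_mem hz)

theorem refl_facts {φ : P → ℝ} (hs : ContDiff ℝ ∞ φ) (hφ : ∀ z, φ (rf z) = φ z) :
    (∀ z, d1 φ (rf z) = d1 φ z) ∧ (∀ z, d2 φ (rf z) = - d2 φ z) ∧ ∀ z, Kf φ (rf z) = Kf φ z := by
  have e : (fun z => φ (rf z)) = φ := funext hφ
  have h1 : ∀ z, d1 φ (rf z) = d1 φ z := fun z => by rw [← d1_rf hs, e]
  have h2 : ∀ z, d2 φ (rf z) = - d2 φ z := fun z => by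
    have := d2_rf hs z; rw [e] at this; linarith
  refine ⟨h1, h2, fun z => ?_⟩
  have h3 : d1 (d1 φ) (rf z) = d1 (d1 φ) z := by
    rw [← d1_rf (contDiff_d1 hs), funext h1]
  have h4 : d2 (d2 φ) (rf z) = d2 (d2 φ) z := by
    rw [← d2_neg_rf (contDiff_d2 hs)]
    congr 1
    funext z; rw [h2, neg_neg]
  simp only [Kf, hφ, h3, h4]

theorem integral_rf (S : Set P) (hS : MeasurableSet S) (f : P → ℝ) :
    ∫ z in rf ⁻¹' S, f z = ∫ z in S, f (rf z) := by
  let e : P ≃ᵐ P := (MeasurableEquiv.refl ℝ).prodCongr (MeasurableEquiv.neg ℝ)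
  have he : MeasurePreserving e volume volume :=
    (MeasurePreserving.id volume).prod (Measure.measurePreserving_neg volume)
  have h := he.setIntegral_preimage_emb e.measurableEmbedding (fun z => f (rf z)) S
  rw [← h]
  refine setIntegral_congr_fun (e.measurable hS) fun z _ => ?_
  have : rf (e z) = z := by
    obtain ⟨a, b⟩ := z
    show ((a, - -b) : P) = (a, b)
    rw [neg_neg]
  simp only [this]

set_option maxHeartbeats 1600000 in
theorem core (hP : StmtPhi) (hE : StmtEnergy) (hS : StmtSobolev) (hPt : StmtPoint)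
    (hT : StmtTest) : StmtCore := by
  intro a0 ha0 M
  obtain ⟨cs, hcs, hcs', hE⟩ := hE
  obtain ⟨ε1, hε1, hPt⟩ := hPt cs hcs a0 ha0 M
  refine ⟨min ε1 1, lt_min hε1 one_pos, fun ε hε hεle m hm κ hκ => ?_⟩
  have hε' : ε ≤ 1 := hεle.trans (min_le_right _ _)
  have hEa : EnergyAt cs ε := hE ε hε hε'
  obtain ⟨Cp, l1, hPt⟩ := hPt ε hε (hεle.trans (min_le_left _ _)) m hm
  have hsq : √ε ≤ 1 := Real.sqrt_le_one.2 hε'
  have hsq0 : 0 < √ε := Real.sqrt_pos.2 hε
  have hc : 0 < cs * √ε := by positivity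
  have hc2 : cs * √ε ≤ 1 / 10 := by nlinarith
  by_contra hcon
  push Not at hcon
  choose lam hlam c hc' using fun n : ℕ => hcon (max (max (n + 1) l1) (3 / (cs * √ε)))
  have hl : ∀ n, 1 ≤ lam n := fun n => by
    have := (le_max_left _ _).trans ((le_max_left _ _).trans (hlam n))
    have : (0 : ℝ) ≤ n := by positivity
    linarith
  have hl0 : ∀ n, 0 < lam n := fun n => zero_lt_one.trans_le (hl n)
  have hl1 : ∀ n, l1 ≤ lam n := fun n => (le_max_right _ _).trans ((le_max_left _ _).trans (hlam n))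
  have hc3 : ∀ n, 3 / lam n ≤ cs * √ε := fun n => by
    have := (le_max_right _ _).trans (hlam n)
    rw [div_le_iff₀ hc] at this
    rw [div_le_iff₀ (hl0 n)]; linarith
  have hφ := fun n => hP.2.1 ε m (lam n)
  have hrf : ∀ n z, phi ε m (lam n) (rf z) = phi ε m (lam n) z := fun n z => by simp [phi, rs, rf]
  let c' : ∀ n, Cfg (phi ε m (lam n)) a0 M := fun n => (c n).refl (hrf n)
    (refl_facts (hφ n) (hrf n)).1 (refl_facts (hφ n) (hrf n)).2.1 (refl_facts (hφ n) (hrf n)).2.2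
  have hpt : ∀ n, PtFacts cs ε Cp (c n) := fun n => hPt _ (hl1 n) _
  obtain ⟨Cu, hCu⟩ := upper_bound c hP hS hEa hpt ha0 hε hcs (by linarith) hl hm hc3
  obtain ⟨Cl', hCl⟩ := upper_bound c' hP hS hEa (fun n => hPt _ (hl1 n) _) ha0 hε hcs
    (by linarith) hl hm hc3
  have h5 := levD' c hP hS hEa hpt ha0 hε hcs (by linarith) hl hm 5 le_rfl
  have h4 := levD' c hP hS hEa hpt ha0 hε hcs (by linarith) hl hm 4 (by norm_num)
  set O := omDom (cs * √ε) (fun _ => -(cs * √ε)) (fun _ => cs * √ε / 2) (1 / 2)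
  have hG := gen_zero c ha0 ε hφ (phiOK_D c hP hε.le hl O) (by omega) (by omega) (by omega) h4
  have hK0 := coef_K0 c hP (X := ctx O (wLam lam hl m) (m + 1) (m + 1 + 4))
    (by simp only [ctx]; omega) ha0 hG
  have hR := L2_Rem c (X := ctx O (wLam lam hl m) (m + 1) (m + 1 + 4)) (s := m + 2)
    (by simp only [ctx]) (by simp only [ctx]; omega) hK0 h4.1 h4.2
  let O' : Dom := ⟨fun _ => sq (cs * √ε / 2),
    fun _ => Metric.ball_subset_ball (by linarith), fun _ => measurableSet_sq _⟩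
  have hsub : ∀ n, O'.Ω n ⊆ O.Ω n := fun n z hz => by
    obtain ⟨a1, a2⟩ := mem_sq'.1 hz
    refine ⟨⟨by linarith, by linarith [le_abs_self z.2], ?_⟩, O'.sub n hz⟩
    rw [gf_eq_zero (by linarith)]
    have := neg_abs_le z.2
    simp only
    linarith
  have sR := sm_Rem c (K := fun _ => Kf (phi0 ε)) hK0.sm (m + 2)
  obtain ⟨CR, hCR⟩ := hR.subset sR hsub
  obtain ⟨Cα, hCα⟩ := ((h5.1 (m + 3)).2 (m + 3) le_rfl (by simp only [ctx]; omega)).1.subset
    ((h5.1 0).1.D _) hsub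
  obtain ⟨Cβ, hCβ⟩ := ((h5.2 (m + 3)).2 (m + 3) le_rfl (by simp only [ctx]; omega)).1.subset
    ((h5.2 0).1.D _) hsub
  set C := (m + 5) * (3 * |Cp|) + |Cu| + |Cl'| + |CR| + |Cα| + |Cβ| with hCdef
  obtain ⟨l2, hT⟩ := hT (√ε) (cs * √ε / 2) κ C m hsq0 (by linarith) (by linarith) hκ
  obtain ⟨n, hn⟩ := exists_nat_ge l2
  have hn' : l2 ≤ lam n := by
    have := (le_max_left _ _).trans ((le_max_left _ _).trans (hlam n))
    linarith
  have hK := contDiff_Kf (hφ n)
  have hK' := contDiff_Kf (hP.1 ε)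
  have sk := (c n).smk hK
  have sk0 := (c n).smk hK'
  have sA0 := (c n).smA hK'
  have sB0 := (c n).smB hK'
  have sβ := (c n).smβ
  have ha := ha0.trans_le (c n).ha0
  have hm0 : (0 : ℝ) ≤ m := by positivity
  have p0 := abs_nonneg Cp
  have p1 := abs_nonneg Cu
  have p2 := abs_nonneg Cl'
  have p3 := abs_nonneg CR
  have p4 := abs_nonneg Cα
  have p5 := abs_nonneg Cβ
  have p6 : 0 ≤ m * |Cp| := by positivity
  refine hT (lam n) hn' (√ε / (c n).a) (d2^[m + 2] (c n).β) ((c n).k (Kf (phi0 ε)))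
    (fun z => ((m + 2 : ℕ) + 2) * d2 ((c n).k (Kf (phi0 ε))) z + (c n).β z * (c n).A (Kf (phi0 ε)) z)
    (fun z => (c n).β z * (c n).B (Kf (phi0 ε)) z)
    (fun z => - Rem c (fun _ => Kf (phi0 ε)) (m + 2) n z)
    (fun z => ((c n).k (Kf (phi ε m (lam n))) z - (c n).k (Kf (phi0 ε)) z) * (c n).β z)
    (contDiff_d2_iter sβ _) sk0 (by fun_prop) (by fun_prop) (sR n).neg (by fun_prop) ?_ ?_
    (fun z hz => ?_) (fun z hz h => ?_) (fun z hz => ?_) ?_ ?_ ?_ ?_ (hc' n)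
  · rw [le_div_iff₀ ha]
    have := (c n).ha1
    nlinarith
  · have := (hpt n).1
    rw [div_le_one (by positivity)] at this
    rw [div_le_one ha]
    exact Real.sqrt_le_iff.2 ⟨ha.le, this⟩
  · rw [(c n).u_tt (hφ n) ha0 _ hz, (c n).u_t _ hz]
    have e : (fun z => (c n).k (Kf (phi ε m (lam n))) z * (c n).β z) = fun z =>
        (c n).k (Kf (phi0 ε)) z * (c n).β z
          + ((c n).k (Kf (phi ε m (lam n))) z - (c n).k (Kf (phi0 ε)) z) * (c n).β z := by
      funext z; ring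
    rw [e, d2_iter_add (by fun_prop) (by fun_prop)]
    simp only [Rem, Function.iterate_succ_apply']
    ring
  · have h1 := hP.2.2.2.1 ε m (lam n) (hl0 n) _ ((c n).far (hl0 n) hz h)
    have h2 := (dw_congr h1 [false, false]).eq_of_nhds
    have h3 := (dw_congr h1 [true, true]).eq_of_nhds
    simp only [dw_false, dw_true, dw_nil] at h2 h3
    simp only [Cfg.k, Kf, h1.eq_of_nhds, h2, h3, sub_self, zero_mul]
  · obtain ⟨b1, b2, b3, b4⟩ := ((hpt n).2 z hz).2.2.2.2.2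
    have n0 := norm_nonneg z
    have c1 : Cp * ‖z‖ ≤ |Cp| * ‖z‖ := by gcongr; exact le_abs_self _
    have c2 : Cp * ‖z‖ ^ 2 ≤ |Cp| * ‖z‖ ^ 2 := by gcongr; exact le_abs_self _
    have hβ : |(c n).β z| ≤ 2 := abs_le.2 ⟨by linarith [(c n).β_lb z hz], (c n).β_ub z hz⟩
    have b5 : |d2 ((c n).k (Kf (phi0 ε))) z| ≤ 3 * |Cp| * ‖z‖ := by
      rw [(c n).k_v hK' hz]
      refine (abs_add_three _ _ _).trans ?_
      rw [abs_mul ((c n).α z)]
      have : |(c n).α z| * |(c n).B (Kf (phi0 ε)) z| ≤ 1 * (|Cp| * ‖z‖) :=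
        mul_le_mul (by linarith [(c n).α_bd z hz]) (b3.trans c1) (abs_nonneg _) zero_le_one
      linarith
    have q1 : 0 ≤ (C - (m + 5) * (3 * |Cp|)) * ‖z‖ := by apply mul_nonneg _ n0; linarith
    have q2 : 0 ≤ |Cp| * ‖z‖ := by positivity
    have q3 : 0 ≤ m * (|Cp| * ‖z‖) := by positivity
    refine ⟨?_, by nlinarith, ?_, ?_⟩
    · rw [div_pow, Real.sq_sqrt hε.le]
      refine b1.trans (c2.trans ?_)
      gcongr
      nlinarith
    · refine (abs_add_le _ _).trans ?_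
      rw [abs_mul, abs_of_nonneg (by positivity)]
      have := mul_le_mul_of_nonneg_left b5 (show (0 : ℝ) ≤ ((m + 2 : ℕ) : ℝ) + 2 by positivity)
      push_cast at this ⊢
      nlinarith
    · rw [abs_mul]
      have : |(c n).β z| * |(c n).B (Kf (phi0 ε)) z| ≤ 2 * (|Cp| * ‖z‖) :=
        mul_le_mul hβ (b3.trans c1) (abs_nonneg _) zero_le_two
      nlinarith
  · have i1 : IntegrableOn (fun z => d2^[m + 3] (c n).α z ^ 2) _ :=
      O'.int ((contDiff_d2_iter (c n).smα _).continuous.pow 2) n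
    have i2 : IntegrableOn (fun z => d2^[m + 3] (c n).β z ^ 2) _ :=
      O'.int ((contDiff_d2_iter sβ _).continuous.pow 2) n
    have e : ∫ z in sq (cs * √ε / 2), (d1 (d2^[m + 2] (c n).β) z ^ 2 + d2 (d2^[m + 2] (c n).β) z ^ 2)
        = ∫ z in O'.Ω n, (d2^[m + 3] (c n).α z ^ 2 + d2^[m + 3] (c n).β z ^ 2) :=
      setIntegral_congr_fun (O'.meas n) fun z hz => by
        simp only [(c n).u_t _ (O'.sub n hz), Function.iterate_succ_apply' d2 (m + 2)]
    rw [e, integral_add i1 i2]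
    have a1 := hCα n
    have a2 := hCβ n
    simp only [ctx, wLam, D, show 3 + (m + 3) - (m + 3) = 3 by omega, ← pow_mul] at a1 a2
    have : 0 ≤ lam n ^ 6 := by have := hl0 n; positivity
    have b1 : Cα * lam n ^ 6 ≤ |Cα| * lam n ^ 6 := by gcongr; exact le_abs_self _
    have b2 : Cβ * lam n ^ 6 ≤ |Cβ| * lam n ^ 6 := by gcongr; exact le_abs_self _
    have b3 : (|Cα| + |Cβ|) * lam n ^ 6 ≤ C * lam n ^ 6 := by gcongr; nlinarith
    rw [add_mul] at b3
    exact (add_le_add (a1.trans b1) (a2.trans b2)).trans b3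
  · have a1 := hCR n
    simp only [ctx, wLam, show m + 1 + 4 - (m + 3) = 2 by omega, ← pow_mul] at a1
    simp only [neg_sq]
    refine a1.trans ?_
    have := hl0 n
    gcongr
    nlinarith [le_abs_self CR]
  · exact (hCu n).trans (by nlinarith [le_abs_self Cu])
  · have h1 : IsOpen {z : P | |z.1| < 1 / 8} := isOpen_lt (by fun_prop) (by fun_prop)
    have h2 : IsOpen {z : P | 4 / lam n < z.2} := isOpen_lt (by fun_prop) (by fun_prop)
    have h3 : IsOpen {z : P | z.2 < 1} := isOpen_lt (by fun_prop) (by fun_prop)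
    have e := integral_rf {z : P | |z.1| < 1 / 8 ∧ 4 / lam n < z.2 ∧ z.2 < 1}
      (h1.inter (h2.inter h3)).measurableSet (fun z => d2^[m + 2] (c n).β z ^ 2)
    refine le_trans (le_of_eq e) (le_trans (le_of_eq ?_) ((hCl n).trans
      (by nlinarith [le_abs_self Cl'])))
    have : (c' n).β = fun z => (c n).β (rf z) := rfl
    rw [this, d2_iter_rf sβ]
    have e1 : (((-1 : ℝ)) ^ (m + 2)) ^ 2 = 1 := by rw [← pow_mul, mul_comm, pow_mul]; simp
    simp only [mul_pow, e1, one_mul]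

theorem local_of (hP : StmtPhi) (hCfg : StmtCfg) (hM : StmtMainXY) (hC : StmtCore) :
    StmtLocal := by
  obtain ⟨η1, hη1, hCfg⟩ := hCfg
  obtain ⟨η2, hη2, hM⟩ := hM
  refine ⟨min η1 η2, lt_min hη1 hη2, fun a0 ha0 m hm ε0 hε0 lam0 => ?_⟩
  obtain ⟨M, hCfg⟩ := hCfg a0 ha0
  obtain ⟨ε1, hε1, hC⟩ := hC a0 ha0 M
  set ε := min (min ε0 ε1) (min η2 (a0 ^ 2))
  have hε : 0 < ε := lt_min (lt_min hε0 hε1) (lt_min hη2 (by positivity))
  obtain ⟨κ, hκ, l1, hM⟩ := hM a0 ha0 m ε hε ((min_le_right _ _).trans (min_le_left _ _))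
    ((min_le_right _ _).trans (min_le_right _ _))
  obtain ⟨l2, hC⟩ := hC ε hε ((min_le_left _ _).trans (min_le_right _ _)) m hm κ hκ
  set lam := max (max lam0 l1) (max l2 (max 2 η1⁻¹))
  have h2 : 2 ≤ lam := (le_max_left _ _).trans ((le_max_right _ _).trans (le_max_right _ _))
  have h3 : η1⁻¹ ≤ lam := (le_max_right _ _).trans ((le_max_right _ _).trans (le_max_right _ _))
  have hl0 : 0 < lam := by linarith
  refine ⟨ε, hε, (min_le_left _ _).trans (min_le_left _ _), lam,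
    (le_max_left _ _).trans (le_max_left _ _), fun t Y f h => ?_⟩
  have hφ0 : |phi ε m lam 0| ≤ η1 := by
    have e : phi ε m lam 0 = (lam ^ (m + 2))⁻¹ := by
      have hb : bump (0 : ℝ) = 1 := bump.one_of_mem_closedBall (by simp [bump])
      simp [phi, prof, prof0, rs, hb]
    rw [e, abs_of_pos (by positivity), inv_le_comm₀ (by positivity) hη1]
    exact h3.trans (le_self_pow₀ (by linarith) (by omega))
  obtain ⟨c, hL⟩ := hCfg _ t Y f (hP.2.1 ε m lam) hφ0 (h.mono ha0.le (min_le_left _ _) le_rfl)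
  refine hC lam ((le_max_left _ _).trans (le_max_right _ _)) c ?_
  have hm := hM lam ((le_max_right _ _).trans (le_max_left _ _)) t Y f
    (h.mono ha0.le (min_le_right _ _) le_rfl)
  rw [← hL.cov (fun z => (lam * (px t Y f z / aa f - √ε / aa f * t z)) ^ 2 *
    ((Kf (phi ε m lam) z - Kf (phi0 ε) z) * Wx t Y f z ^ 2 / aa f ^ 2))] at hm
  · refine le_trans (le_of_eq ?_) hm
    refine setIntegral_congr_fun (measurableSet_sq 2) fun z hz => ?_
    have ha : c.a ≠ 0 := (ha0.trans_le c.ha0).ne'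
    simp only [Wx, hL.t_eq z hz, hL.p_eq z hz, hL.q_eq z hz, ← hL.a_eq, Cfg.k, Cfg.W]
    field_simp
  · intro p hp
    have h4 : 1 < lam ^ 2 * rs p := by
      have : 1 ≤ rs p := by
        rw [mem_sq', not_and_or, not_lt, not_lt] at hp
        unfold rs
        rcases hp with hp | hp
        · nlinarith [sq_abs p.1, sq_nonneg p.2]
        · nlinarith [sq_abs p.2, sq_nonneg p.1]
      nlinarith
    have h1 := hP.2.2.2.1 ε m lam hl0 _ h4
    have h2 := (dw_congr h1 [false, false]).eq_of_nhds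
    have h3 := (dw_congr h1 [true, true]).eq_of_nhds
    simp only [dw_false, dw_true, dw_nil] at h2 h3
    simp only [Kf, h1.eq_of_nhds, h2, h3, sub_self, zero_mul, zero_div, mul_zero]

end Crest.Agent.R220
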