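import Mathlib

/-!
# R220 (S0341): a smooth metric with no local smooth isometric immersion into ℝ³.
Definitions and the statements of the sub-tasks.
-/

set_option autoImplicit false
open scoped ContDiff
open Set MeasureTheory

namespace Crest.Agent.R220

/-- the plane with the sup norm (balls are squares) -/
abbrev P := ℝ × ℝ
abbrev E2 := EuclideanSpace ℝ (Fin 2)
abbrev E3 := EuclideanSpace ℝ (Fin 3)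

/-- partial derivative in the first variable -/
noncomputable def d1 (f : P → ℝ) : P → ℝ := fun z => fderiv ℝ f z (1, 0)
/-- partial derivative in the second variable -/
noncomputable def d2 (f : P → ℝ) : P → ℝ := fun z => fderiv ℝ f z (0, 1)
/-- iterated partial derivative along a word (`false` = first variable, `true` = second) -/
noncomputable def dw : List Bool → (P → ℝ) → P → ℝ
  | [], f => f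
  | false :: w, f => d1 (dw w f)
  | true :: w, f => d2 (dw w f)

/-- the open square `(-r,r)²` -/
def sq (r : ℝ) : Set P := Metric.ball 0 r

/-- squared Euclidean radius -/
def rs (z : P) : ℝ := z.1 ^ 2 + z.2 ^ 2

noncomputable def cut : ContDiffBump (0 : ℝ) := ⟨50, 60, by norm_num, by norm_num⟩
noncomputable def bump : ContDiffBump (0 : ℝ) := ⟨1 / 4, 1, by norm_num, by norm_num⟩
noncomputable def gb : ContDiffBump (0 : ℝ) := ⟨1 / 8, 1 / 4, by norm_num, by norm_num⟩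

noncomputable def prof0 (s : ℝ) : ℝ := cut s * (s / 4 - s ^ 2 / 16)
/-- radial profile (as a function of `s = r²`) of the conformal factor on one disc -/
noncomputable def prof (ε : ℝ) (m : ℕ) (lam : ℝ) (s : ℝ) : ℝ :=
  ε * prof0 s + (lam ^ (m + 2))⁻¹ * bump (lam ^ 2 * s)
noncomputable def phi0 (ε : ℝ) : P → ℝ := fun z => ε * prof0 (rs z)
noncomputable def phi (ε : ℝ) (m : ℕ) (lam : ℝ) : P → ℝ := fun z => prof ε m lam (rs z)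

/-- Gauss curvature of `exp (2 φ) (dx² + dy²)` -/
noncomputable def Kf (φ : P → ℝ) : P → ℝ :=
  fun z => - Real.exp (-2 * φ z) * (d1 (d1 φ) z + d2 (d2 φ) z)

/-- A normalised, almost cylindrical isometric immersion `(t, Y, f)` of `exp (2φ) |dz|²`
on the square `(-4,4)²`. -/
structure Hyp (η a0 : ℝ) (φ t Y f : P → ℝ) : Prop where
  smt : ContDiff ℝ ∞ t
  smY : ContDiff ℝ ∞ Y
  smf : ContDiff ℝ ∞ f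
  m11 : ∀ z ∈ sq 4, d1 t z ^ 2 + d1 Y z ^ 2 + d1 f z ^ 2 = Real.exp (2 * φ z)
  m12 : ∀ z ∈ sq 4, d1 t z * d2 t z + d1 Y z * d2 Y z + d1 f z * d2 f z = 0
  m22 : ∀ z ∈ sq 4, d2 t z ^ 2 + d2 Y z ^ 2 + d2 f z ^ 2 = Real.exp (2 * φ z)
  t0 : t 0 = 0
  ty0 : d2 t 0 = 0
  Yx0 : d1 Y 0 = 0
  fx0 : d1 f 0 = 0
  fy0 : d2 f 0 = 0
  tx0 : 0 < d1 t 0
  Yy0 : 0 < d2 Y 0
  fxy0 : d1 (d2 f) 0 = 0
  ha0 : a0 ≤ d2 (d2 f) 0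
  fxx0 : |d1 (d1 f) 0| ≤ d2 (d2 f) 0
  bd : ∀ w : List Bool, 2 ≤ w.length → w.length ≤ 4 → ∀ z ∈ sq 4,
    |dw w t z| ≤ η ∧ |dw w Y z| ≤ η ∧ |dw w f z| ≤ η
  bd3 : ∀ w : List Bool, w.length = 3 → ∀ z ∈ sq 4, |dw w f z| ≤ η * d2 (d2 f) 0

/-! ### quantities on the `(x,y)` side -/
section xy
variable (t Y f : P → ℝ)
noncomputable def aa : ℝ := d2 (d2 f) 0
noncomputable def Jx : P → ℝ := fun z => d1 t z * d2 Y z - d2 t z * d1 Y z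
noncomputable def px : P → ℝ := fun z => (d1 t z * d2 f z - d2 t z * d1 f z) / Jx t Y z
noncomputable def qx : P → ℝ := fun z => (d1 f z * d2 Y z - d2 f z * d1 Y z) / Jx t Y z
noncomputable def Wx : P → ℝ := fun z => 1 + px t Y f z ^ 2 + qx t Y f z ^ 2
noncomputable def Dx : P → ℝ :=
  fun z => d1 t z * d2 (px t Y f) z - d2 t z * d1 (px t Y f) z
noncomputable def ξ1x : P → ℝ := fun z => - d2 t z / Jx t Y z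
noncomputable def ξ2x : P → ℝ := fun z => d1 t z / Jx t Y z
noncomputable def ζ1x : P → ℝ := fun z => d2 Y z / Jx t Y z
noncomputable def ζ2x : P → ℝ := fun z => - d1 Y z / Jx t Y z
noncomputable def βx : P → ℝ := fun z => aa f * Jx t Y z / Dx t Y f z
noncomputable def αx : P → ℝ :=
  fun z => (d1 Y z * d2 (px t Y f) z - d2 Y z * d1 (px t Y f) z) / Dx t Y f z
/-- the vector field `∂/∂v` of the coordinates `(t, v) = (t, p / a)` -/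
noncomputable def Vd (g : P → ℝ) : P → ℝ :=
  fun z => βx t Y f z * (ξ1x t Y z * d1 g z + ξ2x t Y z * d2 g z)
/-- the vector field `∂/∂t` of the coordinates `(t, v) = (t, p / a)` -/
noncomputable def Td (g : P → ℝ) : P → ℝ :=
  fun z => (ζ1x t Y z + αx t Y f z * ξ1x t Y z) * d1 g z
    + (ζ2x t Y z + αx t Y f z * ξ2x t Y z) * d2 g z
end xy

/-- Christoffel symbols of a conformal metric with `∇φ = (g1, g2)`, first component -/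
def Gam1 (g1 g2 u1 u2 w1 w2 : ℝ) : ℝ :=
  (u1 * g1 + u2 * g2) * w1 + (w1 * g1 + w2 * g2) * u1 - (u1 * w1 + u2 * w2) * g1
/-- second component -/
def Gam2 (g1 g2 u1 u2 w1 w2 : ℝ) : ℝ :=
  (u1 * g1 + u2 * g2) * w2 + (w1 * g1 + w2 * g2) * u2 - (u1 * w1 + u2 * w2) * g2

/-- The immersion in Legendre coordinates `z = (t, v)` on the square `(-2,2)²`. -/
structure Cfg (φ : P → ℝ) (a0 M : ℝ) where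
  a : ℝ
  x : P → ℝ
  y : P → ℝ
  ξ1 : P → ℝ
  ξ2 : P → ℝ
  ζ1 : P → ℝ
  ζ2 : P → ℝ
  q : P → ℝ
  α : P → ℝ
  β : P → ℝ
  smx : ContDiff ℝ ∞ x
  smy : ContDiff ℝ ∞ y
  smξ1 : ContDiff ℝ ∞ ξ1
  smξ2 : ContDiff ℝ ∞ ξ2
  smζ1 : ContDiff ℝ ∞ ζ1
  smζ2 : ContDiff ℝ ∞ ζ2
  smq : ContDiff ℝ ∞ q
  smα : ContDiff ℝ ∞ α
  smβ : ContDiff ℝ ∞ β
  ha0 : a0 ≤ a
  ha1 : a ≤ 1 / 100
  x_v : ∀ z ∈ sq 2, d2 x z = β z * ξ1 z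
  y_v : ∀ z ∈ sq 2, d2 y z = β z * ξ2 z
  x_t : ∀ z ∈ sq 2, d1 x z = ζ1 z + α z * ξ1 z
  y_t : ∀ z ∈ sq 2, d1 y z = ζ2 z + α z * ξ2 z
  ξ1_v : ∀ z ∈ sq 2, d2 ξ1 z =
    - β z * Gam1 (d1 φ (x z, y z)) (d2 φ (x z, y z)) (ξ1 z) (ξ2 z) (ξ1 z) (ξ2 z)
      + a * (q z * ζ1 z + a * z.2 * ξ1 z) / (1 + (a * z.2) ^ 2 + q z ^ 2)
  ξ2_v : ∀ z ∈ sq 2, d2 ξ2 z =
    - β z * Gam2 (d1 φ (x z, y z)) (d2 φ (x z, y z)) (ξ1 z) (ξ2 z) (ξ1 z) (ξ2 z)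
      + a * (q z * ζ2 z + a * z.2 * ξ2 z) / (1 + (a * z.2) ^ 2 + q z ^ 2)
  ζ1_v : ∀ z ∈ sq 2, d2 ζ1 z =
    - β z * Gam1 (d1 φ (x z, y z)) (d2 φ (x z, y z)) (ξ1 z) (ξ2 z) (ζ1 z) (ζ2 z)
      - a * α z * (q z * ζ1 z + a * z.2 * ξ1 z) / (1 + (a * z.2) ^ 2 + q z ^ 2)
  ζ2_v : ∀ z ∈ sq 2, d2 ζ2 z =
    - β z * Gam2 (d1 φ (x z, y z)) (d2 φ (x z, y z)) (ξ1 z) (ξ2 z) (ζ1 z) (ζ2 z)
      - a * α z * (q z * ζ2 z + a * z.2 * ξ2 z) / (1 + (a * z.2) ^ 2 + q z ^ 2)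
  ξ1_t : ∀ z ∈ sq 2, d1 ξ1 z =
    - Gam1 (d1 φ (x z, y z)) (d2 φ (x z, y z)) (ζ1 z + α z * ξ1 z) (ζ2 z + α z * ξ2 z) (ξ1 z) (ξ2 z)
  ξ2_t : ∀ z ∈ sq 2, d1 ξ2 z =
    - Gam2 (d1 φ (x z, y z)) (d2 φ (x z, y z)) (ζ1 z + α z * ξ1 z) (ζ2 z + α z * ξ2 z) (ξ1 z) (ξ2 z)
  q_v : ∀ z ∈ sq 2, d2 q z = - a * α z
  q_t : ∀ z ∈ sq 2, d1 q z =
    a * (Kf φ (x z, y z) * (1 + (a * z.2) ^ 2 + q z ^ 2) ^ 2 / a ^ 2) * β z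
  α_v : ∀ z ∈ sq 2, d2 α z = d1 β z
  gram12 : ∀ z ∈ sq 2,
    Real.exp (2 * φ (x z, y z)) * (ξ1 z * ζ1 z + ξ2 z * ζ2 z) = a * z.2 * q z
  gram22 : ∀ z ∈ sq 2,
    Real.exp (2 * φ (x z, y z)) * (ξ1 z ^ 2 + ξ2 z ^ 2) = 1 + (a * z.2) ^ 2
  α0 : α 0 = 0
  q0 : q 0 = 0
  β_lb : ∀ z ∈ sq 2, 1 / 2 ≤ β z
  β_ub : ∀ z ∈ sq 2, β z ≤ 2
  α_bd : ∀ z ∈ sq 2, |α z| ≤ 1 / 10
  q_bd : ∀ z ∈ sq 2, |q z| ≤ 1 / 10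
  ξ1_bd : ∀ z ∈ sq 2, |ξ1 z| ≤ 2
  ξ2_bd : ∀ z ∈ sq 2, |ξ2 z| ≤ 2
  ζ1_bd : ∀ z ∈ sq 2, |ζ1 z| ≤ 2
  ζ2_bd : ∀ z ∈ sq 2, |ζ2 z| ≤ 2
  geomx : ∀ z ∈ sq 2, |x z - z.1| ≤ ‖z‖ / 40
  geomy : ∀ z ∈ sq 2, |y z - z.2| ≤ ‖z‖ / 40
  αM : ∀ j ≤ 2, ∀ z ∈ sq 2, |d2^[j] α z| ≤ M
  βM : ∀ j ≤ 2, ∀ z ∈ sq 2, |d2^[j] β z| ≤ M

namespace Cfg
variable {φ : P → ℝ} {a0 M : ℝ} (c : Cfg φ a0 M)
noncomputable def W : P → ℝ := fun z => 1 + (c.a * z.2) ^ 2 + c.q z ^ 2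
/-- `k = K W² / a²` for a curvature function `K` -/
noncomputable def k (K : P → ℝ) : P → ℝ := fun z => K (c.x z, c.y z) * c.W z ^ 2 / c.a ^ 2
noncomputable def A (K : P → ℝ) : P → ℝ := fun z =>
  (c.ξ1 z * d1 K (c.x z, c.y z) + c.ξ2 z * d2 K (c.x z, c.y z)) * c.W z ^ 2 / c.a ^ 2
noncomputable def B (K : P → ℝ) : P → ℝ := fun z => -4 * c.k K z * c.a * c.q z / c.W z
noncomputable def C (K : P → ℝ) : P → ℝ := fun z => 4 * c.k K z * c.a ^ 2 * z.2 / c.W z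
noncomputable def S : P → ℝ := fun z => c.x z ^ 2 + c.y z ^ 2 - 1
end Cfg

/-- the main term of the test-function argument is negative and not too small -/
def MainLB {ε : ℝ} {m : ℕ} {lam a0 M : ℝ} (c : Cfg (phi ε m lam) a0 M) (κ : ℝ) : Prop :=
  ∫ z in sq 2, (lam * (z.2 - √ε / c.a * z.1)) ^ 2 *
      ((c.k (Kf (phi ε m lam)) z - c.k (Kf (phi0 ε)) z) * c.β z) ≤ - κ * (lam ^ (m + 2))⁻¹

/-- link between a configuration and the immersion it comes from -/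
structure Link {φ : P → ℝ} {a0 M : ℝ} (c : Cfg φ a0 M) (t Y f : P → ℝ) : Prop where
  a_eq : c.a = aa f
  t_eq : ∀ z ∈ sq 2, t (c.x z, c.y z) = z.1
  p_eq : ∀ z ∈ sq 2, px t Y f (c.x z, c.y z) = c.a * z.2
  q_eq : ∀ z ∈ sq 2, qx t Y f (c.x z, c.y z) = c.q z
  cov : ∀ h : P → ℝ, (∀ p, p ∉ sq 1 → h p = 0) →
    ∫ z in sq 2, h (c.x z, c.y z) * c.β z = ∫ p in sq 1, h p * Jx t Y p

/-- `0` near `0`, `1` outside `(-1/4, 1/4)` -/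
noncomputable def gf (t : ℝ) : ℝ := 1 - gb t

/-- the nested upper domains -/
def Om (c2 d d' τ : ℝ) : Set P :=
  {z | |z.1| < 2 - τ / 4 ∧ z.2 < 2 - τ / 4 ∧
    (d + τ * d') * (1 - gf z.1) + c2 * (1 + τ) * gf z.1 < z.2}

/-! ## Statements of the sub-tasks -/

/-- The local obstruction on one disc (assembled from the B and C parts). -/
def StmtLocal : Prop :=
  ∃ η > (0 : ℝ), ∀ a0 > (0 : ℝ), ∀ m : ℕ, 6 ≤ m → ∀ ε0 > (0 : ℝ), ∀ lam0 : ℝ,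
    ∃ ε, 0 < ε ∧ ε ≤ ε0 ∧ ∃ lam, lam0 ≤ lam ∧ ∀ t Y f : P → ℝ, ¬ Hyp η a0 (phi ε m lam) t Y f

/-- A2: on the `V`-shaped curve the second derivative of an immersion cannot vanish identically. -/
def StmtNonFlat : Prop :=
  ∀ (Φ : E2 → ℝ) (U : Set E2) (F : E2 → E3), Continuous Φ → Φ 0 = 0 →
    (∀ x : E2, |x 0| < x 1 → Φ x < 0) → IsOpen U → (0 : E2) ∈ U → ContDiffOn ℝ ∞ F U →
    (∀ x ∈ U, ∀ v w, inner ℝ (fderiv ℝ F x v) (fderiv ℝ F x w)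
        = Real.exp (2 * Φ x) * inner ℝ v w) →
    ∃ x ∈ U, x 1 = |x 0| ∧ fderiv ℝ (fderiv ℝ F) x ≠ 0

/-- A3: normalisation of an immersion on a small disc near a point with `D²F ≠ 0`. -/
def StmtNormalize : Prop :=
  ∀ η > (0 : ℝ), ∀ (U : Set E2) (F : E2 → E3) (x₀ : E2), IsOpen U → x₀ ∈ U →
    ContDiffOn ℝ ∞ F U → fderiv ℝ (fderiv ℝ F) x₀ ≠ 0 →
    ∃ δ > (0 : ℝ), ∀ (c : E2) (ρ : ℝ) (π : ℝ → ℝ), dist c x₀ < δ → 0 < ρ → ρ < δ →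
      ContDiff ℝ ∞ π →
      (∀ x ∈ U, dist x c < 6 * ρ → ∀ v w, inner ℝ (fderiv ℝ F x v) (fderiv ℝ F x w)
          = Real.exp (2 * π (‖x - c‖ ^ 2 / ρ ^ 2)) * inner ℝ v w) →
      ∃ t Y f : P → ℝ, Hyp η (δ * ρ) (fun z => π (rs z)) t Y f

/-- the final statement (that of S0341) -/
def StmtFinal : Prop :=
  ∃ g : E2 → (E2 →L[ℝ] E2 →L[ℝ] ℝ),
    ContDiffOn ℝ ∞ g {x : E2 | ∀ i, x i ∈ Set.Ioo (-1 : ℝ) 1} ∧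
    (∀ x ∈ {x : E2 | ∀ i, x i ∈ Set.Ioo (-1 : ℝ) 1}, ∀ v w, g x v w = g x w v) ∧
    (∀ x ∈ {x : E2 | ∀ i, x i ∈ Set.Ioo (-1 : ℝ) 1}, ∀ v, v ≠ 0 → 0 < g x v v) ∧
    ∀ U : Set E2, IsOpen U → (0 : E2) ∈ U → U ⊆ {x : E2 | ∀ i, x i ∈ Set.Ioo (-1 : ℝ) 1} →
      ¬ ∃ F : E2 → E3, ContDiffOn ℝ ∞ F U ∧
        ∀ x ∈ U, ∀ v w, @inner ℝ E3 _ (fderiv ℝ F x v) (fderiv ℝ F x w) = g x v w

/-- A1: the global construction -/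
def StmtGlobal : Prop := StmtLocal → StmtNonFlat → StmtNormalize → StmtFinal

/-- B1a: estimates on the `(x,y)` side -/
def StmtEst : Prop :=
  ∃ η > (0 : ℝ), η ≤ 1 / 100 ∧ ∀ a0 > (0 : ℝ), ∃ M : ℝ, ∀ φ t Y f : P → ℝ, |φ 0| ≤ η →
    Hyp η a0 φ t Y f → ∀ z ∈ sq 4,
      |d1 t z - 1| ≤ 1 / 100 ∧ |d2 t z| ≤ 1 / 100 ∧ |d1 Y z| ≤ 1 / 100 ∧ |d2 Y z - 1| ≤ 1 / 100 ∧
      |d1 (px t Y f) z / aa f| ≤ 1 / 100 ∧ |d2 (px t Y f) z / aa f - 1| ≤ 1 / 100 ∧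
      |px t Y f z| ≤ 1 / 10 ∧ |qx t Y f z| ≤ 1 / 10 ∧
      (∀ j ≤ 2, |(Vd t Y f)^[j] (αx t Y f) z| ≤ M ∧ |(Vd t Y f)^[j] (βx t Y f) z| ≤ M) ∧
      (∀ w : List Bool, w.length ≤ 2 →
        |dw w (px t Y f) z| ≤ M ∧ |dw w (qx t Y f) z| ≤ M ∧ |dw w (Jx t Y) z| ≤ M ∧ |dw w t z| ≤ M)

/-- B1b: structure equations on the `(x,y)` side -/
def StmtIdent : Prop :=
  ∀ (η a0 : ℝ) (φ t Y f : P → ℝ), 0 < a0 → ContDiff ℝ ∞ φ → Hyp η a0 φ t Y f →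
    (∀ z ∈ sq 4, Jx t Y z ≠ 0) → (∀ z ∈ sq 4, Dx t Y f z ≠ 0) → ∀ z ∈ sq 4,
      Vd t Y f (ξ1x t Y) z = - βx t Y f z *
          Gam1 (d1 φ z) (d2 φ z) (ξ1x t Y z) (ξ2x t Y z) (ξ1x t Y z) (ξ2x t Y z)
        + aa f * (qx t Y f z * ζ1x t Y z + px t Y f z * ξ1x t Y z) / Wx t Y f z ∧
      Vd t Y f (ξ2x t Y) z = - βx t Y f z *
          Gam2 (d1 φ z) (d2 φ z) (ξ1x t Y z) (ξ2x t Y z) (ξ1x t Y z) (ξ2x t Y z)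
        + aa f * (qx t Y f z * ζ2x t Y z + px t Y f z * ξ2x t Y z) / Wx t Y f z ∧
      Vd t Y f (ζ1x t Y) z = - βx t Y f z *
          Gam1 (d1 φ z) (d2 φ z) (ξ1x t Y z) (ξ2x t Y z) (ζ1x t Y z) (ζ2x t Y z)
        - aa f * αx t Y f z * (qx t Y f z * ζ1x t Y z + px t Y f z * ξ1x t Y z) / Wx t Y f z ∧
      Vd t Y f (ζ2x t Y) z = - βx t Y f z *
          Gam2 (d1 φ z) (d2 φ z) (ξ1x t Y z) (ξ2x t Y z) (ζ1x t Y z) (ζ2x t Y z)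
        - aa f * αx t Y f z * (qx t Y f z * ζ2x t Y z + px t Y f z * ξ2x t Y z) / Wx t Y f z ∧
      Td t Y f (ξ1x t Y) z = - Gam1 (d1 φ z) (d2 φ z) (ζ1x t Y z + αx t Y f z * ξ1x t Y z)
          (ζ2x t Y z + αx t Y f z * ξ2x t Y z) (ξ1x t Y z) (ξ2x t Y z) ∧
      Td t Y f (ξ2x t Y) z = - Gam2 (d1 φ z) (d2 φ z) (ζ1x t Y z + αx t Y f z * ξ1x t Y z)
          (ζ2x t Y z + αx t Y f z * ξ2x t Y z) (ξ1x t Y z) (ξ2x t Y z) ∧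
      Vd t Y f (qx t Y f) z = - aa f * αx t Y f z ∧
      Td t Y f (qx t Y f) z = aa f * (Kf φ z * Wx t Y f z ^ 2 / aa f ^ 2) * βx t Y f z ∧
      Real.exp (2 * φ z) * (ξ1x t Y z * ζ1x t Y z + ξ2x t Y z * ζ2x t Y z)
        = px t Y f z * qx t Y f z ∧
      Real.exp (2 * φ z) * (ξ1x t Y z ^ 2 + ξ2x t Y z ^ 2) = 1 + px t Y f z ^ 2

/-- B1: the configuration exists -/
def StmtCfg : Prop :=
  ∃ η > (0 : ℝ), ∀ a0 > (0 : ℝ), ∃ M : ℝ, ∀ φ t Y f : P → ℝ, ContDiff ℝ ∞ φ → |φ 0| ≤ η →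
    Hyp η a0 φ t Y f → ∃ c : Cfg φ a0 M, Link c t Y f

/-- B1c: inverse map and transfer -/
def StmtCfgOf : Prop := StmtEst → StmtIdent → StmtCfg

/-- B3: the main term on the `(x,y)` side -/
def StmtMainXY : Prop :=
  ∃ η > (0 : ℝ), ∀ a0 > (0 : ℝ), ∀ m : ℕ, ∀ ε : ℝ, 0 < ε → ε ≤ η → ε ≤ a0 ^ 2 →
    ∃ κ > (0 : ℝ), ∃ lam1 : ℝ, ∀ lam, lam1 ≤ lam → ∀ t Y f : P → ℝ,
      Hyp η a0 (phi ε m lam) t Y f →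
      ∫ z in sq 1, (lam * (px t Y f z / aa f - √ε / aa f * t z)) ^ 2 *
          ((Kf (phi ε m lam) z - Kf (phi0 ε) z) * Wx t Y f z ^ 2 / aa f ^ 2) * Jx t Y z
        ≤ - κ * (lam ^ (m + 2))⁻¹

def StmtMainOf : Prop := StmtEst → StmtMainXY

/-- C6: facts on the conformal factor -/
def StmtPhi : Prop :=
  (∀ ε, ContDiff ℝ ∞ (phi0 ε)) ∧ (∀ ε m lam, ContDiff ℝ ∞ (phi ε m lam)) ∧
  (∀ w : List Bool, ∃ C : ℝ, ∀ (ε : ℝ) (m : ℕ) (lam : ℝ), 0 ≤ ε → 1 ≤ lam → ∀ z,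
    |dw w (phi0 ε) z| ≤ C * ε ∧
    |dw w (phi ε m lam) z - dw w (phi0 ε) z| ≤ C * (lam ^ w.length / lam ^ (m + 2))) ∧
  (∀ (ε : ℝ) (m : ℕ) (lam : ℝ), 0 < lam → ∀ z, 1 < lam ^ 2 * rs z →
    phi ε m lam =ᶠ[nhds z] phi0 ε) ∧
  (∀ ε z, rs z < 50 → phi0 ε =ᶠ[nhds z] fun p => ε * (rs p / 4 - rs p ^ 2 / 16)) ∧
  (∀ ε z, rs z < 50 →
    Kf (phi0 ε) =ᶠ[nhds z] fun p => ε * Real.exp (-2 * (ε * (rs p / 4 - rs p ^ 2 / 16))) * (rs p - 1))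

/-- C2: the energy estimate for the linear mixed-type equation -/
def StmtEnergy : Prop :=
  ∃ cs > (0 : ℝ), cs ≤ 1 / 10 ∧ ∀ ε : ℝ, 0 < ε → ε ≤ 1 → ∀ C1 : ℝ, ∀ τ τ' : ℝ,
    0 < τ → τ < τ' → τ' < 1 → ∃ C : ℝ, ∀ (e d d' : ℝ) (u k a1 a2 E S : P → ℝ),
      ContDiff ℝ ∞ u → ContDiff ℝ ∞ k → ContDiff ℝ ∞ a1 → ContDiff ℝ ∞ a2 → ContDiff ℝ ∞ E →
      ContDiff ℝ ∞ S → ε ≤ e → e ≤ 1 → |d| ≤ cs * √ε → 0 < d' → d' ≤ cs * √ε →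
      (∀ z ∈ sq 2, d1 (d1 u) z + k z * d2 (d2 u) z + a1 z * d2 u z + a2 z * d1 u z = E z) →
      (∀ z ∈ sq 2, |k z| ≤ C1 * e ∧ |d2 k z| ≤ C1 * e ∧ |a1 z| ≤ C1 * e ∧ |a2 z| ≤ C1 * e ∧
        |S z| ≤ 10 ∧ |d1 S z| ≤ C1 ∧ |d2 S z| ≤ C1) →
      (∀ z ∈ sq 2, ‖z‖ ≤ 1 / 2 → k z ≤ - e / 10 ∧ S z ≤ - 2 / 5) →
      (∀ z ∈ sq 2, 1 / 4 ≤ ‖z‖ → e * S z ^ 2 / 2 ≤ k z * S z) →
      (∀ z ∈ sq 2, 1 / 4 ≤ ‖z‖ → cs * √ε ≤ z.2 →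
        e * (cs * √ε / 100 - C1 * |S z|) ≤ a1 z - d2 k z / 2) →
      (∀ z ∈ sq 2, 5 / 4 ≤ ‖z‖ → e / 10 ≤ k z) →
      ∫ z in Om (cs * √ε) d d' τ', (d1 u z ^ 2 + d2 u z ^ 2)
        ≤ C * ∫ z in Om (cs * √ε) d d' τ, (u z ^ 2 + E z ^ 2)

/-- C3: Sobolev inequality on the fixed domains -/
def StmtSobolev : Prop :=
  ∀ c2 : ℝ, 0 < c2 → c2 ≤ 1 / 4 → ∀ τ τ' : ℝ, 0 < τ → τ < τ' → τ' < 1 → ∃ C : ℝ,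
    ∀ f : P → ℝ, ContDiff ℝ ∞ f → ∀ z ∈ Om c2 (-c2) (c2 / 2) τ',
      |f z| ≤ C * (1 + ∫ p in Om c2 (-c2) (c2 / 2) τ,
        (f p ^ 2 + d1 f p ^ 2 + d2 f p ^ 2 + d1 (d2 f) p ^ 2))

/-- C4: pointwise facts on the coefficients -/
def StmtPoint : Prop :=
  ∀ cs > (0 : ℝ), ∀ a0 > (0 : ℝ), ∀ M : ℝ, ∃ ε1 > (0 : ℝ), ∀ ε : ℝ, 0 < ε → ε ≤ ε1 →
    ∀ m : ℕ, 6 ≤ m → ∃ C lam1 : ℝ, ∀ lam, lam1 ≤ lam → ∀ c : Cfg (phi ε m lam) a0 M,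
      ε / c.a ^ 2 ≤ 1 ∧ ∀ z ∈ sq 2,
      (|c.k (Kf (phi ε m lam)) z| ≤ 100 * (ε / c.a ^ 2) ∧
        |c.β z * c.A (Kf (phi ε m lam)) z| ≤ 1000 * (ε / c.a ^ 2) ∧
        |c.S z| ≤ 10 ∧ |d1 c.S z| ≤ 100 ∧ |d2 c.S z| ≤ 100) ∧
      (‖z‖ ≤ 1 / 2 → c.k (Kf (phi ε m lam)) z ≤ - (ε / c.a ^ 2) / 10 ∧ c.S z ≤ - 2 / 5) ∧
      (1 / 4 ≤ ‖z‖ → (ε / c.a ^ 2) * c.S z ^ 2 / 2 ≤ c.k (Kf (phi ε m lam)) z * c.S z ∧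
        |c.k (Kf (phi ε m lam)) z| ≤ 10 * (ε / c.a ^ 2) * |c.S z|) ∧
      (1 / 4 ≤ ‖z‖ → cs * √ε ≤ z.2 →
        (ε / c.a ^ 2) * (cs * √ε / 100) ≤ c.β z * c.A (Kf (phi ε m lam)) z) ∧
      (5 / 4 ≤ ‖z‖ → (ε / c.a ^ 2) / 10 ≤ c.k (Kf (phi ε m lam)) z) ∧
      (|c.k (Kf (phi0 ε)) z + ε / c.a ^ 2| ≤ C * ‖z‖ ^ 2 ∧
        |c.β z * c.A (Kf (phi0 ε)) z| ≤ C * ‖z‖ ∧ |c.B (Kf (phi0 ε)) z| ≤ C * ‖z‖ ∧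
        |c.C (Kf (phi0 ε)) z| ≤ C * ‖z‖)

def StmtPointOf : Prop := StmtPhi → StmtPoint

/-- C5: the test-function contradiction -/
def StmtTest : Prop :=
  ∀ (c1 δ κ C : ℝ) (m : ℕ), 0 < c1 → 0 < δ → δ ≤ 1 / 8 → 0 < κ → ∃ lam1 : ℝ, ∀ lam, lam1 ≤ lam →
    ∀ (c0 : ℝ) (u k a1 a2 E Z : P → ℝ),
      ContDiff ℝ ∞ u → ContDiff ℝ ∞ k → ContDiff ℝ ∞ a1 → ContDiff ℝ ∞ a2 → ContDiff ℝ ∞ E →
      ContDiff ℝ ∞ Z → c1 ≤ c0 → c0 ≤ 1 →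
      (∀ z ∈ sq 2, d1 (d1 u) z + k z * d2 (d2 u) z + a1 z * d2 u z + a2 z * d1 u z
        + d2^[m + 4] Z z = E z) →
      (∀ z ∈ sq 2, 2 / lam < ‖z‖ → Z z = 0) →
      (∀ z ∈ sq 2, |k z + c0 ^ 2| ≤ C * ‖z‖ ^ 2 ∧ |d2 k z| ≤ C * ‖z‖ ∧ |a1 z| ≤ C * ‖z‖ ∧
        |a2 z| ≤ C * ‖z‖) →
      ∫ z in sq δ, (d1 u z ^ 2 + d2 u z ^ 2) ≤ C * lam ^ 6 →
      ∫ z in sq δ, E z ^ 2 ≤ C * lam ^ 4 →
      ∫ z in {z : P | |z.1| < 1 / 8 ∧ 4 / lam < z.2 ∧ z.2 < 1}, u z ^ 2 ≤ C →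
      ∫ z in {z : P | |z.1| < 1 / 8 ∧ 4 / lam < - z.2 ∧ - z.2 < 1}, u z ^ 2 ≤ C →
      ∫ z in sq 2, (lam * (z.2 - c0 * z.1)) ^ 2 * Z z ≤ - κ * (lam ^ (m + 2))⁻¹ → False

/-- the analytic core -/
def StmtCore : Prop :=
  ∀ a0 > (0 : ℝ), ∀ M : ℝ, ∃ ε1 > (0 : ℝ), ∀ ε : ℝ, 0 < ε → ε ≤ ε1 → ∀ m : ℕ, 6 ≤ m →
    ∀ κ > (0 : ℝ), ∃ lam1 : ℝ, ∀ lam, lam1 ≤ lam → ∀ c : Cfg (phi ε m lam) a0 M, ¬ MainLB c κ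

end Crest.Agent.R220
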