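import Crest.Agent.R220.Basic

/-!
# R220, energy estimate: the multiplier identity
-/

set_option autoImplicit false
open scoped ContDiff Topology
open Set MeasureTheory Filter

namespace Crest.Agent.R220.Energy

/-- the integrand of the multiplier identity -/
noncomputable def Form (b μ u k : P → ℝ) (z : P) : ℝ :=
  (d2 b z / 2 + μ z) * d1 u z ^ 2 - d1 b z * d1 u z * d2 u z
    + (μ z * k z - (d2 b z * k z + b z * d2 k z) / 2) * d2 u z ^ 2
    + u z * (d1 μ z * d1 u z + (d2 μ z * k z + μ z * d2 k z) * d2 u z)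
    - (b z * d2 u z - μ z * u z) * (d1 (d1 u) z + k z * d2 (d2 u) z)

theorem dv_X {b μ u α β : P → ℝ} (hb : Differentiable ℝ b) (hμ : Differentiable ℝ μ)
    (hu : Differentiable ℝ u) (hα : Differentiable ℝ α) (hβ : Differentiable ℝ β) (e z : P) :
    dv e (fun z => b z * (α z * β z) - μ z * (u z * α z)) z =
      dv e b z * (α z * β z) + b z * (dv e α z * β z + α z * dv e β z)
        - (dv e μ z * (u z * α z) + μ z * (dv e u z * α z + u z * dv e α z)) := by
  rw [dv_sub (by fun_prop) (by fun_prop), dv_mul (by fun_prop) (by fun_prop),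
    dv_mul (by fun_prop) (by fun_prop), dv_mul (by fun_prop) (by fun_prop),
    dv_mul (by fun_prop) (by fun_prop)]

theorem dv_Y {b μ u k α β : P → ℝ} (hb : Differentiable ℝ b) (hμ : Differentiable ℝ μ)
    (hu : Differentiable ℝ u) (hk : Differentiable ℝ k) (hα : Differentiable ℝ α)
    (hβ : Differentiable ℝ β) (e z : P) :
    dv e (fun z => b z * (2⁻¹ * (k z * (β z * β z) - α z * α z)) - μ z * (k z * (u z * β z))) z =
      dv e b z * (2⁻¹ * (k z * (β z * β z) - α z * α z))
        + b z * (2⁻¹ * (dv e k z * (β z * β z) + k z * (dv e β z * β z + β z * dv e β z)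
          - (dv e α z * α z + α z * dv e α z)))
        - (dv e μ z * (k z * (u z * β z)) + μ z * (dv e k z * (u z * β z)
          + k z * (dv e u z * β z + u z * dv e β z))) := by
  rw [dv_sub (by fun_prop) (by fun_prop), dv_mul (by fun_prop) (by fun_prop),
    dv_const_mul _ (by fun_prop), dv_sub (by fun_prop) (by fun_prop),
    dv_mul (by fun_prop) (by fun_prop), dv_mul (by fun_prop) (by fun_prop),
    dv_mul (by fun_prop) (by fun_prop), dv_mul (by fun_prop) (by fun_prop),
    dv_mul (by fun_prop) (by fun_prop), dv_mul (by fun_prop) (by fun_prop)]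

theorem integral_Form {b μ u k : P → ℝ} (hb : ContDiff ℝ ∞ b) (hμ : ContDiff ℝ ∞ μ)
    (hu : ContDiff ℝ ∞ u) (hk : ContDiff ℝ ∞ k) (cb : HasCompactSupport b)
    (cμ : HasCompactSupport μ) : Integrable (Form b μ u k) ∧ ∫ z, Form b μ u k z = 0 := by
  have hα := contDiff_d1 hu
  have hβ := contDiff_d2 hu
  let X : P → ℝ := fun z => b z * (d1 u z * d2 u z) - μ z * (u z * d1 u z)
  let Y : P → ℝ := fun z => b z * (2⁻¹ * (k z * (d2 u z * d2 u z) - d1 u z * d1 u z))
    - μ z * (k z * (u z * d2 u z))
  have hX : ContDiff ℝ ∞ X := (hb.mul (hα.mul hβ)).sub (hμ.mul (hu.mul hα))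
  have hY : ContDiff ℝ ∞ Y :=
    (hb.mul (contDiff_const.mul ((hk.mul (hβ.mul hβ)).sub (hα.mul hα)))).sub
      (hμ.mul (hk.mul (hu.mul hβ)))
  have cX : HasCompactSupport X := cb.mul_right.sub cμ.mul_right
  have cY : HasCompactSupport Y := cb.mul_right.sub cμ.mul_right
  have e : Form b μ u k = fun z => -(dv (1, 0) X z + dv (0, 1) Y z) := by
    funext z
    have hd : ∀ {f : P → ℝ}, ContDiff ℝ ∞ f → Differentiable ℝ f := fun h =>
      h.differentiable (by simp)
    rw [dv_X (hd hb) (hd hμ) (hd hu) (hd hα) (hd hβ), dv_Y (hd hb) (hd hμ) (hd hu) (hd hk) (hd hα)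
      (hd hβ)]
    simp only [← d1_eq, ← d2_eq, Form]
    rw [d1_d2_comm hu.contDiffAt]
    ring
  have iX : Integrable (dv (1, 0) X) :=
    (contDiff_dv hX).continuous.integrable_of_hasCompactSupport (cX.fderiv_apply ℝ _)
  have iY : Integrable (dv (0, 1) Y) :=
    (contDiff_dv hY).continuous.integrable_of_hasCompactSupport (cY.fderiv_apply ℝ _)
  rw [e]
  refine ⟨(iX.add iY).neg, ?_⟩
  rw [integral_neg, integral_add iX iY, integral_dv_eq_zero hX cX, integral_dv_eq_zero hY cY]
  simp

theorem measurableSet_Om (hg : Continuous gf) (c2 d d' τ : ℝ) : MeasurableSet (Om c2 d d' τ) := by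
  have h1 : IsOpen {z : P | |z.1| < 2 - τ / 4} := isOpen_lt (by fun_prop) (by fun_prop)
  have h2 : IsOpen {z : P | z.2 < 2 - τ / 4} := isOpen_lt (by fun_prop) (by fun_prop)
  have h3 : IsOpen {z : P | (d + τ * d') * (1 - gf z.1) + c2 * (1 + τ) * gf z.1 < z.2} :=
    isOpen_lt (by fun_prop) (by fun_prop)
  exact (h1.inter (h2.inter h3)).measurableSet

/-- from the pointwise inequality to the integral inequality -/
theorem integral_le {F f g : P → ℝ} (hF : Integrable F) (h0 : ∫ z, F z = 0) (hf : Continuous f)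
    (hg : Continuous g) {A B : Set P} (hA : MeasurableSet A) (hB : MeasurableSet B)
    (hA' : A ⊆ sq 2) (hB' : B ⊆ sq 2) {c C : ℝ} (hc : 0 < c)
    (h : ∀ z, c * A.indicator f z - C * B.indicator g z ≤ F z) :
    ∫ z in A, f z ≤ C / c * ∫ z in B, g z := by
  have iA : Integrable (A.indicator f) :=
    (integrable_indicator_iff hA).2 (integrableOn_of_subset_sq hf hA')
  have iB : Integrable (B.indicator g) :=
    (integrable_indicator_iff hB).2 (integrableOn_of_subset_sq hg hB')
  have h1 := integral_mono ((iA.const_mul c).sub (iB.const_mul C)) hF h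
  rw [h0] at h1
  simp only [Pi.sub_apply] at h1
  rw [integral_sub (iA.const_mul c) (iB.const_mul C), integral_const_mul, integral_const_mul,
    integral_indicator hA, integral_indicator hB] at h1
  rw [div_mul_eq_mul_div, le_div_iff₀ hc]
  linarith

end Crest.Agent.R220.Energy
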