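import Crest.Agent.R220.EnergyErr

/-!
# R220, energy estimate: positivity of the quadratic part in all zones
-/

set_option autoImplicit false

namespace Crest.Agent.R220.Energy

theorem quadAll {r v ρ ρt ρv ψ ψt ψv X g m θ S k kv a1 a2 e ε C1 Λ L K N c2 : ℝ} (α β : ℝ)
    (hε : 0 < ε) (hεe : ε ≤ e) (he : e ≤ 1) (hC1 : 0 ≤ C1) (hc2 : 0 < c2) (hc2' : c2 ≤ 1 / 100)
    (hΛ1 : 3000 * C1 ≤ Λ) (hΛ2 : 1 ≤ Λ) (hΛ3 : 4000 * C1 ^ 2 + 2 * c2 ≤ Λ * c2) (hL0 : 0 ≤ L)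
    (hL : L ^ 2 ≤ ε / 40000) (hK : 0 ≤ K)
    (hN : 2 * (K * (2 + 3 * C1)) + K + 1 ≤ N * (ε / 10)) (hN1 : 1 ≤ N)
    (hρ : 0 ≤ ρ) (hρv : 0 ≤ ρv) (hρt : |ρt| ≤ L * ρv) (hρ1 : 1 / 4 ≤ r → ρ = 1 ∧ ρt = 0 ∧ ρv = 0)
    (hψ0 : 0 ≤ ψ) (hψ1 : ψ ≤ 1) (hψ2 : r ≤ 7 / 4 → 0 ≤ ψv ∧ |ψt| ≤ L * ψv)
    (hψ3 : 1 / 2 ≤ r → r ≤ 7 / 4 → ψt = 0) (hv : 1 / 2 ≤ r → c2 ≤ v)
    (hX0 : 0 ≤ X) (hXK : X ≤ K) (hXt : |4 * ψt * X| ≤ K) (hmK : |m| ≤ K)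
    (hm : m = (4 * ψv + Λ * ψ) * X * g) (hg0 : 0 ≤ g) (hg1 : g ≤ 1) (hg2 : r ≤ 1 / 4 → g = 0)
    (hg3 : 1 / 2 ≤ r → g = 1) (hθ1 : r ≤ 5 / 4 → θ = 0) (hθ2 : 3 / 2 ≤ r → θ = ψ)
    (hk : |k| ≤ C1 * e) (hkv : |kv| ≤ C1 * e) (ha1 : |a1| ≤ C1 * e) (ha2 : |a2| ≤ C1 * e)
    (hS : |S| ≤ 10) (H2 : r ≤ 1 / 2 → k ≤ -e / 10 ∧ S ≤ -2 / 5)
    (H3 : 1 / 4 ≤ r → e * S ^ 2 / 2 ≤ k * S)
    (H4 : 1 / 4 ≤ r → c2 ≤ v → e * (c2 / 100 - C1 * |S|) ≤ a1 - kv / 2)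
    (H5 : 5 / 4 ≤ r → e / 10 ≤ k) :
    ε * c2 / 400 * (ρ * ψ ^ 4 * X + θ ^ 2) * (α ^ 2 + β ^ 2) ≤
      Q (ρ * ψ ^ 4 * X) ((ρt * ψ ^ 4 + ρ * (4 * ψ ^ 3 * ψt)) * X)
        ((ρv * ψ ^ 4 + ρ * (4 * ψ ^ 3 * ψv)) * X + ρ * ψ ^ 4 * (X * Λ))
        (ψ ^ 3 * (m * (1 / 2 + S / 40)) + N * θ ^ 2) k kv a1 a2 α β := by
  have hb : 0 ≤ ρ * ψ ^ 4 * X := by positivity
  have hΛ0 : 0 ≤ Λ := by linarith
  have hS' := abs_le.1 hS
  rcases le_total r (1 / 2) with h1 | h1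
  · obtain ⟨hψv, hψt⟩ := hψ2 (by linarith)
    obtain ⟨w1, w2⟩ := weight_mono hρ hψ0 hρv hρt hψv hψt hX0 hΛ0 hL0
    obtain ⟨k1, k2⟩ := H2 h1
    have hm0 : 0 ≤ m := by rw [hm]; positivity
    have hσ0 : 0 ≤ 1 / 2 + S / 40 := by linarith [hS'.1]
    rw [hθ1 (by linarith)]
    simp only [ne_eq, OfNat.ofNat_ne_zero, not_false_eq_true, zero_pow, mul_zero, add_zero]
    refine le_trans ?_ (quad1 α β hε hεe he hΛ1 hΛ2 hL hb w1 w2 (by positivity) ?_ k1 hkv ha1 ha2)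
    · refine mul_le_mul_of_nonneg_right (mul_le_mul_of_nonneg_right ?_ hb) (by positivity)
      linarith [mul_le_mul_of_nonneg_left hc2' hε.le]
    · have hbv : 0 ≤ (ρv * ψ ^ 4 + ρ * (4 * ψ ^ 3 * ψv)) * X + ρ * ψ ^ 4 * (X * Λ) := by positivity
      rcases le_total r (1 / 4) with h2 | h2
      · rw [hm, hg2 h2]
        linarith
      · obtain ⟨rfl, rfl, rfl⟩ := hρ1 h2
        have h3 : g * (1 / 2 + S / 40) ≤ 49 / 100 := by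
          linarith [mul_le_mul_of_nonneg_right hg1 hσ0]
        have := mul_le_mul_of_nonneg_left h3 hbv
        rw [hm]
        linarith
  · obtain ⟨rfl, rfl, rfl⟩ := hρ1 (by linarith)
    obtain rfl := hg3 h1
    rcases le_total r (7 / 4) with h2 | h2
    · obtain ⟨hψv, hψt⟩ := hψ2 h2
      obtain ⟨w1, -⟩ := weight_mono hρ hψ0 hρv hρt hψv hψt hX0 hΛ0 hL0
      obtain rfl := hψ3 h1 h2
      have hnk : N * θ ^ 2 * (ε / 10) ≤ N * θ ^ 2 * k := by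
        rcases le_total r (5 / 4) with h3 | h3
        · rw [hθ1 h3]; simp
        · exact mul_le_mul_of_nonneg_left (by linarith [H5 h3]) (by positivity)
      have := quad2 α β hε hεe he hc2 (by linarith) hΛ3 hb w1 hS (H3 (by linarith))
        (H4 (by linarith) (hv h1)) ha2 (sq_nonneg θ)
        (le_mul_of_one_le_left (sq_nonneg θ) hN1) hnk
      convert this using 2
      · ring
      · rw [hm]; ring
    · obtain rfl := hθ2 (by linarith)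
      have hCe : C1 * e ≤ C1 := mul_le_of_le_one_right hC1 he
      have h3 : |θ ^ 3| ≤ θ ^ 2 := by
        rw [abs_of_nonneg (by positivity)]; exact pow_le_pow_of_le_one hψ0 hψ1 (by norm_num)
      have h4 : θ ^ 4 ≤ θ ^ 2 := pow_le_pow_of_le_one hψ0 hψ1 (by norm_num)
      have hσ : |1 / 2 + S / 40| ≤ 1 := abs_le.2 ⟨by linarith [hS'.1], by linarith [hS'.2]⟩
      refine quad3 (K := K) (C1 := C1) α β hε (hεe.trans he) hC1 hK ?_ (sq_nonneg θ) hb ?_ ?_ ?_ ?_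
        (by linarith [H5 (by linarith)]) (hk.trans hCe) (hkv.trans hCe) (ha1.trans hCe)
        (ha2.trans hCe) hN
      · linarith [mul_le_mul_of_nonneg_left hc2' hε.le]
      · linarith [mul_le_mul h4 hXK hX0 (sq_nonneg θ)]
      · have := abs_mul_le h3 hXt
        rw [mul_comm K]
        convert this using 2
        ring
      · have := abs_mul_le h3 hmK
        rw [mul_comm K]
        convert this using 2
        rw [hm]; ring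
      · have := abs_mul_le h3 (abs_mul_le hmK hσ)
        linarith

end Crest.Agent.R220.Energy
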