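import Crest.Agent.R220.EnergyWt
import Crest.Agent.R220.EnergyId
import Crest.Agent.R220.EnergyQuad

/-!
# R220: the energy estimate for the linear mixed-type equation (multiplier method)
-/

set_option autoImplicit false
open scoped ContDiff Topology
open Set MeasureTheory Filter

namespace Crest.Agent.R220

namespace Energy

theorem dv_b {ρ ψ : P → ℝ} (hρ : Differentiable ℝ ρ) (hψ : Differentiable ℝ ψ) (Λ : ℝ) (e z : P) :
    dv e (fun z => ρ z * ψ z ^ 4 * Real.exp (Λ * z.2)) z =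
      (dv e ρ z * ψ z ^ 4 + ρ z * (4 * ψ z ^ 3 * dv e ψ z)) * Real.exp (Λ * z.2)
        + ρ z * ψ z ^ 4 * (Real.exp (Λ * z.2) * (Λ * e.2)) := by
  rw [dv_mul (by fun_prop) (by fun_prop), dv_mul (by fun_prop) (by fun_prop),
    dv_pow 4 (hψ z), dv_exp (by fun_prop), dv_const_mul _ (by fun_prop), dv_snd]
  norm_num

theorem dv_mu {ψ m S θ : P → ℝ} (hψ : Differentiable ℝ ψ) (hm : Differentiable ℝ m)
    (hS : Differentiable ℝ S) (hθ : Differentiable ℝ θ) (N : ℝ) (e z : P) :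
    dv e (fun z => ψ z ^ 3 * (m z * (1 / 2 + S z / 40)) + N * θ z ^ 2) z =
      3 * ψ z ^ 2 * dv e ψ z * (m z * (1 / 2 + S z / 40))
        + ψ z ^ 3 * (dv e m z * (1 / 2 + S z / 40) + m z * (dv e S z / 40))
        + N * (2 * θ z * dv e θ z) := by
  have h1 : dv e (fun z => 1 / 2 + S z / 40) z = dv e S z / 40 := by
    rw [dv_add (by fun_prop) (by fun_prop), dv_const, dv_div (hS z) (by fun_prop) (by norm_num),
      dv_const]
    ring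
  rw [dv_add (by fun_prop) (by fun_prop), dv_mul (by fun_prop) (by fun_prop), dv_pow 3 (hψ z),
    dv_mul (by fun_prop) (by fun_prop), h1, dv_const_mul _ (by fun_prop), dv_pow 2 (hθ z)]
  norm_num

/-- cut-off functions vanishing near the centre -/
theorem exists_hole {a b : ℝ} (ha : 0 < a) (hab : a < b) :
    ∃ g : P → ℝ, ContDiff ℝ ∞ g ∧ (∀ z, 0 ≤ g z) ∧ (∀ z, g z ≤ 1) ∧ (∀ z, ‖z‖ ≤ a → g z = 0) ∧
      ∀ z, b ≤ ‖z‖ → g z = 1 := by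
  let h : ContDiffBump (0 : P) := ⟨a, b, ha, hab⟩
  refine ⟨fun z => 1 - h z, contDiff_const.sub h.contDiff, fun z => sub_nonneg.2 h.le_one,
    fun z => sub_le_self _ h.nonneg, fun z hz => ?_, fun z hz => ?_⟩
  · simp only [h.one_of_mem_closedBall (x := z) (by simpa [h] using hz), sub_self]
  · simp only [h.zero_of_le_dist (x := z) (by simpa [h] using hz), sub_zero]

theorem Om_subset {c2 d d' τ : ℝ} (hc2 : 0 < c2) (hc2' : c2 ≤ 1 / 100) (hτ : 0 < τ) (hd : |d| ≤ c2)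
    (hd' : 0 < d') : Om c2 d d' τ ⊆ sq 2 := by
  rintro z ⟨h1, h2, h3⟩
  have h4 := gf_nonneg z.1
  have h5 := gf_le_one z.1
  have h7 : -c2 * (1 - gf z.1) ≤ (d + τ * d') * (1 - gf z.1) :=
    mul_le_mul_of_nonneg_right (by linarith [(abs_le.1 hd).1, mul_pos hτ hd']) (by linarith)
  have h8 : 0 ≤ c2 * (1 + τ) * gf z.1 := by positivity
  exact mem_sq'.2 ⟨by linarith, abs_lt.2 ⟨by linarith [mul_nonneg hc2.le h4], by linarith⟩⟩

end Energy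

open Energy in
theorem energy : StmtEnergy := by
  obtain ⟨G, hG0, hG⟩ := exists_G
  have hcs : 1 / (1000 * (G + 1)) ≤ 1 / 1000 :=
    one_div_le_one_div_of_le (by norm_num) (by linarith)
  refine ⟨1 / (1000 * (G + 1)), by positivity, by linarith, ?_⟩
  intro ε hε hε1 C1 τ τ' hτ hττ hτ'
  by_cases hC1 : 0 ≤ C1
  swap
  · refine ⟨0, fun e d d' u k a1 a2 E S _ _ _ _ _ _ _ _ _ _ _ _ H1 => ?_⟩
    exact absurd ((abs_nonneg _).trans (H1 0 (by simp [mem_sq])).2.2.2.2.2.1) hC1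
  have hs1 : √ε ≤ 1 := Real.sqrt_le_one.2 hε1
  have hs0 : 0 < √ε := Real.sqrt_pos.2 hε
  have hL : (5 * (1 / (1000 * (G + 1)) * √ε) * G) ^ 2 ≤ ε / 40000 := by
    have h1 : 5 * (1 / (1000 * (G + 1)) * √ε) * G ≤ √ε / 200 := by
      have : G / (G + 1) ≤ 1 := (div_le_one (by positivity)).2 (by linarith)
      calc _ = √ε / 200 * (G / (G + 1)) := by field_simp; ring
        _ ≤ _ := mul_le_of_le_one_right (by positivity) this
    calc _ ≤ (√ε / 200) ^ 2 := pow_le_pow_left₀ (by positivity) h1 2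
      _ = _ := by rw [div_pow, Real.sq_sqrt hε.le]; norm_num
  have hc2 : 0 < 1 / (1000 * (G + 1)) * √ε := by positivity
  have hc2' : 1 / (1000 * (G + 1)) * √ε ≤ 1 / 100 := by
    linarith [mul_le_mul hcs hs1 hs0.le (by norm_num)]
  generalize 1 / (1000 * (G + 1)) * √ε = c2 at hL hc2 hc2' ⊢
  have hd : ∀ {f : P → ℝ}, ContDiff ℝ ∞ f → Differentiable ℝ f := fun h =>
    h.differentiable (by simp)
  obtain ⟨ψ, sψ, cψ, ψ0, ψ1, ψ2, ψ3, ψ4, ψ5⟩ := exists_psi hG hc2 hc2' hτ hττ hτ'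
  obtain ⟨g, sg, g0, g1, g2, g3⟩ := exists_hole (a := 1 / 4) (b := 1 / 2) (by norm_num) (by norm_num)
  obtain ⟨h, sh, h0, h1, h2, h3⟩ := exists_hole (a := 5 / 4) (b := 3 / 2) (by norm_num) (by norm_num)
  obtain ⟨Λ, hΛ1, hΛ2, hΛ3⟩ : ∃ Λ : ℝ, 3000 * C1 ≤ Λ ∧ 1 ≤ Λ ∧ 4000 * C1 ^ 2 + 2 * c2 ≤ Λ * c2 := by
    have : 0 ≤ 4000 * C1 ^ 2 / c2 := by positivity
    refine ⟨4000 * C1 ^ 2 / c2 + 3000 * C1 + 2, by linarith, by linarith, ?_⟩
    rw [add_mul, add_mul, div_mul_cancel₀ _ hc2.ne']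
    linarith [mul_nonneg hC1 hc2.le]
  have sX : ContDiff ℝ ∞ fun z : P => Real.exp (Λ * z.2) := by fun_prop
  obtain ⟨m, hm⟩ : ∃ m : P → ℝ,
    m = fun z => (4 * d2 ψ z + Λ * ψ z) * Real.exp (Λ * z.2) * g z := ⟨_, rfl⟩
  obtain ⟨θ, hθ⟩ : ∃ θ : P → ℝ, θ = fun z => ψ z * h z := ⟨_, rfl⟩
  have sF : ContDiff ℝ ∞ fun z : P => (4 * d2 ψ z + Λ * ψ z) * Real.exp (Λ * z.2) :=
    ((contDiff_const.mul (contDiff_d2 sψ)).add (contDiff_const.mul sψ)).mul sX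
  have sm : ContDiff ℝ ∞ m := hm ▸ sF.mul sg
  have sθ : ContDiff ℝ ∞ θ := hθ ▸ sψ.mul sh
  obtain ⟨K, hK0, hK⟩ : ∃ K, 0 ≤ K ∧ ∀ z ∈ sq 2, Real.exp (Λ * z.2) ≤ K ∧
      |4 * d1 ψ z * Real.exp (Λ * z.2)| ≤ K ∧ |d1 ψ z| ≤ K ∧ |d2 ψ z| ≤ K ∧ |m z| ≤ K ∧
      |d1 m z| ≤ K ∧ |d2 m z| ≤ K ∧ |d1 θ z| ≤ K ∧ |d2 θ z| ≤ K := by
    have c1 := (contDiff_d1 sψ).continuous
    have c2 := (contDiff_d2 sψ).continuous
    have c3 := sm.continuous
    have c4 := (contDiff_d1 sm).continuous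
    have c5 := (contDiff_d2 sm).continuous
    have c6 := (contDiff_d1 sθ).continuous
    have c7 := (contDiff_d2 sθ).continuous
    obtain ⟨K, hK0, hK⟩ := exists_bound (f := fun z => Real.exp (Λ * z.2) +
      |4 * d1 ψ z * Real.exp (Λ * z.2)| + |d1 ψ z| + |d2 ψ z| + |m z| + |d1 m z| + |d2 m z| +
        |d1 θ z| + |d2 θ z|) (by fun_prop)
    refine ⟨K, hK0, fun z hz => ?_⟩
    have e0 := (le_abs_self _).trans (hK z hz)
    have e1 := Real.exp_pos (Λ * z.2)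
    have e2 := abs_nonneg (4 * d1 ψ z * Real.exp (Λ * z.2))
    have e3 := abs_nonneg (d1 ψ z)
    have e4 := abs_nonneg (d2 ψ z)
    have e5 := abs_nonneg (m z)
    have e6 := abs_nonneg (d1 m z)
    have e7 := abs_nonneg (d2 m z)
    have e8 := abs_nonneg (d1 θ z)
    have e9 := abs_nonneg (d2 θ z)
    refine ⟨?_, ?_, ?_, ?_, ?_, ?_, ?_, ?_, ?_⟩ <;> linarith
  obtain ⟨N, hN, hN1⟩ : ∃ N : ℝ, 2 * (K * (2 + 3 * C1)) + K + 1 ≤ N * (ε / 10) ∧ 1 ≤ N := by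
    refine ⟨(2 * (K * (2 + 3 * C1)) + K + 1) / (ε / 10), (div_mul_cancel₀ _ (by positivity)).ge, ?_⟩
    rw [le_div_iff₀ (by positivity)]
    have : 0 ≤ 2 * (K * (2 + 3 * C1)) + K := by positivity
    linarith
  obtain ⟨η, hη, hη1, hηX⟩ : ∃ η : ℝ, 0 < η ∧ η ≤ 1 ∧ ∀ z ∈ sq 2, η ≤ Real.exp (Λ * z.2) := by
    refine ⟨Real.exp (Λ * -2), Real.exp_pos _, Real.exp_le_one_iff.2 (by linarith), fun z hz => ?_⟩
    exact Real.exp_le_exp.2 (mul_le_mul_of_nonneg_left (abs_lt.1 (mem_sq'.1 hz).2).1.le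
      (by linarith))
  have hN0 : 0 ≤ N := by linarith
  obtain ⟨K3, hK3, hK30⟩ : ∃ K3 : ℝ, K3 = 3 * K ^ 2 + K + K * C1 + 2 * N * K + N ∧ 0 ≤ K3 :=
    ⟨_, rfl, by positivity⟩
  obtain ⟨K4, hK4, hK40⟩ : ∃ K4 : ℝ, K4 = 2 * (K3 * (1 + 3 * C1)) ^ 2 / η ∧ 0 ≤ K4 :=
    ⟨_, rfl, by positivity⟩
  obtain ⟨c, hc, hc0⟩ : ∃ c : ℝ, c = ε * c2 / 400 ∧ 0 < c := ⟨_, rfl, by positivity⟩
  have hK20 : 0 ≤ K4 + K + 2 * K3 := by positivity
  refine ⟨(2 * (K4 + K + 2 * K3) / c + (K4 + K + 2 * K3)) / (c / 2 * η), ?_⟩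
  intro e d d' u k a1 a2 E S su sk _ _ sE sS hεe he hdd hd' hd'' PDE H1 H2 H3 H4 H5
  obtain ⟨ρ, sρ, ρ0, ρ1, ρ2, ρ3, ρ4, ρ5⟩ := exists_rho hG hc2 hc2' hτ hττ hτ' hdd hd' hd''
  let b : P → ℝ := fun z => ρ z * ψ z ^ 4 * Real.exp (Λ * z.2)
  let μ : P → ℝ := fun z => ψ z ^ 3 * (m z * (1 / 2 + S z / 40)) + N * θ z ^ 2
  have sb : ContDiff ℝ ∞ b := (sρ.mul (sψ.pow 4)).mul sX
  have sμ : ContDiff ℝ ∞ μ :=
    ((sψ.pow 3).mul (sm.mul (contDiff_const.add (sS.div_const 40)))).add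
      (contDiff_const.mul (sθ.pow 2))
  have cb : HasCompactSupport b := cψ.mono fun z hz h => hz (by simp [b, h])
  have cμ : HasCompactSupport μ := cψ.mono fun z hz h => hz (by simp [μ, hθ, h])
  obtain ⟨iF, hF⟩ := integral_Form sb sμ su sk cb cμ
  have cα := (contDiff_d1 su).continuous
  have cβ := (contDiff_d2 su).continuous
  have cu := su.continuous
  have cE := sE.continuous
  refine integral_le iF hF (by fun_prop) (by fun_prop) (measurableSet_Om gf_smooth.continuous ..)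
    (measurableSet_Om gf_smooth.continuous ..) (Om_subset hc2 hc2' (hτ.trans hττ) hdd hd')
    (Om_subset hc2 hc2' hτ hdd hd') (by positivity) fun z => ?_
  have bt : d1 b z = (d1 ρ z * ψ z ^ 4 + ρ z * (4 * ψ z ^ 3 * d1 ψ z)) * Real.exp (Λ * z.2) := by
    rw [d1_eq b, dv_b (hd sρ) (hd sψ)]
    simp only [mul_zero, add_zero, ← d1_eq]
  have bv : d2 b z = (d2 ρ z * ψ z ^ 4 + ρ z * (4 * ψ z ^ 3 * d2 ψ z)) * Real.exp (Λ * z.2)
      + ρ z * ψ z ^ 4 * (Real.exp (Λ * z.2) * Λ) := by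
    rw [d2_eq b, dv_b (hd sρ) (hd sψ)]
    simp only [mul_one, ← d2_eq]
  have μe := fun e => dv_mu (hd sψ) (hd sm) (hd sS) (hd sθ) N e z
  have hC0 : 0 ≤ 2 * (K4 + K + 2 * K3) / c + (K4 + K + 2 * K3) := by positivity
  have hi0 : 0 ≤ (Om c2 d d' τ).indicator (fun z => u z ^ 2 + E z ^ 2) z :=
    indicator_nonneg (fun _ _ => by positivity) z
  by_cases hψ : ψ z = 0
  · have hz : z ∉ Om c2 d d' τ' := fun h => by simpa [hψ] using ψ3 d d' hdd hd' z h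
    have hθ0 : θ z = 0 := by simp [hθ, hψ]
    have e0 : Form b μ u k z = 0 := by
      simp only [Form, bt, bv, d1_eq μ, d2_eq μ, μ, μe, b, hψ, hθ0]
      ring
    rw [e0, indicator_of_notMem hz]
    linarith [mul_nonneg hC0 hi0]
  obtain ⟨z1, z2, z3⟩ := ψ2 z hψ
  have hz : z ∈ sq 2 := mem_sq.2 (by linarith)
  obtain ⟨k1, k2, k3, k4, k5, k6, k7⟩ := H1 z hz
  obtain ⟨K1, K2, K3', K4', K5, K6, K7, K8, K9⟩ := hK z hz
  have hρ1 : 1 / 4 ≤ ‖z‖ → ρ z = 1 ∧ d1 ρ z = 0 ∧ d2 ρ z = 0 := fun h =>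
    ⟨ρ5 z h z2 z3, dv_eq_zero_of_max _ ρ1 (ρ5 z h z2 z3), dv_eq_zero_of_max _ ρ1 (ρ5 z h z2 z3)⟩
  have hv : 1 / 2 ≤ ‖z‖ → c2 ≤ z.2 := fun h => by
    by_cases ht : 1 / 4 ≤ |z.1|
    · linarith [z3 ht, mul_pos hc2 (by linarith : 0 < (τ + τ') / 2)]
    · rw [Prod.norm_def, le_max_iff, Real.norm_eq_abs, Real.norm_eq_abs] at h
      rcases h with h | h
      · exact absurd (by linarith) ht
      · rcases le_abs.1 h with h | h <;> linarith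
  have hQ := quadAll (r := ‖z‖) (θ := θ z) (d1 u z) (d2 u z) hε hεe he hC1 hc2 hc2' hΛ1 hΛ2 hΛ3
    (by positivity) hL hK0 hN hN1 (ρ0 z) (ρ2 z).1 (ρ2 z).2 hρ1 (ψ0 z) (ψ1 z) (ψ4 z) (ψ5 z) hv
    (Real.exp_pos _).le K1 K2 K5 (congrFun hm z) (g0 z) (g1 z) (g2 z) (g3 z)
    (fun h => by simp [hθ, h2 z h]) (fun h => by simp [hθ, h3 z h]) k1 k2 k3 k4 k5 (H2 z hz)
    (H3 z hz) (H4 z hz) (H5 z hz)
  rw [← bt, ← bv, ← hc] at hQ
  change c * (b z + θ z ^ 2) * _ ≤ Q (b z) _ _ (μ z) _ _ _ _ _ _ at hQ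
  have eF : Form b μ u k z =
      Q (b z) (d1 b z) (d2 b z) (μ z) (k z) (d2 k z) (a1 z) (a2 z) (d1 u z) (d2 u z) +
        (u z * ((d1 μ z - μ z * a2 z) * d1 u z +
          (d2 μ z * k z + μ z * d2 k z - μ z * a1 z) * d2 u z) -
          (b z * d2 u z - μ z * u z) * E z) := by
    rw [← PDE z hz, Form, Q]
    ring
  have hX := Real.exp_pos (Λ * z.2)
  have b0 : 0 ≤ b z := mul_nonneg (mul_nonneg (ρ0 z) (by positivity)) hX.le
  have w0 : 0 ≤ b z + θ z ^ 2 := by positivity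
  have hA : ‖z‖ ≤ 1 / 4 → μ z = 0 ∧ d1 μ z = 0 ∧ d2 μ z = 0 := fun h => by
    have e1 : m z = 0 := by simp [hm, g2 z h]
    have e2 : ∀ e, dv e m z = 0 := fun e => by
      rw [hm, dv_mul (hd sF z) (hd sg z), g2 z h, dv_eq_zero_of_min e g0 (g2 z h)]
      ring
    have e3 : θ z = 0 := by simp [hθ, h2 z (by linarith)]
    simp only [d1_eq μ, d2_eq μ, μ, μe, e1, e2, e3]
    refine ⟨?_, ?_, ?_⟩ <;> ring
  have hs0 : 0 ≤ d1 u z ^ 2 + d2 u z ^ 2 := by positivity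
  by_cases hO : z ∈ Om c2 d d' τ
  swap
  · have e1 : ρ z = 0 := by
      by_contra h
      exact hO ⟨(abs_fst_le z).trans_lt z1, (le_abs_self _).trans_lt ((abs_snd_le z).trans_lt z1),
        ρ3 z h⟩
    have e2 : ‖z‖ ≤ 1 / 4 := by
      by_contra h
      have := (hρ1 (not_le.1 h).le).1
      linarith
    obtain ⟨e3, e4, e5⟩ := hA e2
    have e6 : b z = 0 := by simp [b, e1]
    have hO' : z ∉ Om c2 d d' τ' := fun h => by linarith [ρ4 z h]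
    rw [indicator_of_notMem hO, indicator_of_notMem hO', eF, e4, e5]
    rw [e3, e6] at hQ ⊢
    have : 0 ≤ c * (0 + θ z ^ 2) * (d1 u z ^ 2 + d2 u z ^ 2) := by positivity
    linarith
  have hCe : C1 * e ≤ C1 := mul_le_of_le_one_right hC1 he
  have bK : b z ≤ K := by
    have e1 : ρ z * ψ z ^ 4 ≤ 1 := mul_le_one₀ (ρ1 z) (by positivity) (pow_le_one₀ (ψ0 z) (ψ1 z))
    exact (mul_le_of_le_one_left hX.le e1).trans K1
  have hle : ∀ x, x ≤ K4 * (b z + θ z ^ 2) → x ≤ (K4 + K + 2 * K3) * (b z + θ z ^ 2) :=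
    fun x hx => hx.trans (mul_le_mul_of_nonneg_right (by linarith) w0)
  have hpq : (d1 μ z - μ z * a2 z) ^ 2 ≤ K4 * (b z + θ z ^ 2) ∧
      (d2 μ z * k z + μ z * d2 k z - μ z * a1 z) ^ 2 ≤ K4 * (b z + θ z ^ 2) ∧
      |μ z| ≤ K4 + K + 2 * K3 := by
    rcases le_total ‖z‖ (1 / 4) with hr | hr
    · obtain ⟨e3, e4, e5⟩ := hA hr
      have := mul_nonneg hK40 w0
      simp only [e3, e4, e5, zero_mul, sub_zero, add_zero, abs_zero]
      exact ⟨by linarith, by linarith, hK20⟩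
    · have θ0 : 0 ≤ θ z := by rw [hθ]; exact mul_nonneg (ψ0 z) (h0 z)
      have θ1 : θ z ≤ 1 := by rw [hθ]; exact mul_le_one₀ (ψ1 z) (h0 z) (h1 z)
      have hσ : |1 / 2 + S z / 40| ≤ 1 :=
        abs_le.2 ⟨by linarith [(abs_le.1 k5).1], by linarith [(abs_le.1 k5).2]⟩
      obtain ⟨m1, m2⟩ := mu_bound (ψ0 z) (ψ1 z) θ0 θ1 K3' K5 K6 K8 hσ k6 hN0
      obtain ⟨-, m3⟩ := mu_bound (ψ0 z) (ψ1 z) θ0 θ1 K4' K5 K7 K9 hσ k7 hN0
      rw [← hK3] at m1 m2 m3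
      have m2' : |d1 μ z| ≤ K3 * (ψ z ^ 2 + θ z) := by rw [d1_eq μ, μe]; exact m2
      have m3' : |d2 μ z| ≤ K3 * (ψ z ^ 2 + θ z) := by rw [d2_eq μ, μe]; exact m3
      obtain ⟨p1, p2⟩ := err_bound hK30 hC1 hη hη1 θ0 (hηX z hz) m1 m2' m3' (k1.trans hCe)
        (k2.trans hCe) (k3.trans hCe) (k4.trans hCe)
      have eb : b z = ψ z ^ 4 * Real.exp (Λ * z.2) := by simp [b, (hρ1 hr).1]
      rw [← hK4, ← eb] at p1 p2
      refine ⟨p1, p2, m1.trans ?_⟩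
      have : ψ z ^ 2 + θ z ≤ 2 := by linarith [pow_le_one₀ (n := 2) (ψ0 z) (ψ1 z)]
      linarith [mul_le_mul_of_nonneg_left this hK30]
  have hE := err (b := b z) (u z) (E z) (d1 u z) (d2 u z) hc0 hK20 w0 (hle _ hpq.1) (hle _ hpq.2.1)
    (by
      have e1 : b z * b z ≤ K * (b z + θ z ^ 2) :=
        mul_le_mul bK (le_add_of_nonneg_right (sq_nonneg _)) b0 hK0
      rw [pow_two]
      exact e1.trans (mul_le_mul_of_nonneg_right (by linarith) w0)) hpq.2.2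
  have hI : η * (Om c2 d d' τ').indicator (fun z => d1 u z ^ 2 + d2 u z ^ 2) z ≤
      (b z + θ z ^ 2) * (d1 u z ^ 2 + d2 u z ^ 2) := by
    by_cases hO' : z ∈ Om c2 d d' τ'
    · rw [indicator_of_mem hO']
      refine mul_le_mul_of_nonneg_right ?_ hs0
      have : b z = Real.exp (Λ * z.2) := by simp [b, ρ4 z hO', ψ3 d d' hdd hd' z hO']
      linarith [hηX z hz, sq_nonneg (θ z)]
    · rw [indicator_of_notMem hO', mul_zero]
      positivity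
  rw [indicator_of_mem hO, eF]
  linarith [mul_le_mul_of_nonneg_left hI hc0.le]

end Crest.Agent.R220
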