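import Mathlib

/-!
# R220, energy estimate: the pointwise algebraic inequalities
-/

set_option autoImplicit false

namespace Crest.Agent.R220.Energy

/-- the quadratic part of the multiplier form -/
noncomputable def Q (b bt bv μ k kv a1 a2 α β : ℝ) : ℝ :=
  (bv / 2 + μ) * α ^ 2 + (-bt + b * a2) * α * β + (μ * k - (bv * k + b * kv) / 2 + b * a1) * β ^ 2

theorem cross {B s t : ℝ} (α β : ℝ) (hs : 0 ≤ s) (ht : 0 ≤ t) (h : B ^ 2 ≤ 4 * s * t) :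
    -(s * α ^ 2 + t * β ^ 2) ≤ B * α * β := by
  rcases hs.eq_or_lt with rfl | hs
  · have hB : B = 0 := by nlinarith [sq_nonneg B]
    have := mul_nonneg ht (sq_nonneg β)
    rw [hB]; linarith
  · have h1 : 0 ≤ 4 * s * (s * α ^ 2 + B * α * β + t * β ^ 2) := by
      nlinarith [sq_nonneg (2 * s * α + B * β), mul_nonneg (sub_nonneg.2 h) (sq_nonneg β)]
    have := nonneg_of_mul_nonneg_right h1 (by positivity : 0 < 4 * s)
    linarith

theorem cross' {B M s t : ℝ} (α β : ℝ) (hs : 0 ≤ s) (ht : 0 ≤ t) (hB : |B| ≤ M)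
    (h : M ^ 2 ≤ 4 * s * t) : -(s * α ^ 2 + t * β ^ 2) ≤ B * α * β :=
  cross α β hs ht ((sq_le_sq' (abs_le.1 hB).1 (abs_le.1 hB).2).trans h)

/-- the hyperbolic zone -/
theorem quad1 {b bt bv μ k kv a1 a2 e ε C1 Λ L : ℝ} (α β : ℝ) (hε : 0 < ε) (hεe : ε ≤ e)
    (he : e ≤ 1) (hΛ : 3000 * C1 ≤ Λ) (hΛ1 : 1 ≤ Λ)
    (hL : L ^ 2 ≤ ε / 40000) (hb : 0 ≤ b) (hbv : Λ * b ≤ bv) (hbt : |bt| ≤ L * bv) (hμ0 : 0 ≤ μ)
    (hμ : μ ≤ 49 / 100 * bv) (hk : k ≤ -e / 10) (hkv : |kv| ≤ C1 * e) (ha1 : |a1| ≤ C1 * e)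
    (ha2 : |a2| ≤ C1 * e) : ε / 2500 * b * (α ^ 2 + β ^ 2) ≤ Q b bt bv μ k kv a1 a2 α β := by
  have he0 : 0 < e := hε.trans_le hεe
  have hbb : b ≤ bv := by nlinarith
  have hbv0 : 0 ≤ bv := hb.trans hbb
  have h1 : C1 * b ≤ bv / 3000 := by nlinarith
  have h1' : b * (C1 * e) ≤ bv * e / 3000 := by nlinarith
  have h2 : bv * e / 1000 ≤ (bv / 2 - μ) * (-k) := by
    have := mul_le_mul (show bv / 100 ≤ bv / 2 - μ by linarith) (show e / 10 ≤ -k by linarith)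
      (by positivity) (by linarith)
    linarith
  have h3 : -(b * (C1 * e)) ≤ b * a1 := by nlinarith [(abs_le.1 ha1).1]
  have h4 : b * kv ≤ b * (C1 * e) := mul_le_mul_of_nonneg_left (abs_le.1 hkv).2 hb
  have hC' : bv * e / 2000 ≤ μ * k - (bv * k + b * kv) / 2 + b * a1 := by nlinarith
  have hB : |-bt + b * a2| ≤ bv * (L + e / 3000) := by
    have h5 : |b * a2| ≤ b * (C1 * e) := by
      rw [abs_mul, abs_of_nonneg hb]; exact mul_le_mul_of_nonneg_left ha2 hb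
    calc |-bt + b * a2| ≤ |-bt| + |b * a2| := abs_add_le _ _
      _ ≤ L * bv + bv * e / 3000 := by rw [abs_neg]; linarith
      _ = _ := by ring
  have hr : (L + e / 3000) ^ 2 ≤ e / 10000 := by
    nlinarith [sq_nonneg (L - e / 3000), mul_le_mul_of_nonneg_left he he0.le]
  have hx := cross' (s := bv / 4) (t := bv * e / 10000) α β (by positivity) (by positivity) hB (by
    rw [mul_pow]; nlinarith [mul_le_mul_of_nonneg_left hr (sq_nonneg bv)])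
  have hα : ε / 2500 * b * α ^ 2 ≤ (bv / 4 + μ) * α ^ 2 :=
    mul_le_mul_of_nonneg_right (by nlinarith) (sq_nonneg α)
  have hβ : ε / 2500 * b * β ^ 2 ≤
      (μ * k - (bv * k + b * kv) / 2 + b * a1 - bv * e / 10000) * β ^ 2 :=
    mul_le_mul_of_nonneg_right (by nlinarith [mul_le_mul hεe hbb hb he0.le]) (sq_nonneg β)
  unfold Q
  linarith

/-- the zone around the degenerate curve -/
theorem quad2 {b bv n θ2 S k kv a1 a2 e ε C1 Λ c2 : ℝ} (α β : ℝ) (hε : 0 < ε) (hεe : ε ≤ e)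
    (he : e ≤ 1) (hc2 : 0 < c2) (hc2' : c2 ≤ 1) (hΛ : 4000 * C1 ^ 2 + 2 * c2 ≤ Λ * c2)
    (hb : 0 ≤ b) (hbv : Λ * b ≤ bv) (hS : |S| ≤ 10) (hkS : e * S ^ 2 / 2 ≤ k * S)
    (ha : e * (c2 / 100 - C1 * |S|) ≤ a1 - kv / 2) (ha2 : |a2| ≤ C1 * e) (hθ : 0 ≤ θ2)
    (hn : θ2 ≤ n) (hnk : n * (ε / 10) ≤ n * k) :
    ε * c2 / 400 * (b + θ2) * (α ^ 2 + β ^ 2) ≤
      Q b 0 bv (bv * (1 / 2 + S / 40) + n) k kv a1 a2 α β := by
  have he0 : 0 < e := hε.trans_le hεe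
  have hΛ2 : 2 ≤ Λ := by nlinarith [sq_nonneg C1]
  have hbv0 : 0 ≤ bv := le_trans (by positivity) hbv
  have hσ : 0 ≤ 1 / 2 + S / 40 := by linarith [(abs_le.1 hS).1]
  have h1 : -(c2 / 200) ≤ Λ * S ^ 2 / 80 - C1 * |S| := by
    rw [← sq_abs S]
    have h2 : 0 ≤ c2 * (Λ * |S| ^ 2 / 80 - C1 * |S| + c2 / 200) := by
      linarith [sq_nonneg (c2 / 100 - C1 * |S|),
        mul_le_mul_of_nonneg_right hΛ (sq_nonneg |S|), mul_nonneg hc2.le (sq_nonneg |S|)]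
    have := nonneg_of_mul_nonneg_right h2 hc2
    linarith
  have h3 : Λ * b * (e * S ^ 2 / 2) ≤ bv * (k * S) :=
    mul_le_mul hbv hkS (by positivity) hbv0
  have h4 : b * (e * (c2 / 100 - C1 * |S|)) ≤ b * (a1 - kv / 2) := mul_le_mul_of_nonneg_left ha hb
  have h5 : b * e * -(c2 / 200) ≤ b * e * (Λ * S ^ 2 / 80 - C1 * |S|) :=
    mul_le_mul_of_nonneg_left h1 (by positivity)
  have hC' : b * e * c2 / 200 + n * (ε / 10) ≤
      (bv * (1 / 2 + S / 40) + n) * k - (bv * k + b * kv) / 2 + b * a1 := by linarith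
  have hB : |-0 + b * a2| ≤ b * (C1 * e) := by
    rw [neg_zero, zero_add, abs_mul, abs_of_nonneg hb]; exact mul_le_mul_of_nonneg_left ha2 hb
  have hx := cross' (s := b * (Λ / 2 - 1)) (t := b * e * c2 / 400) α β
    (mul_nonneg hb (by linarith)) (by positivity) hB (by
      have h6 : C1 ^ 2 * e ≤ (Λ / 2 - 1) * c2 / 100 := by
        linarith [sq_nonneg C1, mul_le_mul_of_nonneg_left he (sq_nonneg C1)]
      have := mul_le_mul_of_nonneg_left h6 (by positivity : 0 ≤ b ^ 2 * e)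
      linarith)
  have hc : ε * c2 / 400 ≤ ε / 10 := by linarith [mul_le_mul_of_nonneg_left hc2' hε.le]
  have hc1 : ε * c2 / 400 ≤ 1 := by linarith
  have hα : ε * c2 / 400 * (b + θ2) * α ^ 2 ≤
      (bv / 2 + (bv * (1 / 2 + S / 40) + n) - b * (Λ / 2 - 1)) * α ^ 2 :=
    mul_le_mul_of_nonneg_right (by
      linarith [mul_nonneg hbv0 hσ, mul_le_mul_of_nonneg_right hc1 (add_nonneg hb hθ)])
      (sq_nonneg α)
  have hβ : ε * c2 / 400 * (b + θ2) * β ^ 2 ≤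
      ((bv * (1 / 2 + S / 40) + n) * k - (bv * k + b * kv) / 2 + b * a1 - b * e * c2 / 400) *
        β ^ 2 :=
    mul_le_mul_of_nonneg_right (by
      linarith [mul_le_mul_of_nonneg_left hεe (mul_nonneg hb hc2.le),
        mul_le_mul hc hn hθ (by positivity : (0 : ℝ) ≤ ε / 10)]) (sq_nonneg β)
  unfold Q
  linarith

/-- the elliptic zone -/
theorem quad3 {b bt bv μ ψ2 k kv a1 a2 ε C1 K N c : ℝ} (α β : ℝ) (hε : 0 < ε) (hε1 : ε ≤ 1)
    (hC : 0 ≤ C1) (hK : 0 ≤ K) (hc : c ≤ 1) (hψ : 0 ≤ ψ2) (hb : 0 ≤ b) (hb' : b ≤ K * ψ2)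
    (hbt : |bt| ≤ K * ψ2) (hbv : |bv| ≤ K * ψ2) (hμ : |μ| ≤ K * ψ2) (hk : ε / 10 ≤ k)
    (hk' : |k| ≤ C1) (hkv : |kv| ≤ C1) (ha1 : |a1| ≤ C1) (ha2 : |a2| ≤ C1)
    (hN : 2 * (K * (2 + 3 * C1)) + K + 1 ≤ N * (ε / 10)) :
    c * (b + ψ2) * (α ^ 2 + β ^ 2) ≤ Q b bt bv (μ + N * ψ2) k kv a1 a2 α β := by
  set K1 := K * (2 + 3 * C1) with hK1
  have hK10 : 0 ≤ K1 := by positivity
  have hN0 : 0 ≤ N := nonneg_of_mul_nonneg_left (by linarith : 0 ≤ N * (ε / 10)) (by positivity)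
  have hNε : N * (ε / 10) ≤ N := by linarith [mul_le_mul_of_nonneg_left hε1 hN0]
  have hKψ : 0 ≤ K * ψ2 := by positivity
  have hm : ∀ {x y : ℝ}, |x| ≤ K * ψ2 → |y| ≤ C1 → |x * y| ≤ K * ψ2 * C1 := fun hx hy => by
    rw [abs_mul]; exact mul_le_mul hx hy (abs_nonneg _) hKψ
  have hb'' : |b| ≤ K * ψ2 := by rwa [abs_of_nonneg hb]
  have h1 := abs_le.1 (hm hμ hk')
  have h2 := abs_le.1 (hm hbv hk')
  have h3 := abs_le.1 (hm hb'' hkv)
  have h4 := abs_le.1 (hm hb'' ha1)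
  have h5 := hm hb'' ha2
  have hKC : 0 ≤ K * ψ2 * C1 := by positivity
  have hB : |-bt + b * a2| ≤ K1 * ψ2 := by
    calc |-bt + b * a2| ≤ |-bt| + |b * a2| := abs_add_le _ _
      _ ≤ K * ψ2 + K * ψ2 * C1 := by rw [abs_neg]; linarith
      _ ≤ _ := by rw [hK1]; linarith
  have hx := cross' (s := K1 * ψ2) (t := K1 * ψ2) α β (by positivity) (by positivity) hB (by
    linarith [sq_nonneg (K1 * ψ2)])
  have hw : c * (b + ψ2) ≤ (K + 1) * ψ2 := by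
    linarith [mul_le_mul_of_nonneg_right hc (add_nonneg hb hψ)]
  have hNψ : (2 * K1 + K + 1) * ψ2 ≤ N * (ε / 10) * ψ2 := mul_le_mul_of_nonneg_right hN hψ
  have hNk : N * (ε / 10) * ψ2 ≤ N * ψ2 * k := by
    linarith [mul_le_mul_of_nonneg_left hk (mul_nonneg hN0 hψ)]
  have hNψ' : N * (ε / 10) * ψ2 ≤ N * ψ2 := mul_le_mul_of_nonneg_right hNε hψ
  have hK1ψ : K1 * ψ2 = 2 * (K * ψ2) + 3 * (K * ψ2 * C1) := by rw [hK1]; ring
  have hα : c * (b + ψ2) * α ^ 2 ≤ (bv / 2 + (μ + N * ψ2) - K1 * ψ2) * α ^ 2 :=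
    mul_le_mul_of_nonneg_right (by
      have := (abs_le.1 hbv).1
      have := (abs_le.1 hμ).1
      linarith) (sq_nonneg α)
  have hβ : c * (b + ψ2) * β ^ 2 ≤
      ((μ + N * ψ2) * k - (bv * k + b * kv) / 2 + b * a1 - K1 * ψ2) * β ^ 2 :=
    mul_le_mul_of_nonneg_right (by linarith) (sq_nonneg β)
  unfold Q
  linarith

/-- the error terms -/
theorem err {p q b μ w c K : ℝ} (u E α β : ℝ) (hc : 0 < c) (hK : 0 ≤ K) (hw : 0 ≤ w)
    (hp : p ^ 2 ≤ K * w) (hq : q ^ 2 ≤ K * w) (hb : b ^ 2 ≤ K * w) (hμ : |μ| ≤ K) :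
    -(c / 2 * w * (α ^ 2 + β ^ 2)) - (2 * K / c + K) * (u ^ 2 + E ^ 2) ≤
      u * (p * α + q * β) - (b * β - μ * u) * E := by
  have e : 4 * (c * w / 4) * (K / c) = K * w := by field_simp
  have h1 := cross (s := c * w / 4) (t := K / c) (B := p) α u (by positivity) (by positivity)
    (by rwa [e])
  have h2 := cross (s := c * w / 4) (t := K / c) (B := q) β u (by positivity) (by positivity)
    (by rwa [e])
  have h3 := cross (s := c * w / 4) (t := K / c) (B := -b) β E (by positivity) (by positivity)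
    (by rwa [e, neg_sq])
  have h4 := cross' (s := K) (t := K) (B := μ) u E hK hK hμ (by nlinarith [sq_nonneg K])
  have h5 : 0 ≤ c * w * α ^ 2 := by positivity
  have h6 : 0 ≤ K / c * E ^ 2 := by positivity
  have e2 : 2 * K / c = 2 * (K / c) := by ring
  rw [e2]
  linarith

end Crest.Agent.R220.Energy
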