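import Crest.Agent.R220.EnergyAlg

/-!
# R220, energy estimate: bounds for the weights
-/

set_option autoImplicit false

namespace Crest.Agent.R220.Energy

theorem abs_mul_le {x y a b : ℝ} (hx : |x| ≤ a) (hy : |y| ≤ b) : |x * y| ≤ a * b := by
  rw [abs_mul]; exact mul_le_mul hx hy (abs_nonneg _) ((abs_nonneg _).trans hx)

/-- the weight increases in the time-like direction -/
theorem weight_mono {ρ ρt ρv ψ ψt ψv X Λ L : ℝ} (hρ : 0 ≤ ρ) (hψ : 0 ≤ ψ) (hρv : 0 ≤ ρv)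
    (hρt : |ρt| ≤ L * ρv) (hψv : 0 ≤ ψv) (hψt : |ψt| ≤ L * ψv) (hX : 0 ≤ X) (hΛ : 0 ≤ Λ)
    (hL : 0 ≤ L) :
    Λ * (ρ * ψ ^ 4 * X) ≤ (ρv * ψ ^ 4 + ρ * (4 * ψ ^ 3 * ψv)) * X + ρ * ψ ^ 4 * (X * Λ) ∧
      |(ρt * ψ ^ 4 + ρ * (4 * ψ ^ 3 * ψt)) * X| ≤
        L * ((ρv * ψ ^ 4 + ρ * (4 * ψ ^ 3 * ψv)) * X + ρ * ψ ^ 4 * (X * Λ)) := by
  have h1 : 0 ≤ (ρv * ψ ^ 4 + ρ * (4 * ψ ^ 3 * ψv)) * X := by positivity
  refine ⟨by linarith, ?_⟩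
  have h2 : |ρt * ψ ^ 4| ≤ L * ρv * ψ ^ 4 := abs_mul_le hρt (abs_of_nonneg (by positivity)).le
  have h3 : |ρ * (4 * ψ ^ 3 * ψt)| ≤ ρ * (4 * ψ ^ 3 * (L * ψv)) :=
    abs_mul_le (abs_of_nonneg hρ).le (abs_mul_le (abs_of_nonneg (by positivity)).le hψt)
  have h4 := abs_mul_le ((abs_add_le _ _).trans (add_le_add h2 h3)) (abs_of_nonneg hX).le
  have h5 : 0 ≤ L * (ρ * ψ ^ 4 * (X * Λ)) := by positivity
  linarith

theorem mu_bound {ψ θ ψe m me θe σ Se K C1 N : ℝ} (hψ0 : 0 ≤ ψ) (hψ1 : ψ ≤ 1) (hθ0 : 0 ≤ θ)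
    (hθ1 : θ ≤ 1) (hψe : |ψe| ≤ K) (hm : |m| ≤ K) (hme : |me| ≤ K) (hθe : |θe| ≤ K)
    (hσ : |σ| ≤ 1) (hSe : |Se| ≤ C1) (hN : 0 ≤ N) :
    |ψ ^ 3 * (m * σ) + N * θ ^ 2| ≤ (3 * K ^ 2 + K + K * C1 + 2 * N * K + N) * (ψ ^ 2 + θ) ∧
    |3 * ψ ^ 2 * ψe * (m * σ) + ψ ^ 3 * (me * σ + m * (Se / 40)) + N * (2 * θ * θe)| ≤
      (3 * K ^ 2 + K + K * C1 + 2 * N * K + N) * (ψ ^ 2 + θ) := by
  have hK : 0 ≤ K := (abs_nonneg _).trans hm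
  have hC : 0 ≤ C1 := (abs_nonneg _).trans hSe
  have h3 : |ψ ^ 3| ≤ ψ ^ 2 := by
    rw [abs_of_nonneg (by positivity)]; exact pow_le_pow_of_le_one hψ0 hψ1 (by norm_num)
  have h2 : |θ ^ 2| ≤ θ := by
    rw [abs_of_nonneg (by positivity)]; exact pow_le_of_le_one hθ0 hθ1 (by norm_num)
  have hN' : |N| ≤ N := (abs_of_nonneg hN).le
  have hS' : |Se / 40| ≤ C1 := by rw [abs_div, abs_of_pos (by norm_num : (0 : ℝ) < 40)]; linarith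
  have a1 := abs_mul_le h3 (abs_mul_le hm hσ)
  have a2 := abs_mul_le hN' h2
  have a3 := abs_mul_le (abs_mul_le (abs_of_nonneg (by positivity : 0 ≤ 3 * ψ ^ 2)).le hψe)
    (abs_mul_le hm hσ)
  have a4 := abs_mul_le h3 ((abs_add_le _ _).trans (add_le_add (abs_mul_le hme hσ)
    (abs_mul_le hm hS')))
  have a5 := abs_mul_le hN' (abs_mul_le (abs_of_nonneg (by positivity : 0 ≤ 2 * θ)).le hθe)
  have p1 : 0 ≤ K ^ 2 * ψ ^ 2 := by positivity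
  have p2 : 0 ≤ K ^ 2 * θ := by positivity
  have p3 : 0 ≤ K * θ := by positivity
  have p4 : 0 ≤ K * C1 * ψ ^ 2 := by positivity
  have p5 : 0 ≤ K * C1 * θ := by positivity
  have p6 : 0 ≤ N * K * ψ ^ 2 := by positivity
  have p7 : 0 ≤ N * K * θ := by positivity
  have p8 : 0 ≤ N * ψ ^ 2 := by positivity
  have p9 : 0 ≤ N * θ := by positivity
  constructor
  · refine (abs_add_le _ _).trans ?_
    linarith
  · refine (abs_add_le _ _).trans ((add_le_add (abs_add_le _ _) le_rfl).trans ?_)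
    linarith

theorem err_bound {K3 C1 η : ℝ} (hK3 : 0 ≤ K3) (hC : 0 ≤ C1) (hη : 0 < η) (hη1 : η ≤ 1)
    {ψ θ X μ μt μv k kv a1 a2 : ℝ} (hθ0 : 0 ≤ θ) (hX : η ≤ X) (hμ : |μ| ≤ K3 * (ψ ^ 2 + θ))
    (hμt : |μt| ≤ K3 * (ψ ^ 2 + θ)) (hμv : |μv| ≤ K3 * (ψ ^ 2 + θ)) (hk : |k| ≤ C1)
    (hkv : |kv| ≤ C1) (ha1 : |a1| ≤ C1) (ha2 : |a2| ≤ C1) :
    (μt - μ * a2) ^ 2 ≤ 2 * (K3 * (1 + 3 * C1)) ^ 2 / η * (ψ ^ 4 * X + θ ^ 2) ∧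
      (μv * k + μ * kv - μ * a1) ^ 2 ≤ 2 * (K3 * (1 + 3 * C1)) ^ 2 / η * (ψ ^ 4 * X + θ ^ 2) := by
  set s := ψ ^ 2 + θ with hs
  have hs0 : 0 ≤ s := by positivity
  have h1 : η * s ^ 2 ≤ 2 * (ψ ^ 4 * X + θ ^ 2) := by
    have e1 : η * ψ ^ 4 ≤ ψ ^ 4 * X := by
      rw [mul_comm]; exact mul_le_mul_of_nonneg_left hX (by positivity)
    have e2 : η * θ ^ 2 ≤ θ ^ 2 := mul_le_of_le_one_left (sq_nonneg _) hη1
    have e3 : s ^ 2 ≤ 2 * (ψ ^ 4 + θ ^ 2) := by rw [hs]; linarith [sq_nonneg (ψ ^ 2 - θ)]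
    linarith [mul_le_mul_of_nonneg_left e3 hη.le]
  have key : ∀ p : ℝ, |p| ≤ K3 * (1 + 3 * C1) * s →
      p ^ 2 ≤ 2 * (K3 * (1 + 3 * C1)) ^ 2 / η * (ψ ^ 4 * X + θ ^ 2) := fun p hp => by
    have h2 : p ^ 2 ≤ (K3 * (1 + 3 * C1) * s) ^ 2 := sq_le_sq' (abs_le.1 hp).1 (abs_le.1 hp).2
    rw [div_mul_eq_mul_div, le_div_iff₀ hη]
    linarith [mul_le_mul_of_nonneg_left h1 (sq_nonneg (K3 * (1 + 3 * C1))),
      mul_le_mul_of_nonneg_right h2 hη.le]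
  have p1 : 0 ≤ K3 * s := by positivity
  have p2 : 0 ≤ K3 * s * C1 := by positivity
  refine ⟨key _ ?_, key _ ?_⟩
  · have := abs_mul_le hμ ha2
    refine (abs_sub _ _).trans ?_
    linarith
  · have e1 := abs_mul_le hμv hk
    have e2 := abs_mul_le hμ hkv
    have e3 := abs_mul_le hμ ha1
    refine (abs_sub _ _).trans ((add_le_add (abs_add_le _ _) le_rfl).trans ?_)
    linarith

end Crest.Agent.R220.Energy
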