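import Crest.Agent.R220.Basic

/-!
# R220, energy estimate: the cut-off functions
-/

set_option autoImplicit false
open scoped ContDiff Topology
open Set MeasureTheory Filter

namespace Crest.Agent.R220.Energy

theorem dv_eq_zero_of_max {f : P → ℝ} {z : P} (e : P) {c : ℝ} (h : ∀ x, f x ≤ c) (hz : f z = c) :
    dv e f z = 0 := by
  have : IsLocalMax f z := Eventually.of_forall fun x => (h x).trans hz.ge
  simp [dv, this.fderiv_eq_zero]

theorem dv_eq_zero_of_min {f : P → ℝ} {z : P} (e : P) {c : ℝ} (h : ∀ x, c ≤ f x) (hz : f z = c) :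
    dv e f z = 0 := by
  have : IsLocalMin f z := Eventually.of_forall fun x => hz.le.trans (h x)
  simp [dv, this.fderiv_eq_zero]

theorem exists_bound {f : P → ℝ} (hf : Continuous f) : ∃ K, 0 ≤ K ∧ ∀ z ∈ sq 2, |f z| ≤ K := by
  obtain ⟨K, hK⟩ := (isCompact_closedBall (0 : P) 2).exists_bound_of_continuousOn hf.continuousOn
  exact ⟨max K 0, le_max_right _ _, fun z hz =>
    (hK z (Metric.ball_subset_closedBall hz)).trans (le_max_left _ _)⟩

theorem gf_smooth : ContDiff ℝ ∞ gf := contDiff_const.sub gb.contDiff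

theorem gf_nonneg (t : ℝ) : 0 ≤ gf t := sub_nonneg.2 gb.le_one

theorem gf_le_one (t : ℝ) : gf t ≤ 1 := sub_le_self _ gb.nonneg

theorem gf_one {t : ℝ} (h : 1 / 4 ≤ |t|) : gf t = 1 := by
  rw [gf, gb.zero_of_le_dist (by simpa [gb] using h), sub_zero]

theorem deriv_gf_zero {t : ℝ} (h : 1 / 4 ≤ |t|) : deriv gf t = 0 := by
  have : IsLocalMax gf t := Eventually.of_forall fun x => (gf_le_one x).trans (gf_one h).ge
  exact this.deriv_eq_zero

theorem exists_G : ∃ G, 0 ≤ G ∧ ∀ t, |deriv gf t| ≤ G := by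
  have hc : Continuous (deriv gf) := gf_smooth.continuous_deriv (by simp)
  obtain ⟨K, hK⟩ := (isCompact_Icc (a := (-1 : ℝ)) (b := 1)).exists_bound_of_continuousOn
    hc.continuousOn
  refine ⟨max K 0, le_max_right _ _, fun t => ?_⟩
  by_cases h : 1 / 4 ≤ |t|
  · rw [deriv_gf_zero h, abs_zero]; exact le_max_right _ _
  · have h' := abs_lt.1 (not_le.1 h)
    exact (hK t ⟨by linarith, by linarith⟩).trans (le_max_left _ _)

/-- a smooth step across the curve `v = p (1 - g t) + q g t`, of width `δ` -/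
noncomputable def R (p q δ : ℝ) : P → ℝ := fun z =>
  Real.smoothTransition ((z.2 - (p * (1 - gf z.1) + q * gf z.1)) / δ)

section R
variable {p q δ : ℝ} {z : P}

theorem R_smooth : ContDiff ℝ ∞ (R p q δ) := by
  have := gf_smooth
  exact Real.smoothTransition.contDiff.comp (by fun_prop)

theorem R_nonneg (z : P) : 0 ≤ R p q δ z := Real.smoothTransition.nonneg _

theorem R_le_one (z : P) : R p q δ z ≤ 1 := Real.smoothTransition.le_one _

theorem lt_of_R_ne_zero (hδ : 0 < δ) (h : R p q δ z ≠ 0) :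
    p * (1 - gf z.1) + q * gf z.1 < z.2 := by
  rw [R, Ne, Real.smoothTransition.zero_iff_nonpos, not_le, div_pos_iff_of_pos_right hδ] at h
  linarith

theorem R_one (hδ : 0 < δ) (h : p * (1 - gf z.1) + q * gf z.1 + δ ≤ z.2) : R p q δ z = 1 :=
  Real.smoothTransition.one_of_one_le ((one_le_div hδ).2 (by linarith))

theorem dv_R (e : P) : dv e (R p q δ) z =
    deriv Real.smoothTransition ((z.2 - (p * (1 - gf z.1) + q * gf z.1)) / δ) *
      ((e.2 - (q - p) * deriv gf z.1 * e.1) / δ) := by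
  have hg : Differentiable ℝ gf := gf_smooth.differentiable (by simp)
  have hB : Differentiable ℝ Real.smoothTransition :=
    (Real.smoothTransition.contDiff (n := 1)).differentiable (by simp)
  have h1 : dv e (fun z : P => gf z.1) z = deriv gf z.1 * e.1 := by
    rw [dv_comp (f := fun z : P => z.1) (hg z.1).hasDerivAt differentiableAt_fst, dv_fst]
  have h2 : (fun z : P => (z.2 - (p * (1 - gf z.1) + q * gf z.1)) / δ) =
      fun z : P => δ⁻¹ * (z.2 - (p + (q - p) * gf z.1)) := by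
    funext z; ring
  have h3 : dv e (fun z : P => (z.2 - (p * (1 - gf z.1) + q * gf z.1)) / δ) z =
      (e.2 - (q - p) * deriv gf z.1 * e.1) / δ := by
    rw [h2, dv_const_mul _ (by fun_prop), dv_sub (by fun_prop) (by fun_prop), dv_snd,
      dv_add (by fun_prop) (by fun_prop), dv_const, dv_const_mul _ (by fun_prop), h1]
    ring
  rw [← h3]
  exact dv_comp (f := fun z : P => (z.2 - (p * (1 - gf z.1) + q * gf z.1)) / δ)
    (hB _).hasDerivAt (by fun_prop)

theorem d2_R_nonneg (hδ : 0 < δ) (z : P) : 0 ≤ d2 (R p q δ) z := by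
  rw [d2_eq, dv_R]
  have := Real.smoothTransition.monotone.deriv_nonneg
    (x := (z.2 - (p * (1 - gf z.1) + q * gf z.1)) / δ)
  simp only [mul_zero, sub_zero]
  positivity

theorem d1_R (z : P) : d1 (R p q δ) z = -((q - p) * deriv gf z.1) * d2 (R p q δ) z := by
  rw [d1_eq, d2_eq, dv_R, dv_R]
  ring

theorem abs_d1_R_le (hδ : 0 < δ) {G c : ℝ} (hG : ∀ t, |deriv gf t| ≤ G) (hc : |q - p| ≤ c)
    (z : P) : |d1 (R p q δ) z| ≤ c * G * d2 (R p q δ) z := by
  rw [d1_R, abs_mul, abs_neg, abs_mul, abs_of_nonneg (d2_R_nonneg hδ z)]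
  exact mul_le_mul_of_nonneg_right
    (mul_le_mul hc (hG _) (abs_nonneg _) ((abs_nonneg _).trans hc)) (d2_R_nonneg hδ z)

end R

/-- the part of the weight that does not depend on `d, d'` -/
theorem exists_psi {G c2 τ τ' : ℝ} (hG : ∀ t, |deriv gf t| ≤ G) (hc2 : 0 < c2) (hc2' : c2 ≤ 1 / 100)
    (hτ : 0 < τ) (hττ : τ < τ') (hτ' : τ' < 1) :
    ∃ ψ : P → ℝ, ContDiff ℝ ∞ ψ ∧ HasCompactSupport ψ ∧ (∀ z, 0 ≤ ψ z) ∧ (∀ z, ψ z ≤ 1) ∧
      (∀ z, ψ z ≠ 0 → ‖z‖ < 2 - τ / 4 ∧ -(3 * c2) ≤ z.2 ∧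
        (1 / 4 ≤ |z.1| → c2 * (1 + (τ + τ') / 2) < z.2)) ∧
      (∀ d d', |d| ≤ c2 → 0 < d' → ∀ z ∈ Om c2 d d' τ', ψ z = 1) ∧
      (∀ z, ‖z‖ ≤ 7 / 4 → 0 ≤ d2 ψ z ∧ |d1 ψ z| ≤ 5 * c2 * G * d2 ψ z) ∧
      (∀ z, 1 / 2 ≤ ‖z‖ → ‖z‖ ≤ 7 / 4 → d1 ψ z = 0) := by
  let χ : ContDiffBump (0 : P) := ⟨2 - τ' / 4, 2 - τ / 4, by linarith, by linarith⟩
  have hδ : 0 < c2 * ((τ' - τ) / 2) := by have := sub_pos.2 hττ; positivity
  let ρ := R (-(3 * c2)) (c2 * (1 + (τ + τ') / 2)) (c2 * ((τ' - τ) / 2))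
  have hρ : ContDiff ℝ ∞ ρ := R_smooth
  have hχ : ContDiff ℝ ∞ χ := χ.contDiff
  have hd : ∀ e z, ‖z‖ ≤ 7 / 4 → dv e (fun z => ρ z * χ z) z = dv e ρ z := fun e z hz => by
    have h1 : χ z = 1 := χ.one_of_mem_closedBall (by
      simp only [Metric.mem_closedBall, dist_zero_right, χ]; linarith)
    rw [dv_mul (hρ.differentiable (by simp) z) (hχ.differentiable (by simp) z),
      dv_eq_zero_of_max (f := χ) e (fun _ => χ.le_one) h1, h1, mul_one, mul_zero, add_zero]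
  have hlow : ∀ z, ρ z ≠ 0 → -(3 * c2) ≤ z.2 := fun z hz => by
    have h1 := lt_of_R_ne_zero hδ hz
    have h2 := gf_nonneg z.1
    nlinarith [mul_nonneg hc2.le h2, mul_nonneg (mul_nonneg hc2.le h2) (by linarith : 0 ≤ τ + τ')]
  refine ⟨fun z => ρ z * χ z, hρ.mul hχ, χ.hasCompactSupport.mul_left,
    fun z => mul_nonneg (R_nonneg z) χ.nonneg,
    fun z => mul_le_one₀ (R_le_one z) χ.nonneg χ.le_one, fun z hz => ⟨?_, ?_, fun ht => ?_⟩,
    fun d d' hd hd' z hz => ?_, fun z hz => ⟨?_, ?_⟩, fun z hz hz' => ?_⟩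
  · have : z ∈ Function.support χ := right_ne_zero_of_mul hz
    rw [χ.support_eq] at this
    simpa [χ] using this
  · exact hlow z (left_ne_zero_of_mul hz)
  · have h1 := lt_of_R_ne_zero hδ (left_ne_zero_of_mul hz)
    rw [gf_one ht] at h1
    linarith
  · obtain ⟨h1, h2, h3⟩ := hz
    have h4 := gf_nonneg z.1
    have h5 := gf_le_one z.1
    have h6 := (abs_le.1 hd).1
    have h7 : -c2 * (1 - gf z.1) ≤ (d + τ' * d') * (1 - gf z.1) :=
      mul_le_mul_of_nonneg_right (by nlinarith) (by linarith)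
    have h8 : 0 ≤ c2 * (1 + τ') * gf z.1 := by have := hτ.trans hττ; positivity
    have h9 : ρ z = 1 := R_one hδ (by
      nlinarith [mul_nonneg (mul_nonneg hc2.le (sub_nonneg.2 h5))
        (by linarith : 0 ≤ 2 - (τ' - τ) / 2)])
    have h10 : χ z = 1 := χ.one_of_mem_closedBall (by
      simp only [Metric.mem_closedBall, dist_zero_right, χ, Prod.norm_def, max_le_iff,
        Real.norm_eq_abs]
      refine ⟨h1.le, abs_le.2 ⟨?_, h2.le⟩⟩
      nlinarith [mul_nonneg hc2.le h4])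
    simp only [h9, h10, mul_one]
  · rw [d2_eq, hd _ z hz]
    exact d2_R_nonneg hδ z
  · rw [d1_eq, d2_eq, hd _ z hz, hd _ z hz]
    refine abs_d1_R_le hδ hG (abs_le.2 ⟨?_, ?_⟩) z <;> nlinarith
  · rw [d1_eq, hd _ z hz']
    by_cases ht : 1 / 4 ≤ |z.1|
    · rw [← d1_eq, d1_R, deriv_gf_zero ht]
      ring
    · by_cases h0 : ρ z = 0
      · exact dv_eq_zero_of_min _ R_nonneg h0
      · refine dv_eq_zero_of_max _ R_le_one (R_one hδ ?_)
        have h1 := hlow z h0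
        have h2 : 1 / 2 ≤ |z.2| := by
          rw [Prod.norm_def, le_max_iff] at hz
          rcases hz with h | h
          · exact absurd (by rw [Real.norm_eq_abs] at h; linarith) ht
          · exact h
        have h3 : 1 / 2 ≤ z.2 := by
          rcases le_abs.1 h2 with h | h <;> linarith
        have h4 := gf_nonneg z.1
        have h5 := gf_le_one z.1
        nlinarith [mul_nonneg hc2.le (sub_nonneg.2 h5),
          mul_nonneg (mul_nonneg hc2.le (sub_nonneg.2 h5)) (by linarith : 0 ≤ τ + τ')]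

/-- the part of the weight that depends on `d, d'` -/
theorem exists_rho {G c2 τ τ' d d' : ℝ} (hG : ∀ t, |deriv gf t| ≤ G) (hc2 : 0 < c2)
    (hc2' : c2 ≤ 1 / 100) (hτ : 0 < τ) (hττ : τ < τ') (hτ' : τ' < 1) (hd : |d| ≤ c2) (hd' : 0 < d')
    (hd'' : d' ≤ c2) :
    ∃ ρ : P → ℝ, ContDiff ℝ ∞ ρ ∧ (∀ z, 0 ≤ ρ z) ∧ (∀ z, ρ z ≤ 1) ∧
      (∀ z, 0 ≤ d2 ρ z ∧ |d1 ρ z| ≤ 5 * c2 * G * d2 ρ z) ∧
      (∀ z, ρ z ≠ 0 → (d + τ * d') * (1 - gf z.1) + c2 * (1 + τ) * gf z.1 < z.2) ∧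
      (∀ z ∈ Om c2 d d' τ', ρ z = 1) ∧
      (∀ z, 1 / 4 ≤ ‖z‖ → -(3 * c2) ≤ z.2 → (1 / 4 ≤ |z.1| → c2 * (1 + (τ + τ') / 2) < z.2) →
        ρ z = 1) := by
  have hδ : 0 < d' * ((τ' - τ) / 2) := by have := sub_pos.2 hττ; positivity
  have h6 := abs_le.1 hd
  refine ⟨R (d + τ * d') (c2 * (1 + τ)) (d' * ((τ' - τ) / 2)), R_smooth, R_nonneg, R_le_one,
    fun z => ⟨d2_R_nonneg hδ z, abs_d1_R_le hδ hG (abs_le.2 ⟨?_, ?_⟩) z⟩,
    fun z hz => lt_of_R_ne_zero hδ hz, fun z hz => R_one hδ ?_, fun z h1 h2 h3 => R_one hδ ?_⟩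
  · nlinarith
  · nlinarith
  · obtain ⟨-, -, h3⟩ := hz
    have h4 := gf_nonneg z.1
    have h5 := gf_le_one z.1
    nlinarith [mul_nonneg (mul_nonneg (sub_nonneg.2 hd'') h4) (sub_nonneg.2 hττ.le)]
  · by_cases ht : 1 / 4 ≤ |z.1|
    · have := h3 ht
      rw [gf_one ht]
      nlinarith [mul_nonneg (sub_nonneg.2 hd'') (sub_nonneg.2 hττ.le)]
    · have h7 : 1 / 4 ≤ |z.2| := by
        rw [Prod.norm_def, le_max_iff] at h1
        rcases h1 with h | h
        · exact absurd h ht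
        · exact h
      have h8 : 1 / 4 ≤ z.2 := by
        rcases le_abs.1 h7 with h | h <;> linarith
      have h4 := gf_nonneg z.1
      have h5 := gf_le_one z.1
      have h9 : (d + τ * d') * (1 - gf z.1) ≤ 2 * c2 * (1 - gf z.1) :=
        mul_le_mul_of_nonneg_right (by nlinarith) (by linarith)
      have h10 : c2 * (1 + τ) * gf z.1 ≤ 2 * c2 * gf z.1 :=
        mul_le_mul_of_nonneg_right (by nlinarith) h4
      nlinarith

end Crest.Agent.R220.Energy
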