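import Crest.Agent.R220.Basic

/-! R220 Est, part B: the numerical first-order estimates. -/

set_option autoImplicit false
open scoped ContDiff Topology
open Set Filter

namespace Crest.Agent.R220.Est

theorem amul {x y A B : ℝ} (hx : |x| ≤ A) (hy : |y| ≤ B) : |x * y| ≤ A * B := by
  rw [abs_mul]; exact mul_le_mul hx hy (abs_nonneg _) ((abs_nonneg _).trans hx)

theorem mv {g : P → ℝ} (hg : ContDiff ℝ ∞ g) {c : ℝ}
    (h1 : ∀ z ∈ sq 4, |d1 g z| ≤ c) (h2 : ∀ z ∈ sq 4, |d2 g z| ≤ c) {z : P} (hz : z ∈ sq 4) :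
    |g z - g 0| ≤ 8 * c := by
  have h0 : (0 : P) ∈ sq 4 := by rw [mem_sq]; simp
  have hc : 0 ≤ c := (abs_nonneg _).trans (h1 0 h0)
  have := abs_sub_le_of_d (f := g) (r := 4) (C := 2 * c)
    (fun z _ => hg.differentiable (by simp) z)
    (fun z hz => by linarith [h1 z hz, h2 z hz]) h0 hz
  have hz' : ‖z‖ ≤ 4 := (mem_sq.1 hz).le
  rw [sub_zero] at this
  nlinarith

theorem near_one {x s η : ℝ} (hx : 0 < x) (h : x ^ 2 = Real.exp (2 * s)) (hs : |s| ≤ η)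
    (hη : η ≤ 1 / 2) : |x - 1| ≤ 4 * η := by
  have h1 : |2 * s| ≤ 2 * η := by rw [abs_mul, abs_two]; linarith
  have h2 := Real.abs_exp_sub_one_le (x := 2 * s) (by linarith)
  rw [← h] at h2
  have h3 : |x - 1| ≤ |x ^ 2 - 1| := by
    have : x ^ 2 - 1 = (x - 1) * (x + 1) := by ring
    rw [this, abs_mul, abs_of_pos (by linarith : 0 < x + 1)]
    nlinarith [abs_nonneg (x - 1)]
  linarith

/-- the pointwise first- and second-order bounds -/
structure Pt (η a : ℝ) (t Y f : P → ℝ) (z : P) : Prop where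
  tx : |d1 t z - 1| ≤ 12 * η
  ty : |d2 t z| ≤ 8 * η
  Yx : |d1 Y z| ≤ 8 * η
  Yy : |d2 Y z - 1| ≤ 12 * η
  fxy : |d1 (d2 f) z| ≤ 8 * η * a
  fyx : |d2 (d1 f) z| ≤ 8 * η * a
  fyy : |d2 (d2 f) z - a| ≤ 8 * η * a
  fxx : |d1 (d1 f) z| ≤ 2 * a

theorem pt {η a0 : ℝ} {φ t Y f : P → ℝ} (hη : η ≤ 1 / 100) (ha0 : 0 < a0) (hφ : |φ 0| ≤ η)
    (H : Hyp η a0 φ t Y f) {z : P} (hz : z ∈ sq 4) : Pt η (aa f) t Y f z := by
  have h0 : (0 : P) ∈ sq 4 := by rw [mem_sq]; simp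
  have ha : 0 < aa f := ha0.trans_le H.ha0
  have hb : ∀ b c : Bool, ∀ z ∈ sq 4, |dw [b, c] t z| ≤ η ∧ |dw [b, c] Y z| ≤ η ∧
      |dw [b, c] f z| ≤ η := fun b c z hz => H.bd [b, c] (by simp) (by simp) z hz
  have hb3 : ∀ b c d : Bool, ∀ z ∈ sq 4, |dw [b, c, d] f z| ≤ η * aa f :=
    fun b c d z hz => H.bd3 [b, c, d] (by simp) z hz
  have e1 : |d1 t 0 - 1| ≤ 4 * η := by
    have := H.m11 0 h0
    rw [H.Yx0, H.fx0] at this
    exact near_one H.tx0 (by linarith) hφ (by linarith)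
  have e2 : |d2 Y 0 - 1| ≤ 4 * η := by
    have := H.m22 0 h0
    rw [H.ty0, H.fy0] at this
    exact near_one H.Yy0 (by linarith) hφ (by linarith)
  have m1 := mv (contDiff_d1 H.smt) (fun z hz => (hb false false z hz).1)
    (fun z hz => (hb true false z hz).1) hz
  have m2 := mv (contDiff_d2 H.smt) (fun z hz => (hb false true z hz).1)
    (fun z hz => (hb true true z hz).1) hz
  have m3 := mv (contDiff_d1 H.smY) (fun z hz => (hb false false z hz).2.1)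
    (fun z hz => (hb true false z hz).2.1) hz
  have m4 := mv (contDiff_d2 H.smY) (fun z hz => (hb false true z hz).2.1)
    (fun z hz => (hb true true z hz).2.1) hz
  have m5 := mv (contDiff_d1 (contDiff_d2 H.smf)) (fun z hz => hb3 false false true z hz)
    (fun z hz => hb3 true false true z hz) hz
  have m6 := mv (contDiff_d2 (contDiff_d2 H.smf)) (fun z hz => hb3 false true true z hz)
    (fun z hz => hb3 true true true z hz) hz
  have m7 := mv (contDiff_d1 (contDiff_d1 H.smf)) (fun z hz => hb3 false false false z hz)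
    (fun z hz => hb3 true false false z hz) hz
  rw [H.ty0, sub_zero] at m2
  rw [H.Yx0, sub_zero] at m3
  rw [H.fxy0, sub_zero] at m5
  have hxx : |d1 (d1 f) 0| ≤ aa f := H.fxx0
  have hηa : η * aa f ≤ 1 / 100 * aa f := mul_le_mul_of_nonneg_right hη ha.le
  refine ⟨?_, m2, m3, ?_, by linarith, ?_, by unfold aa at *; linarith, ?_⟩
  · rw [abs_le] at *; constructor <;> linarith [e1.1, e1.2, m1.1, m1.2]
  · rw [abs_le] at *; constructor <;> linarith [e2.1, e2.2, m4.1, m4.2]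
  · rw [← d1_d2_comm H.smf.contDiffAt]; linarith
  · rw [abs_le] at *; constructor <;> linarith [hxx.1, hxx.2, m7.1, m7.2]

theorem f_bd {η a0 : ℝ} {φ t Y f : P → ℝ} (hη : η ≤ 1 / 100) (ha0 : 0 < a0) (hφ : |φ 0| ≤ η)
    (H : Hyp η a0 φ t Y f) {z : P} (hz : z ∈ sq 4) :
    |d1 f z| ≤ 16 * aa f ∧ |d2 f z| ≤ 16 * aa f ∧ |t z| ≤ 16 := by
  have ha : 0 < aa f := ha0.trans_le H.ha0
  have hηa : η * aa f ≤ 1 / 100 * aa f := mul_le_mul_of_nonneg_right hη ha.le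
  have m1 := mv (contDiff_d1 H.smf) (c := 2 * aa f) (fun z hz => (pt hη ha0 hφ H hz).fxx)
    (fun z hz => by linarith [(pt hη ha0 hφ H hz).fyx]) hz
  have m2 := mv (contDiff_d2 H.smf) (c := 2 * aa f)
    (fun z hz => by linarith [(pt hη ha0 hφ H hz).fxy])
    (fun z hz => by
      have := (pt hη ha0 hφ H hz).fyy
      rw [abs_le] at *; constructor <;> linarith [this.1, this.2]) hz
  have m3 := mv H.smt (c := 2)
    (fun z hz => by
      have := (pt hη ha0 hφ H hz).tx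
      rw [abs_le] at *; constructor <;> linarith [this.1, this.2])
    (fun z hz => by linarith [(pt hη ha0 hφ H hz).ty]) hz
  rw [H.fx0, sub_zero] at m1
  rw [H.fy0, sub_zero] at m2
  rw [H.t0, sub_zero] at m3
  exact ⟨by linarith, by linarith, by linarith⟩

/-- the numerical value of `η` -/
noncomputable abbrev η0 : ℝ := 1 / 1000000

theorem J_alg {tx ty Yx Yy : ℝ} (h1 : |tx - 1| ≤ 12 * η0) (h2 : |ty| ≤ 8 * η0)
    (h3 : |Yx| ≤ 8 * η0) (h4 : |Yy - 1| ≤ 12 * η0) : |tx * Yy - ty * Yx - 1| ≤ 25 * η0 := by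
  have e : tx * Yy - ty * Yx - 1 = (tx - 1) * (Yy - 1) + (tx - 1) + (Yy - 1) - ty * Yx := by ring
  have k1 := amul h1 h4
  have k2 := amul h2 h3
  rw [e, abs_le] at *
  unfold η0 at *
  constructor <;> linarith [h1.1, h1.2, h4.1, h4.2, k1.1, k1.2, k2.1, k2.2]

theorem abs_le_two {x c : ℝ} (h : |x - 1| ≤ c) (hc : c ≤ 1) : |x| ≤ 2 := by
  rw [abs_le] at *; constructor <;> linarith [h.1, h.2]

theorem quot_alg {N J a c : ℝ} (ha : 0 < a) (hJ : |J - 1| ≤ 25 * η0) (h : |N| ≤ c * a / 2) :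
    |N / J ^ 2 / a| ≤ c := by
  have hJ' : 1 / 2 ≤ J ^ 2 := by
    rw [abs_le] at hJ; unfold η0 at hJ; nlinarith [hJ.1, hJ.2]
  have hc : 0 ≤ c * a := by linarith [abs_nonneg N]
  rw [abs_div, abs_div, abs_of_pos ha, abs_of_pos (by linarith : 0 < J ^ 2), div_div,
    div_le_iff₀ (by positivity)]
  nlinarith

theorem quot1_alg {N J c : ℝ} (hJ : |J - 1| ≤ 25 * η0) (h : |N| ≤ c / 2) : |N / J| ≤ c := by
  have hJ' : 1 / 2 ≤ J := by
    rw [abs_le] at hJ; unfold η0 at hJ; linarith [hJ.1]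
  have hc : 0 ≤ c := by linarith [abs_nonneg N]
  rw [abs_div, abs_of_pos (by linarith : 0 < J), div_le_iff₀ (by linarith)]
  nlinarith

/-- derivative of `p` in an arbitrary direction -/
theorem dv_px {t Y f : P → ℝ} (ht : ContDiff ℝ ∞ t) (hY : ContDiff ℝ ∞ Y) (hf : ContDiff ℝ ∞ f)
    (e : P) {z : P} (hJ : Jx t Y z ≠ 0) :
    dv e (px t Y f) z =
      ((dv e (d1 t) z * d2 f z + d1 t z * dv e (d2 f) z
          - (dv e (d2 t) z * d1 f z + d2 t z * dv e (d1 f) z)) * Jx t Y z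
        - (d1 t z * d2 f z - d2 t z * d1 f z) *
          (dv e (d1 t) z * d2 Y z + d1 t z * dv e (d2 Y) z
            - (dv e (d2 t) z * d1 Y z + d2 t z * dv e (d1 Y) z))) / Jx t Y z ^ 2 := by
  have D : ∀ {g : P → ℝ}, ContDiff ℝ ∞ g → DifferentiableAt ℝ g z :=
    fun hg => hg.differentiable (by simp) z
  have t1 := D (contDiff_d1 ht)
  have t2 := D (contDiff_d2 ht)
  have Y1 := D (contDiff_d1 hY)
  have Y2 := D (contDiff_d2 hY)
  have f1 := D (contDiff_d1 hf)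
  have f2 := D (contDiff_d2 hf)
  have hJd : dv e (Jx t Y) z = dv e (d1 t) z * d2 Y z + d1 t z * dv e (d2 Y) z
      - (dv e (d2 t) z * d1 Y z + d2 t z * dv e (d1 Y) z) := by
    unfold Jx
    rw [dv_sub (t1.fun_mul Y2) (t2.fun_mul Y1), dv_mul t1 Y2, dv_mul t2 Y1]
  have hJD : DifferentiableAt ℝ (Jx t Y) z := (t1.mul Y2).sub (t2.mul Y1)
  unfold px
  rw [dv_div (g := Jx t Y) ((t1.fun_mul f2).fun_sub (t2.fun_mul f1)) hJD hJ, hJd,
    dv_sub (t1.fun_mul f2) (t2.fun_mul f1), dv_mul t1 f2, dv_mul t2 f1]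

theorem main_est {a0 : ℝ} {φ t Y f : P → ℝ} (ha0 : 0 < a0) (hφ : |φ 0| ≤ η0)
    (H : Hyp η0 a0 φ t Y f) {z : P} (hz : z ∈ sq 4) :
    |Jx t Y z - 1| ≤ 25 * η0 ∧
    |d1 (px t Y f) z / aa f| ≤ 1 / 100 ∧ |d2 (px t Y f) z / aa f - 1| ≤ 1 / 100 ∧
    |px t Y f z| ≤ 1 / 10 ∧ |qx t Y f z| ≤ 1 / 10 := by
  have hη : η0 ≤ 1 / 100 := by norm_num [η0]
  have h0 : (0 : P) ∈ sq 4 := by rw [mem_sq]; simp
  have ha : 0 < aa f := ha0.trans_le H.ha0
  have ha1 : aa f ≤ η0 := (le_abs_self _).trans (H.bd [true, true] (by simp) (by simp) 0 h0).2.2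
  obtain ⟨tx, ty, Yx, Yy, fxy, fyx, fyy, fxx⟩ := pt hη ha0 hφ H hz
  obtain ⟨fx, fy, -⟩ := f_bd hη ha0 hφ H hz
  have hJ : |Jx t Y z - 1| ≤ 25 * η0 := J_alg tx ty Yx Yy
  have hJ0 : Jx t Y z ≠ 0 := by
    intro h; rw [h] at hJ; norm_num [η0] at hJ
  have hb : ∀ b c : Bool, |dw [b, c] t z| ≤ η0 ∧ |dw [b, c] Y z| ≤ η0 ∧
      |dw [b, c] f z| ≤ η0 := fun b c => H.bd [b, c] (by simp) (by simp) z hz
  have txx : |d1 (d1 t) z| ≤ η0 := (hb false false).1
  have txy : |d2 (d1 t) z| ≤ η0 := (hb true false).1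
  have tyx : |d1 (d2 t) z| ≤ η0 := (hb false true).1
  have tyy : |d2 (d2 t) z| ≤ η0 := (hb true true).1
  have Yxx : |d1 (d1 Y) z| ≤ η0 := (hb false false).2.1
  have Yxy : |d2 (d1 Y) z| ≤ η0 := (hb true false).2.1
  have Yyx : |d1 (d2 Y) z| ≤ η0 := (hb false true).2.1
  have Yyy : |d2 (d2 Y) z| ≤ η0 := (hb true true).2.1
  have tx2 : |d1 t z| ≤ 2 := abs_le_two tx (by norm_num [η0])
  have Yy2 : |d2 Y z| ≤ 2 := abs_le_two Yy (by norm_num [η0])
  have J2 : |Jx t Y z| ≤ 2 := abs_le_two hJ (by norm_num [η0])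
  set a := aa f with ha_def
  -- the numerators
  have hN : |d1 t z * d2 f z - d2 t z * d1 f z| ≤ 33 * a := by
    have k1 := amul tx2 fy
    have k2 := amul ty fx
    rw [abs_le] at *; unfold η0 at *
    constructor <;> linarith [k1.1, k1.2, k2.1, k2.2]
  have hN' : |d1 f z * d2 Y z - d2 f z * d1 Y z| ≤ 33 * a := by
    have k1 := amul fx Yy2
    have k2 := amul fy Yx
    rw [abs_le] at *; unfold η0 at *
    constructor <;> linarith [k1.1, k1.2, k2.1, k2.2]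
  have hJ1 : |d1 (d1 t) z * d2 Y z + d1 t z * d1 (d2 Y) z
      - (d1 (d2 t) z * d1 Y z + d2 t z * d1 (d1 Y) z)| ≤ 5 * η0 := by
    have k1 := amul txx Yy2
    have k2 := amul tx2 Yyx
    have k3 := amul tyx Yx
    have k4 := amul ty Yxx
    rw [abs_le] at k1 k2 k3 k4 ⊢; unfold η0 at *
    constructor <;> linarith [k1.1, k1.2, k2.1, k2.2, k3.1, k3.2, k4.1, k4.2]
  have hJ2 : |d2 (d1 t) z * d2 Y z + d1 t z * d2 (d2 Y) z
      - (d2 (d2 t) z * d1 Y z + d2 t z * d2 (d1 Y) z)| ≤ 5 * η0 := by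
    have k1 := amul txy Yy2
    have k2 := amul tx2 Yyy
    have k3 := amul tyy Yx
    have k4 := amul ty Yxy
    rw [abs_le] at k1 k2 k3 k4 ⊢; unfold η0 at *
    constructor <;> linarith [k1.1, k1.2, k2.1, k2.2, k3.1, k3.2, k4.1, k4.2]
  have hN1 : |d1 (d1 t) z * d2 f z + d1 t z * d1 (d2 f) z
      - (d1 (d2 t) z * d1 f z + d2 t z * d1 (d1 f) z)| ≤ 64 * η0 * a := by
    have k1 := amul txx fy
    have k2 := amul tx2 fxy
    have k3 := amul tyx fx
    have k4 := amul ty fxx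
    rw [abs_le] at k1 k2 k3 k4 ⊢; unfold η0 at *
    constructor <;> linarith [k1.1, k1.2, k2.1, k2.2, k3.1, k3.2, k4.1, k4.2]
  have hN2 : |d2 (d1 t) z * d2 f z + d1 t z * d2 (d2 f) z
      - (d2 (d2 t) z * d1 f z + d2 t z * d2 (d1 f) z) - a| ≤ 64 * η0 * a := by
    have k1 := amul txy fy
    have k2 := amul tx2 fyy
    have k2' := amul tx (abs_of_pos ha).le
    have k3 := amul tyy fx
    have k4 := amul ty fyx
    rw [abs_le] at k1 k2 k2' k3 k4 ⊢; unfold η0 at *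
    constructor <;> linarith [k1.1, k1.2, k2.1, k2.2, k2'.1, k2'.2, k3.1, k3.2, k4.1, k4.2]
  refine ⟨hJ, ?_, ?_, ?_, ?_⟩
  · rw [d1_eq (px t Y f), dv_px H.smt H.smY H.smf _ hJ0]
    simp only [← d1_eq]
    refine quot_alg ha hJ ?_
    have k1 := amul hN1 J2
    have k2 := amul hN hJ1
    rw [abs_le] at k1 k2 ⊢; unfold η0 at *
    constructor <;> linarith [k1.1, k1.2, k2.1, k2.2]
  · rw [d2_eq (px t Y f), dv_px H.smt H.smY H.smf _ hJ0]
    simp only [← d2_eq]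
    have e : ∀ N J : ℝ, J ≠ 0 → N / J ^ 2 / a - 1 = (N - a * J ^ 2) / J ^ 2 / a := by
      intro N J hJ; field_simp
    rw [e _ _ hJ0]
    refine quot_alg ha hJ ?_
    have k1 := amul hN2 J2
    have k2 := amul hN hJ2
    have k3 := amul (amul (abs_of_pos ha).le J2) hJ
    rw [abs_le] at k1 k2 k3 ⊢; unfold η0 at *
    constructor <;> linarith [k1.1, k1.2, k2.1, k2.2, k3.1, k3.2]
  · exact quot1_alg hJ (by unfold η0 at *; linarith)
  · exact quot1_alg hJ (by unfold η0 at *; linarith)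

theorem D_lb {a0 : ℝ} {φ t Y f : P → ℝ} (ha0 : 0 < a0) (hφ : |φ 0| ≤ η0)
    (H : Hyp η0 a0 φ t Y f) {z : P} (hz : z ∈ sq 4) : a0 / 2 ≤ Dx t Y f z := by
  have hη : η0 ≤ 1 / 100 := by norm_num [η0]
  have ha : 0 < aa f := ha0.trans_le H.ha0
  have ha' : a0 ≤ aa f := H.ha0
  obtain ⟨tx, ty, -⟩ := pt hη ha0 hφ H hz
  obtain ⟨-, p1, p2, -⟩ := main_est ha0 hφ H hz
  have e : Dx t Y f z = aa f * (d1 t z * (d2 (px t Y f) z / aa f)
      - d2 t z * (d1 (px t Y f) z / aa f)) := by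
    unfold Dx; field_simp
  have k1 := amul tx p2
  have k2 := amul ty p1
  have : 1 / 2 ≤ d1 t z * (d2 (px t Y f) z / aa f) - d2 t z * (d1 (px t Y f) z / aa f) := by
    rw [abs_le] at k1 k2 tx p2; unfold η0 at *
    linarith [k1.1, k2.2, tx.1, p2.1]
  rw [e]; nlinarith

end Crest.Agent.R220.Est
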