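import Crest.Agent.R220.EstA
import Crest.Agent.R220.EstB

/-! R220 Est: the estimates on the `(x,y)` side. -/

set_option autoImplicit false
set_option linter.unusedSectionVars false
set_option linter.unusedVariables false
open scoped ContDiff Topology
open Set Filter

namespace Crest.Agent.R220

namespace Est

/-- all admissible data -/
structure Dat (a0 : ℝ) where
  φ : P → ℝ
  t : P → ℝ
  Y : P → ℝ
  f : P → ℝ
  hφ : |φ 0| ≤ η0
  H : Hyp η0 a0 φ t Y f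

section
variable {a0 : ℝ} (ha0 : 0 < a0)
include ha0

theorem C_second (g : Dat a0 → P → ℝ) (hs : ∀ i, ContDiff ℝ ∞ (g i))
    (hb : ∀ i, ∀ w : List Bool, 2 ≤ w.length → w.length ≤ 4 → ∀ z ∈ sq 4, |dw w (g i) z| ≤ η0)
    (b : Bool) (h1 : Bd (fun i => dw [b] (g i))) : C 3 (fun i => dw [b] (g i)) := by
  have key := C.of_words (g := g) hs (n := 2) (N := 4)
    (fun w h1 h2 => ⟨η0, fun i z hz => hb i w h1 h2 z hz⟩) 2
  exact ⟨fun i z _ => (contDiff_dw (hs i) [b]).contDiffAt, h1,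
    key [false, b] (by simp) (by simp), key [true, b] (by simp) (by simp)⟩

theorem hη : η0 ≤ 1 / 100 := by norm_num [η0]

theorem a_le (i : Dat a0) : aa i.f ≤ η0 :=
  (le_abs_self _).trans (i.H.bd [true, true] (by simp) (by simp) 0 (by rw [mem_sq]; simp)).2.2

theorem C_tx : C 3 (fun i : Dat a0 => d1 i.t) :=
  C_second ha0 (fun i => i.t) (fun i => i.H.smt) (fun i w h1 h2 z hz => (i.H.bd w h1 h2 z hz).1)
    false ⟨2, fun i z hz => abs_le_two (pt (hη ha0) ha0 i.hφ i.H hz).tx (by norm_num [η0])⟩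

theorem C_ty : C 3 (fun i : Dat a0 => d2 i.t) :=
  C_second ha0 (fun i => i.t) (fun i => i.H.smt) (fun i w h1 h2 z hz => (i.H.bd w h1 h2 z hz).1)
    true ⟨_, fun i z hz => (pt (hη ha0) ha0 i.hφ i.H hz).ty⟩

theorem C_Yx : C 3 (fun i : Dat a0 => d1 i.Y) :=
  C_second ha0 (fun i => i.Y) (fun i => i.H.smY) (fun i w h1 h2 z hz => (i.H.bd w h1 h2 z hz).2.1)
    false ⟨_, fun i z hz => (pt (hη ha0) ha0 i.hφ i.H hz).Yx⟩

theorem C_Yy : C 3 (fun i : Dat a0 => d2 i.Y) :=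
  C_second ha0 (fun i => i.Y) (fun i => i.H.smY) (fun i w h1 h2 z hz => (i.H.bd w h1 h2 z hz).2.1)
    true ⟨2, fun i z hz => abs_le_two (pt (hη ha0) ha0 i.hφ i.H hz).Yy (by norm_num [η0])⟩

theorem C_fx : C 3 (fun i : Dat a0 => d1 i.f) :=
  C_second ha0 (fun i => i.f) (fun i => i.H.smf) (fun i w h1 h2 z hz => (i.H.bd w h1 h2 z hz).2.2)
    false ⟨16 * η0, fun i z hz => (f_bd (hη ha0) ha0 i.hφ i.H hz).1.trans
      (by linarith [a_le ha0 i])⟩

theorem C_fy : C 3 (fun i : Dat a0 => d2 i.f) :=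
  C_second ha0 (fun i => i.f) (fun i => i.H.smf) (fun i w h1 h2 z hz => (i.H.bd w h1 h2 z hz).2.2)
    true ⟨16 * η0, fun i z hz => (f_bd (hη ha0) ha0 i.hφ i.H hz).2.1.trans
      (by linarith [a_le ha0 i])⟩

theorem C_t : C 2 (fun i : Dat a0 => i.t) :=
  ⟨fun i _ _ => i.H.smt.contDiffAt, ⟨16, fun i z hz => (f_bd (hη ha0) ha0 i.hφ i.H hz).2.2⟩,
    (C_tx ha0).mono (by norm_num), (C_ty ha0).mono (by norm_num)⟩

theorem C_J : C 3 (fun i : Dat a0 => Jx i.t i.Y) :=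
  ((C_tx ha0).mul (C_Yy ha0)).sub ((C_ty ha0).mul (C_Yx ha0))

theorem J_lb (i : Dat a0) : ∀ z ∈ sq 4, 1 / 2 ≤ Jx i.t i.Y z := fun z hz => by
  have := (abs_le.1 (main_est ha0 i.hφ i.H hz).1).1
  unfold η0 at this
  linarith

theorem C_p : C 3 (fun i : Dat a0 => px i.t i.Y i.f) :=
  (((C_tx ha0).mul (C_fy ha0)).sub ((C_ty ha0).mul (C_fx ha0))).div (by norm_num) (C_J ha0)
    (J_lb ha0)

theorem C_q : C 3 (fun i : Dat a0 => qx i.t i.Y i.f) :=
  (((C_fx ha0).mul (C_Yy ha0)).sub ((C_fy ha0).mul (C_Yx ha0))).div (by norm_num) (C_J ha0)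
    (J_lb ha0)

theorem C_D : C 2 (fun i : Dat a0 => Dx i.t i.Y i.f) :=
  ((C_tx ha0).pred.mul (C_p ha0).dy).sub ((C_ty ha0).pred.mul (C_p ha0).dx)

theorem C_β : C 2 (fun i : Dat a0 => βx i.t i.Y i.f) :=
  ((C.const 2 (c := fun i : Dat a0 => aa i.f) ⟨η0, fun i => by
      rw [abs_of_pos (show 0 < aa i.f from ha0.trans_le i.H.ha0)]; exact a_le ha0 i⟩).mul (C_J ha0).pred).div
    (half_pos ha0) (C_D ha0) fun i _ hz => D_lb ha0 i.hφ i.H hz

theorem C_α : C 2 (fun i : Dat a0 => αx i.t i.Y i.f) :=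
  (((C_Yx ha0).pred.mul (C_p ha0).dy).sub ((C_Yy ha0).pred.mul (C_p ha0).dx)).div
    (half_pos ha0) (C_D ha0) fun i _ hz => D_lb ha0 i.hφ i.H hz

theorem C_ξ1 : C 3 (fun i : Dat a0 => ξ1x i.t i.Y) :=
  (C_ty ha0).neg.div (by norm_num) (C_J ha0) (J_lb ha0)

theorem C_ξ2 : C 3 (fun i : Dat a0 => ξ2x i.t i.Y) :=
  (C_tx ha0).div (by norm_num) (C_J ha0) (J_lb ha0)

theorem C_Vd {j : ℕ} (hj : j ≤ 2) {g : Dat a0 → P → ℝ} (hg : C (j + 1) g) :
    C j (fun i => Vd i.t i.Y i.f (g i)) :=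
  ((C_β ha0).mono hj).mul ((((C_ξ1 ha0).mono (by omega)).mul hg.dx).add
    (((C_ξ2 ha0).mono (by omega)).mul hg.dy))

theorem bd_Vd {g : Dat a0 → P → ℝ} (hg : C 2 g) :
    ∃ M : ℝ, ∀ j ≤ 2, ∀ i, ∀ z ∈ sq 4, |(Vd i.t i.Y i.f)^[j] (g i) z| ≤ M := by
  obtain ⟨M0, h0⟩ := hg.bd
  obtain ⟨M1, h1⟩ := (C_Vd ha0 (by norm_num) hg).bd
  obtain ⟨M2, h2⟩ := (C_Vd ha0 (by norm_num) (C_Vd ha0 (by norm_num) hg)).bd
  refine ⟨max M0 (max M1 M2), fun j hj i z hz => ?_⟩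
  interval_cases j
  · exact (h0 i z hz).trans (le_max_left _ _)
  · exact (h1 i z hz).trans ((le_max_left _ _).trans (le_max_right _ _))
  · exact (h2 i z hz).trans ((le_max_right _ _).trans (le_max_right _ _))

end

end Est

open Est in
theorem est : StmtEst := by
  refine ⟨η0, by norm_num [η0], by norm_num [η0], fun a0 ha0 => ?_⟩
  obtain ⟨M1, h1⟩ := bd_Vd ha0 (C_α ha0)
  obtain ⟨M2, h2⟩ := bd_Vd ha0 (C_β ha0)
  obtain ⟨M3, h3⟩ := (C_p ha0).pred.bd_words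
  obtain ⟨M4, h4⟩ := (C_q ha0).pred.bd_words
  obtain ⟨M5, h5⟩ := (C_J ha0).pred.bd_words
  obtain ⟨M6, h6⟩ := (C_t ha0).bd_words
  refine ⟨|M1| + |M2| + |M3| + |M4| + |M5| + |M6|, fun φ t Y f hφ H z hz => ?_⟩
  let i : Dat a0 := ⟨φ, t, Y, f, hφ, H⟩
  obtain ⟨tx, ty, Yx, Yy, -⟩ := pt (hη ha0) ha0 hφ H hz
  obtain ⟨-, p1, p2, p3, p4⟩ := main_est ha0 hφ H hz
  have := abs_nonneg M1
  have := abs_nonneg M2
  have := abs_nonneg M3
  have := abs_nonneg M4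
  have := abs_nonneg M5
  have := abs_nonneg M6
  have := le_abs_self M1
  have := le_abs_self M2
  have := le_abs_self M3
  have := le_abs_self M4
  have := le_abs_self M5
  have := le_abs_self M6
  refine ⟨by unfold η0 at *; linarith, by unfold η0 at *; linarith, by unfold η0 at *; linarith,
    by unfold η0 at *; linarith, p1, p2, p3, p4, fun j hj => ⟨?_, ?_⟩,
    fun w hw => ⟨?_, ?_, ?_, ?_⟩⟩
  · exact (h1 j hj i z hz).trans (by linarith)
  · exact (h2 j hj i z hz).trans (by linarith)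
  · exact (h3 w hw i z hz).trans (by linarith)
  · exact (h4 w hw i z hz).trans (by linarith)
  · exact (h5 w hw i z hz).trans (by linarith)
  · exact (h6 w hw i z hz).trans (by linarith)

end Crest.Agent.R220
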