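import Crest.Agent.R220.Basic

/-! R220 Est, part A: a class of uniformly `C^j`-bounded families on the square `(-4,4)²`. -/

set_option autoImplicit false
open scoped ContDiff Topology
open Set Filter

namespace Crest.Agent.R220.Est

variable {ι : Type}

/-- uniformly bounded on the square -/
def Bd (g : ι → P → ℝ) : Prop := ∃ M : ℝ, ∀ i, ∀ z ∈ sq 4, |g i z| ≤ M
/-- smooth on the square -/
def Sm (g : ι → P → ℝ) : Prop := ∀ i, ∀ z ∈ sq 4, ContDiffAt ℝ ∞ (g i) z

/-- smooth, with all partial derivatives up to order `j` uniformly bounded -/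
def C : ℕ → (ι → P → ℝ) → Prop
  | 0, g => Sm g ∧ Bd g
  | j + 1, g => Sm g ∧ Bd g ∧ C j (fun i => d1 (g i)) ∧ C j (fun i => d2 (g i))

theorem C.sm : ∀ {j : ℕ} {g : ι → P → ℝ}, C j g → Sm g
  | 0, _, h => h.1
  | _ + 1, _, h => h.1

theorem C.bd : ∀ {j : ℕ} {g : ι → P → ℝ}, C j g → Bd g
  | 0, _, h => h.2
  | _ + 1, _, h => h.2.1

theorem C.dx {j : ℕ} {g : ι → P → ℝ} (h : C (j + 1) g) : C j (fun i => d1 (g i)) := h.2.2.1
theorem C.dy {j : ℕ} {g : ι → P → ℝ} (h : C (j + 1) g) : C j (fun i => d2 (g i)) := h.2.2.2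

theorem C.pred : ∀ {j : ℕ} {g : ι → P → ℝ}, C (j + 1) g → C j g
  | 0, _, h => ⟨h.1, h.2.1⟩
  | _ + 1, _, h => ⟨h.1, h.2.1, C.pred h.dx, C.pred h.dy⟩

theorem C.mono {j k : ℕ} {g : ι → P → ℝ} (h : C k g) (hjk : j ≤ k) : C j g := by
  induction hjk with
  | refl => exact h
  | step _ ih => exact ih h.pred

theorem Sm.diff {g : ι → P → ℝ} (h : Sm g) (i : ι) {z : P} (hz : z ∈ sq 4) :
    DifferentiableAt ℝ (g i) z := (h i z hz).differentiableAt (by simp)

theorem ev_of_sq {g h : P → ℝ} (e : ∀ z ∈ sq 4, g z = h z) {z : P} (hz : z ∈ sq 4) :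
    g =ᶠ[𝓝 z] h := by
  filter_upwards [sq_mem_nhds hz] with x hx using e x hx

theorem C.congr : ∀ {j : ℕ} {g h : ι → P → ℝ}, C j g → (∀ i, ∀ z ∈ sq 4, g i z = h i z) → C j h := by
  have hs : ∀ {g h : ι → P → ℝ}, Sm g → (∀ i, ∀ z ∈ sq 4, g i z = h i z) → Sm h :=
    fun hg e i z hz => (hg i z hz).congr_of_eventuallyEq (ev_of_sq (e i) hz).symm
  have hb : ∀ {g h : ι → P → ℝ}, Bd g → (∀ i, ∀ z ∈ sq 4, g i z = h i z) → Bd h :=
    fun ⟨M, hM⟩ e => ⟨M, fun i z hz => e i z hz ▸ hM i z hz⟩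
  intro j
  induction j with
  | zero => exact fun hg e => ⟨hs hg.1 e, hb hg.2 e⟩
  | succ j ih =>
    intro g h hg e
    refine ⟨hs hg.sm e, hb hg.bd e, ih hg.dx fun i z hz => ?_, ih hg.dy fun i z hz => ?_⟩
    · exact (dv_congr (e := (1, 0)) (ev_of_sq (e i) hz)).eq_of_nhds
    · exact (dv_congr (e := (0, 1)) (ev_of_sq (e i) hz)).eq_of_nhds

theorem C.const : ∀ (j : ℕ) {c : ι → ℝ}, (∃ M, ∀ i, |c i| ≤ M) → C j (fun i _ => c i) := by
  intro j
  induction j with
  | zero => exact fun ⟨M, hM⟩ => ⟨fun _ _ _ => contDiffAt_const, M, fun i _ _ => hM i⟩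
  | succ j ih =>
    intro c ⟨M, hM⟩
    have h0 : C j (fun (_ : ι) (_ : P) => (0 : ℝ)) := ih ⟨0, fun _ => by simp⟩
    refine ⟨fun _ _ _ => contDiffAt_const, ⟨M, fun i _ _ => hM i⟩,
      h0.congr fun i z _ => ?_, h0.congr fun i z _ => ?_⟩
    · exact (dv_const (e := (1, 0)) (c i)).symm
    · exact (dv_const (e := (0, 1)) (c i)).symm

theorem C.add : ∀ {j : ℕ} {g h : ι → P → ℝ}, C j g → C j h → C j (fun i z => g i z + h i z) := by
  have hs : ∀ {g h : ι → P → ℝ}, Sm g → Sm h → Sm (fun i z => g i z + h i z) :=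
    fun hg hh i z hz => (hg i z hz).add (hh i z hz)
  have hb : ∀ {g h : ι → P → ℝ}, Bd g → Bd h → Bd (fun i z => g i z + h i z) :=
    fun ⟨M, hM⟩ ⟨N, hN⟩ => ⟨M + N, fun i z hz =>
      (abs_add_le _ _).trans (add_le_add (hM i z hz) (hN i z hz))⟩
  intro j
  induction j with
  | zero => exact fun hg hh => ⟨hs hg.1 hh.1, hb hg.2 hh.2⟩
  | succ j ih =>
    intro g h hg hh
    refine ⟨hs hg.sm hh.sm, hb hg.bd hh.bd, (ih hg.dx hh.dx).congr fun i z hz => ?_,
      (ih hg.dy hh.dy).congr fun i z hz => ?_⟩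
    · exact (dv_add (e := (1, 0)) (hg.sm.diff i hz) (hh.sm.diff i hz)).symm
    · exact (dv_add (e := (0, 1)) (hg.sm.diff i hz) (hh.sm.diff i hz)).symm

theorem C.mul : ∀ {j : ℕ} {g h : ι → P → ℝ}, C j g → C j h → C j (fun i z => g i z * h i z) := by
  have hs : ∀ {g h : ι → P → ℝ}, Sm g → Sm h → Sm (fun i z => g i z * h i z) :=
    fun hg hh i z hz => (hg i z hz).mul (hh i z hz)
  have hb : ∀ {g h : ι → P → ℝ}, Bd g → Bd h → Bd (fun i z => g i z * h i z) :=
    fun ⟨M, hM⟩ ⟨N, hN⟩ => ⟨M * N, fun i z hz => by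
      rw [abs_mul]
      exact mul_le_mul (hM i z hz) (hN i z hz) (abs_nonneg _) ((abs_nonneg _).trans (hM i z hz))⟩
  intro j
  induction j with
  | zero => exact fun hg hh => ⟨hs hg.1 hh.1, hb hg.2 hh.2⟩
  | succ j ih =>
    intro g h hg hh
    refine ⟨hs hg.sm hh.sm, hb hg.bd hh.bd,
      ((ih hg.dx hh.pred).add (ih hg.pred hh.dx)).congr fun i z hz => ?_,
      ((ih hg.dy hh.pred).add (ih hg.pred hh.dy)).congr fun i z hz => ?_⟩
    · exact (dv_mul (e := (1, 0)) (hg.sm.diff i hz) (hh.sm.diff i hz)).symm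
    · exact (dv_mul (e := (0, 1)) (hg.sm.diff i hz) (hh.sm.diff i hz)).symm

theorem C.neg {j : ℕ} {g : ι → P → ℝ} (hg : C j g) : C j (fun i z => - g i z) :=
  ((C.const j (c := fun _ => -1) ⟨1, fun _ => by simp⟩).mul hg).congr fun i z _ => by simp

theorem C.sub {j : ℕ} {g h : ι → P → ℝ} (hg : C j g) (hh : C j h) :
    C j (fun i z => g i z - h i z) :=
  (hg.add hh.neg).congr fun i z _ => by ring

theorem C.inv {c : ℝ} (hc : 0 < c) : ∀ {j : ℕ} {g : ι → P → ℝ}, C j g →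
    (∀ i, ∀ z ∈ sq 4, c ≤ g i z) → C j (fun i z => (g i z)⁻¹) := by
  have hs : ∀ {g : ι → P → ℝ}, Sm g → (∀ i, ∀ z ∈ sq 4, c ≤ g i z) →
      Sm (fun i z => (g i z)⁻¹) :=
    fun hg hl i z hz => (hg i z hz).inv (hc.trans_le (hl i z hz)).ne'
  have hb : ∀ {g : ι → P → ℝ}, (∀ i, ∀ z ∈ sq 4, c ≤ g i z) → Bd (fun i z => (g i z)⁻¹) :=
    fun hl => ⟨c⁻¹, fun i z hz => by
      rw [abs_of_pos (inv_pos.2 (hc.trans_le (hl i z hz)))]
      exact inv_anti₀ hc (hl i z hz)⟩
  intro j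
  induction j with
  | zero => exact fun hg hl => ⟨hs hg.1 hl, hb hl⟩
  | succ j ih =>
    intro g hg hl
    have hi := ih hg.pred hl
    refine ⟨hs hg.sm hl, hb hl,
      (((hi.mul hi).neg).mul hg.dx).congr fun i z hz => ?_,
      (((hi.mul hi).neg).mul hg.dy).congr fun i z hz => ?_⟩
    · have := dv_inv (e := (1, 0)) (hg.sm.diff i hz) (hc.trans_le (hl i z hz)).ne'
      rw [d1_eq, d1_eq, this, pow_two, mul_inv]
    · have := dv_inv (e := (0, 1)) (hg.sm.diff i hz) (hc.trans_le (hl i z hz)).ne'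
      rw [d2_eq, d2_eq, this, pow_two, mul_inv]

theorem C.div {c : ℝ} (hc : 0 < c) {j : ℕ} {g h : ι → P → ℝ} (hg : C j g) (hh : C j h)
    (hl : ∀ i, ∀ z ∈ sq 4, c ≤ h i z) : C j (fun i z => g i z / h i z) :=
  (hg.mul (hh.inv hc hl)).congr fun i z _ => by rw [div_eq_mul_inv]

theorem C.word : ∀ (w : List Bool) {j : ℕ} {g : ι → P → ℝ}, C (j + w.length) g →
    C j (fun i => dw w (g i))
  | [], _, _, h => h
  | false :: w, j, g, h => by
    have h' : C (j + 1 + w.length) g := by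
      rw [List.length_cons] at h; rwa [add_assoc, add_comm 1]
    exact (C.word w h').dx
  | true :: w, j, g, h => by
    have h' : C (j + 1 + w.length) g := by
      rw [List.length_cons] at h; rwa [add_assoc, add_comm 1]
    exact (C.word w h').dy

/-- a globally smooth family whose derivatives along words of length in `[n, N]` are bounded -/
theorem C.of_words {g : ι → P → ℝ} (hs : ∀ i, ContDiff ℝ ∞ (g i)) {n N : ℕ}
    (hb : ∀ w : List Bool, n ≤ w.length → w.length ≤ N → Bd (fun i => dw w (g i))) :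
    ∀ (j : ℕ) (w : List Bool), n ≤ w.length → w.length + j ≤ N → C j (fun i => dw w (g i)) := by
  intro j
  induction j with
  | zero =>
    intro w h1 h2
    exact ⟨fun i z _ => (contDiff_dw (hs i) w).contDiffAt, hb w h1 h2⟩
  | succ j ih =>
    intro w h1 h2
    exact ⟨fun i z _ => (contDiff_dw (hs i) w).contDiffAt, hb w h1 (by omega),
      ih (false :: w) (by simp; omega) (by simp; omega),
      ih (true :: w) (by simp; omega) (by simp; omega)⟩

/-- finitely many words of bounded length: a common bound -/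
theorem C.bd_words {g : ι → P → ℝ} (h : C 2 g) :
    ∃ M : ℝ, ∀ w : List Bool, w.length ≤ 2 → ∀ i, ∀ z ∈ sq 4, |dw w (g i) z| ≤ M := by
  obtain ⟨M0, h0⟩ := h.bd
  obtain ⟨M1, h1⟩ := h.dx.bd
  obtain ⟨M2, h2⟩ := h.dy.bd
  obtain ⟨M3, h3⟩ := h.dx.dx.bd
  obtain ⟨M4, h4⟩ := h.dx.dy.bd
  obtain ⟨M5, h5⟩ := h.dy.dx.bd
  obtain ⟨M6, h6⟩ := h.dy.dy.bd
  refine ⟨|M0| + |M1| + |M2| + |M3| + |M4| + |M5| + |M6|, fun w hw i z hz => ?_⟩
  have := abs_nonneg M0
  have := abs_nonneg M1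
  have := abs_nonneg M2
  have := abs_nonneg M3
  have := abs_nonneg M4
  have := abs_nonneg M5
  have := abs_nonneg M6
  match w, hw with
  | [], _ => have := (h0 i z hz).trans (le_abs_self _); simp only [dw_nil]; linarith
  | [false], _ => have := (h1 i z hz).trans (le_abs_self _); simp only [dw_nil, dw_false]; linarith
  | [true], _ => have := (h2 i z hz).trans (le_abs_self _); simp only [dw_nil, dw_true]; linarith
  | [false, false], _ =>
    have := (h3 i z hz).trans (le_abs_self _); simp only [dw_nil, dw_false]; linarith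
  | [true, false], _ =>
    have := (h4 i z hz).trans (le_abs_self _); simp only [dw_nil, dw_false, dw_true]; linarith
  | [false, true], _ =>
    have := (h5 i z hz).trans (le_abs_self _); simp only [dw_nil, dw_false, dw_true]; linarith
  | [true, true], _ =>
    have := (h6 i z hz).trans (le_abs_self _); simp only [dw_nil, dw_true]; linarith
  | _ :: _ :: _ :: _, hw => simp at hw

end Crest.Agent.R220.Est
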