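import Crest.Agent.R220.Basic

/-! The global construction: a sum of small bumps on discs accumulating at a `V`-shaped curve. -/

set_option autoImplicit false
open scoped ContDiff Topology
open Set MeasureTheory Filter

namespace Crest.Agent.R220

namespace Global

theorem scale_bound {G : E2 → ℝ} (hG : ContDiff ℝ ∞ G) (hc : HasCompactSupport G) (k : ℕ) :
    ∃ C : ℝ, 0 ≤ C ∧ ∀ (r : ℝ) (c x : E2),
      ‖iteratedFDeriv ℝ k (fun x => G (r • (x - c))) x‖ ≤ C * |r| ^ k := by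
  obtain ⟨C, hC⟩ := (hG.continuous_iteratedFDeriv (m := k)
    (by exact_mod_cast le_top)).bounded_above_of_compact_support (hc.iteratedFDeriv k)
  refine ⟨C, (norm_nonneg _).trans (hC 0), fun r c x => ?_⟩
  let L : E2 →L[ℝ] E2 := r • ContinuousLinearMap.id ℝ E2
  have hL : ‖L‖ ≤ |r| := by
    refine ContinuousLinearMap.opNorm_le_bound _ (abs_nonneg _) fun y => ?_
    simp [L, norm_smul]
  have e1 : iteratedFDeriv ℝ k (fun x => G (r • (x - c))) x =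
      iteratedFDeriv ℝ k (G ∘ L) (x - c) := iteratedFDeriv_comp_sub (f := G ∘ L) k c x
  rw [e1, L.iteratedFDeriv_comp_right hG _ (by exact_mod_cast le_top)]
  refine (ContinuousMultilinearMap.norm_compContinuousLinearMap_le _ _).trans ?_
  rw [Finset.prod_const, Finset.card_univ, Fintype.card_fin]
  exact mul_le_mul (hC _) (pow_le_pow_left₀ (norm_nonneg _) hL k) (by positivity)
    ((norm_nonneg _).trans (hC 0))

theorem contDiff_prof0 : ContDiff ℝ ∞ prof0 :=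
  cut.contDiff.mul (by fun_prop)

theorem contDiff_prof (ε : ℝ) (m : ℕ) (lam : ℝ) : ContDiff ℝ ∞ (prof ε m lam) :=
  (contDiff_const.mul contDiff_prof0).add
    (contDiff_const.mul (bump.contDiff.comp (contDiff_const.mul contDiff_id)))

theorem prof0_eq_zero {s : ℝ} (hs : 60 ≤ s) : prof0 s = 0 := by
  have : cut s = 0 := cut.zero_of_le_dist (by
    rw [dist_zero_right, Real.norm_eq_abs]
    exact hs.trans (le_abs_self s))
  simp [prof0, this]

theorem bump_eq_zero {s : ℝ} (hs : 1 ≤ s) : bump s = 0 :=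
  bump.zero_of_le_dist (by
    rw [dist_zero_right, Real.norm_eq_abs]
    exact hs.trans (le_abs_self s))

theorem prof_eq_zero (ε : ℝ) (m : ℕ) {lam s : ℝ} (hl : 1 ≤ lam) (hs : 60 ≤ s) :
    prof ε m lam s = 0 := by
  have h1 : 1 ≤ lam ^ 2 * s := by nlinarith [one_le_pow₀ (n := 2) hl]
  simp [prof, prof0_eq_zero hs, bump_eq_zero h1]

theorem radial_smooth {p : ℝ → ℝ} (hp : ContDiff ℝ ∞ p) :
    ContDiff ℝ ∞ (fun y : E2 => p (‖y‖ ^ 2)) := hp.comp (contDiff_norm_sq ℝ)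

theorem radial_supp {p : ℝ → ℝ} (hp : ∀ s, 60 ≤ s → p s = 0) :
    HasCompactSupport (fun y : E2 => p (‖y‖ ^ 2)) := by
  refine HasCompactSupport.intro (isCompact_closedBall (0 : E2) 8) fun y hy => hp _ ?_
  rw [mem_closedBall_zero_iff, not_le] at hy
  nlinarith

/-- the bump on the disc with centre `c` and scale `ρ` -/
noncomputable def bf (ε : ℝ) (m : ℕ) (lam ρ : ℝ) (c : E2) : E2 → ℝ :=
  fun x => prof ε m lam (‖x - c‖ ^ 2 / ρ ^ 2)

theorem contDiff_bf (ε : ℝ) (m : ℕ) (lam ρ : ℝ) (c : E2) : ContDiff ℝ ∞ (bf ε m lam ρ c) :=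
  (contDiff_prof ε m lam).comp
    (((contDiff_norm_sq ℝ).comp (contDiff_id.sub contDiff_const)).div_const _)

theorem bf_eq (ε : ℝ) (m : ℕ) (lam ρ : ℝ) (c : E2) :
    bf ε m lam ρ c = ε • (fun x => prof0 (‖ρ⁻¹ • (x - c)‖ ^ 2)) +
      (lam ^ (m + 2))⁻¹ • (fun x => bump (‖(lam / ρ) • (x - c)‖ ^ 2)) := by
  funext x
  have e1 : ‖ρ⁻¹ • (x - c)‖ ^ 2 = ‖x - c‖ ^ 2 / ρ ^ 2 := by
    rw [norm_smul, mul_pow, Real.norm_eq_abs, sq_abs]; ring
  have e2 : ‖(lam / ρ) • (x - c)‖ ^ 2 = lam ^ 2 * (‖x - c‖ ^ 2 / ρ ^ 2) := by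
    rw [norm_smul, mul_pow, Real.norm_eq_abs, sq_abs]; ring
  simp only [bf, prof, Pi.add_apply, Pi.smul_apply, smul_eq_mul, e1, e2]

theorem bf_bound (k : ℕ) {ρ : ℝ} (hρ : 0 < ρ) : ∃ C : ℝ, 0 ≤ C ∧ ∀ (ε : ℝ) (m : ℕ) (lam : ℝ)
    (c x : E2), 0 ≤ ε → 1 ≤ lam → k ≤ m + 1 →
      ‖iteratedFDeriv ℝ k (bf ε m lam ρ c) x‖ ≤ C * (ε + lam⁻¹) := by
  have s0 := radial_smooth contDiff_prof0
  have s1 := radial_smooth (bump.contDiff (n := ⊤))
  obtain ⟨C0, hC0, h0⟩ := scale_bound s0 (radial_supp fun s hs => prof0_eq_zero hs) k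
  obtain ⟨C1, hC1, h1⟩ := scale_bound s1
    (radial_supp fun s hs => bump_eq_zero (by linarith)) k
  refine ⟨(C0 + C1) * ρ⁻¹ ^ k, by positivity, fun ε m lam c x hε hl hk => ?_⟩
  have hl0 : 0 < lam := by linarith
  have t0 : ContDiff ℝ k (fun x : E2 => prof0 (‖ρ⁻¹ • (x - c)‖ ^ 2)) :=
    (s0.comp ((contDiff_id.sub contDiff_const).const_smul ρ⁻¹)).of_le (by exact_mod_cast le_top)
  have t1 : ContDiff ℝ k (fun x : E2 => bump (‖(lam / ρ) • (x - c)‖ ^ 2)) :=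
    (s1.comp ((contDiff_id.sub contDiff_const).const_smul (lam / ρ))).of_le
      (by exact_mod_cast le_top)
  have u0 : ContDiffAt ℝ k (ε • fun x : E2 => prof0 (‖ρ⁻¹ • (x - c)‖ ^ 2)) x :=
    (t0.const_smul ε).contDiffAt
  have u1 : ContDiffAt ℝ k ((lam ^ (m + 2))⁻¹ • fun x : E2 => bump (‖(lam / ρ) • (x - c)‖ ^ 2)) x :=
    (t1.const_smul (lam ^ (m + 2))⁻¹).contDiffAt
  rw [bf_eq, iteratedFDeriv_add_apply u0 u1, iteratedFDeriv_const_smul_apply t0.contDiffAt,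
    iteratedFDeriv_const_smul_apply t1.contDiffAt]
  refine (norm_add_le _ _).trans ?_
  rw [norm_smul, norm_smul, Real.norm_of_nonneg hε, Real.norm_of_nonneg (by positivity)]
  have a0 := h0 ρ⁻¹ c x
  have a1 := h1 (lam / ρ) c x
  rw [abs_of_pos (by positivity)] at a0 a1
  have b1 : (lam ^ (m + 2))⁻¹ * lam ^ k ≤ lam⁻¹ := by
    rw [inv_mul_le_iff₀ (by positivity), ← div_eq_mul_inv, le_div_iff₀ hl0, ← pow_succ]
    exact pow_le_pow_right₀ hl (by omega)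
  have hρk : 0 ≤ ρ⁻¹ ^ k := by positivity
  have hli : 0 ≤ lam⁻¹ := by positivity
  calc _ ≤ ε * (C0 * ρ⁻¹ ^ k) + (lam ^ (m + 2))⁻¹ * (C1 * (lam / ρ) ^ k) := by gcongr
    _ = ε * (C0 * ρ⁻¹ ^ k) + ((lam ^ (m + 2))⁻¹ * lam ^ k) * (C1 * ρ⁻¹ ^ k) := by
        rw [div_eq_mul_inv, mul_pow]; ring
    _ ≤ ε * (C0 * ρ⁻¹ ^ k) + lam⁻¹ * (C1 * ρ⁻¹ ^ k) := by gcongr
    _ ≤ (C0 + C1) * ρ⁻¹ ^ k * (ε + lam⁻¹) := by
        have u1 : 0 ≤ ε * (C1 * ρ⁻¹ ^ k) := by positivity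
        have u2 : 0 ≤ lam⁻¹ * (C0 * ρ⁻¹ ^ k) := by positivity
        nlinarith

theorem bf_small (n : ℕ) {ρ θ : ℝ} (hρ : 0 < ρ) (hθ : 0 < θ) : ∃ ε0 > (0 : ℝ), ∃ lam0 : ℝ,
    1 ≤ lam0 ∧ ∀ (ε lam : ℝ) (c x : E2), 0 ≤ ε → ε ≤ ε0 → lam0 ≤ lam → ∀ k ≤ n,
      ‖iteratedFDeriv ℝ k (bf ε (n + 6) lam ρ c) x‖ ≤ θ := by
  choose C hC0 hC using fun k => bf_bound k hρ
  set K : ℝ := ∑ k ∈ Finset.range (n + 1), C k + 1 with hK
  have hs : 0 ≤ ∑ k ∈ Finset.range (n + 1), C k := Finset.sum_nonneg fun k _ => hC0 k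
  have hK0 : 0 < K := by linarith
  refine ⟨θ / (2 * K), by positivity, max 1 (2 * K / θ), le_max_left _ _,
    fun ε lam c x hε hε0 hl k hk => ?_⟩
  have hl1 : 1 ≤ lam := (le_max_left _ _).trans hl
  have hl2 : 2 * K / θ ≤ lam := (le_max_right _ _).trans hl
  have hl3 : lam⁻¹ ≤ θ / (2 * K) := by
    rw [← inv_div]
    exact inv_anti₀ (by positivity) hl2
  have hCk : C k ≤ K := by
    have := Finset.single_le_sum (f := C) (fun k _ => hC0 k)
      (Finset.mem_range.2 (Nat.lt_succ_of_le hk))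
    linarith
  have hli : 0 ≤ lam⁻¹ := by positivity
  calc _ ≤ C k * (ε + lam⁻¹) := hC k ε (n + 6) lam c x hε hl1 (by omega)
    _ ≤ K * (θ / (2 * K) + θ / (2 * K)) := by gcongr
    _ = θ := by field_simp; norm_num

/-- scales -/
noncomputable def rho (n : ℕ) : ℝ := (1 / 2) ^ n / 1000
/-- abscissae -/
noncomputable def tt (n : ℕ) : ℝ := ((Encodable.decode (α := ℚ) (Nat.unpair n).1).getD 0 : ℚ)
/-- centres -/
noncomputable def ctr (n : ℕ) : E2 := !₂[tt n, |tt n| - (1 / 2) ^ n / 4]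

theorem rho_pos (n : ℕ) : 0 < rho n := by unfold rho; positivity

theorem height_near {n : ℕ} {x : E2} (hx : ‖x - ctr n‖ < 8 * rho n) :
    (1 / 5) * (1 / 2) ^ n < |x 0| - x 1 ∧ |x 0| - x 1 < (3 / 10) * (1 / 2) ^ n := by
  have h0 : |x 0 - tt n| ≤ ‖x - ctr n‖ := by
    simpa [ctr] using PiLp.norm_apply_le (x - ctr n) 0
  have h1 : |x 1 - (|tt n| - (1 / 2) ^ n / 4)| ≤ ‖x - ctr n‖ := by
    simpa [ctr] using PiLp.norm_apply_le (x - ctr n) 1
  have h2 := abs_abs_sub_abs_le_abs_sub (x 0) (tt n)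
  have h3 := abs_le.1 (h2.trans h0)
  have h4 := abs_le.1 h1
  have hp : (0 : ℝ) < (1 / 2) ^ n := by positivity
  unfold rho at hx
  constructor <;> linarith [h3.1, h3.2, h4.1, h4.2]

theorem bf_zero (ε : ℝ) (m : ℕ) {lam : ℝ} (hl : 1 ≤ lam) {ρ : ℝ} (hρ : 0 < ρ) {c x : E2}
    (hx : 8 * ρ ≤ ‖x - c‖) : bf ε m lam ρ c x = 0 := by
  refine prof_eq_zero ε m hl ?_
  rw [le_div_iff₀ (by positivity)]
  nlinarith

theorem balls_disjoint {n n' : ℕ} {x : E2} (hx : ‖x - ctr n‖ < 8 * rho n)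
    (hx' : ‖x - ctr n'‖ < 8 * rho n') : n = n' := by
  have key : ∀ a b : ℕ, ‖x - ctr a‖ < 8 * rho a → ‖x - ctr b‖ < 8 * rho b → ¬ a < b := by
    intro a b ha hb hab
    have h1 := (height_near ha).1
    have h2 := (height_near hb).2
    have h3 : ((1 : ℝ) / 2) ^ b ≤ (1 / 2) ^ (a + 1) :=
      pow_le_pow_of_le_one (by norm_num) (by norm_num) hab
    have hp : (0 : ℝ) < (1 / 2) ^ a := by positivity
    rw [pow_succ] at h3
    linarith
  have := key n n' hx hx'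
  have := key n' n hx' hx
  omega

theorem exists_index {x₀ : E2} (hx : x₀ 1 = |x₀ 0|) {δ : ℝ} (hδ : 0 < δ) :
    ∃ n : ℕ, dist (ctr n) x₀ < δ ∧ rho n < δ ∧ 1 / ((n : ℝ) + 1) ≤ δ := by
  obtain ⟨q, hq1, hq2⟩ := exists_rat_btwn (show x₀ 0 < x₀ 0 + δ / 4 by linarith)
  obtain ⟨j, hj⟩ := exists_nat_one_div_lt hδ
  obtain ⟨j', hj'⟩ := exists_pow_lt_of_lt_one hδ (show (1 : ℝ) / 2 < 1 by norm_num)
  let n := Nat.pair (Encodable.encode q) (j + j')
  have hn : j + j' ≤ n := Nat.right_le_pair _ _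
  have ht : tt n = q := by simp [tt, n]
  have hp : ((1 : ℝ) / 2) ^ n < δ :=
    (pow_le_pow_of_le_one (by norm_num) (by norm_num) (by omega)).trans_lt hj'
  have hp0 : (0 : ℝ) < (1 / 2) ^ n := by positivity
  refine ⟨n, ?_, ?_, ?_⟩
  · have h1 : |(q : ℝ) - x₀ 0| < δ / 4 := by rw [abs_lt]; constructor <;> linarith
    have h2 := abs_lt.1 ((abs_abs_sub_abs_le_abs_sub (q : ℝ) (x₀ 0)).trans_lt h1)
    have h3 := abs_lt.1 h1
    rw [EuclideanSpace.dist_eq, Real.sqrt_lt' hδ, Fin.sum_univ_two]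
    simp only [ctr, ht, Real.dist_eq, sq_abs, hx, Matrix.cons_val_zero, Matrix.cons_val_one]
    have h4 : ((q : ℝ) - x₀ 0) ^ 2 ≤ (δ / 4) ^ 2 := sq_le_sq' h3.1.le h3.2.le
    have h5 : (|(q : ℝ)| - (1 / 2) ^ n / 4 - |x₀ 0|) ^ 2 ≤ (δ / 2) ^ 2 :=
      sq_le_sq' (by linarith [h2.1]) (by linarith [h2.2])
    nlinarith
  · unfold rho; linarith
  · refine le_trans ?_ hj.le
    have : (j : ℝ) ≤ n := by exact_mod_cast (by omega : j ≤ n)
    gcongr

/-- the base term, negative above the `V` and zero below -/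
noncomputable def base (x : E2) : ℝ := - (expNegInvGlue (x 1 - x 0) * expNegInvGlue (x 1 + x 0))

theorem contDiff_base : ContDiff ℝ ∞ base := by
  have h0 : ContDiff ℝ ∞ (fun x : E2 => x 0) := by fun_prop
  have h1 : ContDiff ℝ ∞ (fun x : E2 => x 1) := by fun_prop
  exact ((expNegInvGlue.contDiff.comp (h1.sub h0)).mul
    (expNegInvGlue.contDiff.comp (h1.add h0))).neg

theorem base_neg {x : E2} (hx : |x 0| < x 1) : base x < 0 := by
  have h := abs_lt.1 hx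
  have h1 := expNegInvGlue.pos_of_pos (show 0 < x 1 - x 0 by linarith)
  have h2 := expNegInvGlue.pos_of_pos (show 0 < x 1 + x 0 by linarith)
  unfold base
  exact neg_neg_of_pos (mul_pos h1 h2)

theorem base_zero {x : E2} (hx : x 1 ≤ |x 0|) : base x = 0 := by
  unfold base
  rcases le_abs.1 hx with h | h
  · rw [expNegInvGlue.zero_of_nonpos (show x 1 - x 0 ≤ 0 by linarith)]; simp
  · rw [expNegInvGlue.zero_of_nonpos (show x 1 + x 0 ≤ 0 by linarith)]; simp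

/-- the Euclidean inner product as a real bilinear map -/
noncomputable def ipE : E2 →L[ℝ] E2 →L[ℝ] ℝ := innerSL ℝ

theorem ipE_apply (v w : E2) : ipE v w = inner ℝ v w := rfl

end Global

open Global in
theorem global : StmtGlobal := by
  rintro ⟨η, hη, hloc⟩ hNF hNo
  have hex : ∀ n : ℕ, ∃ ε lam : ℝ, 1 ≤ lam ∧
      (∀ (c x : E2), ∀ k ≤ n, ‖iteratedFDeriv ℝ k (bf ε (n + 6) lam (rho n) c) x‖ ≤ (1 / 2) ^ n) ∧
      ∀ t Y f : P → ℝ, ¬ Hyp η (rho n / (n + 1)) (phi ε (n + 6) lam) t Y f := by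
    intro n
    obtain ⟨ε0, hε0, lam0, hl0, hb⟩ :=
      bf_small n (rho_pos n) (show (0 : ℝ) < (1 / 2) ^ n by positivity)
    obtain ⟨ε, hε, hεε, lam, hl, hno⟩ := hloc (rho n / (n + 1))
      (div_pos (rho_pos n) (by positivity)) (n + 6) (by omega) ε0 hε0 lam0
    exact ⟨ε, lam, hl0.trans hl, fun c x k hk => hb ε lam c x hε.le hεε hl k hk, hno⟩
  choose ε lam hl hb hno using hex
  let B : ℕ → E2 → ℝ := fun n => bf (ε n) (n + 6) (lam n) (rho n) (ctr n)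
  have hB0 : ∀ n x, ¬ ‖x - ctr n‖ < 8 * rho n → B n x = 0 := fun n x hx =>
    bf_zero _ _ (hl n) (rho_pos n) (not_lt.1 hx)
  let Φ : E2 → ℝ := fun x => base x + ∑' n, B n x
  have hΦ : ContDiff ℝ ∞ Φ := by
    refine contDiff_base.add (contDiff_tsum_of_eventually (N := ⊤) (v := fun _ n => (1 / 2) ^ n)
      (fun n => contDiff_bf _ _ _ _ _) (fun k _ => summable_geometric_two) fun k _ => ?_)
    rw [Nat.cofinite_eq_atTop]
    filter_upwards [eventually_ge_atTop k] with n hn x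
    exact hb n _ x k hn
  have hΦup : ∀ x : E2, |x 0| ≤ x 1 → Φ x = base x := by
    intro x hx
    have : ∀ n, B n x = 0 := fun n => hB0 n x fun h => by
      have h1 := (height_near h).1
      have hp : (0 : ℝ) < (1 / 2) ^ n := by positivity
      linarith
    simp [Φ, this]
  have hΦball : ∀ n x, ‖x - ctr n‖ < 8 * rho n → Φ x = B n x := by
    intro n x hx
    have h1 := (height_near hx).1
    have hp : (0 : ℝ) < (1 / 2) ^ n := by positivity
    have h2 : base x = 0 := base_zero (by linarith)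
    have h3 : ∑' n', B n' x = B n x :=
      tsum_eq_single n fun n' hn' => hB0 n' x fun h => hn' (balls_disjoint h hx)
    simp [Φ, h2, h3]
  refine ⟨fun x => Real.exp (2 * Φ x) • ipE, ?_, ?_, ?_, ?_⟩
  · have : IsBoundedSMul ℝ (E2 →L[ℝ] E2 →L[ℝ] ℝ) :=
      NormedSpace.toIsBoundedSMul (𝕜 := ℝ) (E := E2 →L[ℝ] E2 →L[ℝ] ℝ)
    exact ((Real.contDiff_exp.comp (contDiff_const.mul hΦ)).smul contDiff_const).contDiffOn
  · intro x _ v w
    simp only [smul_apply, ipE_apply, real_inner_comm]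
  · intro x _ v hv
    simp only [smul_apply, ipE_apply, smul_eq_mul]
    exact mul_pos (Real.exp_pos _) (real_inner_self_pos.2 hv)
  · rintro U hU h0 - ⟨F, hF, hiso⟩
    simp only [smul_apply, ipE_apply, smul_eq_mul] at hiso
    obtain ⟨x₀, hx₀, hV, hD⟩ := hNF Φ U F hΦ.continuous
      (by rw [hΦup 0 (by simp), base_zero (by simp)])
      (fun x hx => by rw [hΦup x hx.le]; exact base_neg hx) hU h0 hF hiso
    obtain ⟨δ, hδ, hδ'⟩ := hNo η hη U F x₀ hU hx₀ hF hD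
    obtain ⟨n, h1, h2, h3⟩ := exists_index hV hδ
    obtain ⟨t, Y, f, hH⟩ := hδ' (ctr n) (rho n) (prof (ε n) (n + 6) (lam n)) h1 (rho_pos n) h2
      (contDiff_prof _ _ _) (fun x hx hd v w => by
        rw [hiso x hx v w, hΦball n x (by
          rw [dist_eq_norm] at hd
          linarith [rho_pos n])]
        rfl)
    refine hno n t Y f (Hyp.mono hH (mul_pos hδ (rho_pos n)).le le_rfl ?_)
    rw [div_eq_mul_one_div, mul_comm]
    exact mul_le_mul_of_nonneg_right h3 (rho_pos n).le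

end Crest.Agent.R220
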