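import Crest.Agent.R220.Basic

/-! B1b: the structure equations on the `(x,y)` side. -/

set_option autoImplicit false
open scoped ContDiff Topology
open Set MeasureTheory Filter

namespace Crest.Agent.R220
namespace Ident

/-- Gauss formula, algebraic form -/
theorem gauss_alg {t1 t2 Y1 Y2 f1 f2 p q E a b c u v : ℝ} (hJ : t1 * Y2 - t2 * Y1 ≠ 0)
    (h1 : f1 = q * t1 + p * Y1) (h2 : f2 = q * t2 + p * Y2)
    (m11 : t1 ^ 2 + Y1 ^ 2 + f1 ^ 2 = E) (m12 : t1 * t2 + Y1 * Y2 + f1 * f2 = 0)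
    (m22 : t2 ^ 2 + Y2 ^ 2 + f2 ^ 2 = E)
    (k1 : a * t1 + b * Y1 + c * f1 = E * u) (k2 : a * t2 + b * Y2 + c * f2 = E * v) :
    ∃ N, a = u * t1 + v * t2 - q * N ∧ b = u * Y1 + v * Y2 - p * N ∧ c = u * f1 + v * f2 + N := by
  have e1 : (a - u * t1 - v * t2 + q * (c - u * f1 - v * f2)) * t1
      + (b - u * Y1 - v * Y2 + p * (c - u * f1 - v * f2)) * Y1 = 0 := by
    linear_combination k1 - u * m11 - v * m12 - (c - u * f1 - v * f2) * h1
  have e2 : (a - u * t1 - v * t2 + q * (c - u * f1 - v * f2)) * t2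
      + (b - u * Y1 - v * Y2 + p * (c - u * f1 - v * f2)) * Y2 = 0 := by
    linear_combination k2 - u * m12 - v * m22 - (c - u * f1 - v * f2) * h2
  refine ⟨c - u * f1 - v * f2, ?_, ?_, by ring⟩
  · apply mul_left_cancel₀ hJ
    linear_combination Y2 * e1 - Y1 * e2
  · apply mul_left_cancel₀ hJ
    linear_combination t1 * e2 - t2 * e1

/-- `g` is differentiable at `z` with directional derivative `c` along `e` -/
structure HD (e z : P) (g : P → ℝ) (c : ℝ) : Prop where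
  diff : DifferentiableAt ℝ g z
  eq : dv e g z = c

section HD
variable {e z : P} {f g : P → ℝ} {a b : ℝ}

theorem HD.of (e z : P) (hg : ContDiff ℝ ∞ g) : HD e z g (dv e g z) :=
  ⟨hg.differentiable (by simp) z, rfl⟩

theorem HD.add (hf : HD e z f a) (hg : HD e z g b) : HD e z (fun z => f z + g z) (a + b) :=
  ⟨hf.diff.add hg.diff, by rw [dv_add hf.diff hg.diff, hf.eq, hg.eq]⟩

theorem HD.sub (hf : HD e z f a) (hg : HD e z g b) : HD e z (fun z => f z - g z) (a - b) :=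
  ⟨hf.diff.sub hg.diff, by rw [dv_sub hf.diff hg.diff, hf.eq, hg.eq]⟩

theorem HD.neg (hf : HD e z f a) : HD e z (fun z => - f z) (- a) :=
  ⟨hf.diff.neg, by rw [dv_neg, hf.eq]⟩

theorem HD.mul (hf : HD e z f a) (hg : HD e z g b) :
    HD e z (fun z => f z * g z) (a * g z + f z * b) :=
  ⟨hf.diff.mul hg.diff, by rw [dv_mul hf.diff hg.diff, hf.eq, hg.eq]⟩

theorem HD.div (hf : HD e z f a) (hg : HD e z g b) (h0 : g z ≠ 0) :
    HD e z (fun z => f z / g z) ((a * g z - f z * b) / g z ^ 2) :=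
  ⟨by simp only [div_eq_mul_inv]; exact hf.diff.mul (hg.diff.inv h0),
    by rw [dv_div hf.diff hg.diff h0, hf.eq, hg.eq]⟩

theorem HD.sqr (hf : HD e z f a) : HD e z (fun z => f z ^ 2) (2 * f z * a) :=
  ⟨hf.diff.pow 2, by rw [dv_pow 2 hf.diff, hf.eq]; simp⟩

theorem HD.const (e z : P) (c : ℝ) : HD e z (fun _ => c) 0 :=
  ⟨differentiableAt_const c, dv_const c⟩

theorem HD.exp2 (hf : HD e z f a) :
    HD e z (fun z => Real.exp (2 * f z)) (Real.exp (2 * f z) * (2 * a)) :=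
  ⟨(hf.diff.const_mul 2).exp, by
    rw [dv_exp (f := fun z => 2 * f z) (hf.diff.const_mul 2), dv_const_mul 2 hf.diff, hf.eq]⟩

theorem HD.unique {r : ℝ} (h : ∀ z ∈ sq r, f z = g z) (hz : z ∈ sq r) (hf : HD e z f a)
    (hg : HD e z g b) : a = b := by
  have h1 : f =ᶠ[𝓝 z] g := Filter.eventually_of_mem (sq_mem_nhds hz) h
  rw [← hf.eq, ← hg.eq]
  exact (dv_congr h1).self_of_nhds

end HD

section main
variable {η a0 : ℝ} {φ t Y f : P → ℝ}

theorem comm12 {g : P → ℝ} (hg : ContDiff ℝ ∞ g) : d2 (d1 g) = d1 (d2 g) :=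
  funext fun _ => (d1_d2_comm hg.contDiffAt).symm

/-- the differentiated metric identities -/
theorem first_order (hφ : ContDiff ℝ ∞ φ) (H : Hyp η a0 φ t Y f) {z : P} (hz : z ∈ sq 4) :
    (d1 (d1 t) z * d1 t z + d1 (d1 Y) z * d1 Y z + d1 (d1 f) z * d1 f z
      = Real.exp (2 * φ z) * d1 φ z) ∧
    (d1 (d1 t) z * d2 t z + d1 (d1 Y) z * d2 Y z + d1 (d1 f) z * d2 f z
      = Real.exp (2 * φ z) * (- d2 φ z)) ∧
    (d1 (d2 t) z * d1 t z + d1 (d2 Y) z * d1 Y z + d1 (d2 f) z * d1 f z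
      = Real.exp (2 * φ z) * d2 φ z) ∧
    (d1 (d2 t) z * d2 t z + d1 (d2 Y) z * d2 Y z + d1 (d2 f) z * d2 f z
      = Real.exp (2 * φ z) * d1 φ z) ∧
    (d2 (d2 t) z * d1 t z + d2 (d2 Y) z * d1 Y z + d2 (d2 f) z * d1 f z
      = Real.exp (2 * φ z) * (- d1 φ z)) ∧
    (d2 (d2 t) z * d2 t z + d2 (d2 Y) z * d2 Y z + d2 (d2 f) z * d2 f z
      = Real.exp (2 * φ z) * d2 φ z) := by
  have t1 := contDiff_d1 H.smt
  have t2 := contDiff_d2 H.smt
  have Y1 := contDiff_d1 H.smY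
  have Y2 := contDiff_d2 H.smY
  have f1 := contDiff_d1 H.smf
  have f2 := contDiff_d2 H.smf
  have a11 := fun e => HD.unique H.m11 hz
    (((HD.of e z t1).sqr.add (HD.of e z Y1).sqr).add (HD.of e z f1).sqr) (HD.of e z hφ).exp2
  have a22 := fun e => HD.unique H.m22 hz
    (((HD.of e z t2).sqr.add (HD.of e z Y2).sqr).add (HD.of e z f2).sqr) (HD.of e z hφ).exp2
  have a12 := fun e => HD.unique H.m12 hz
    ((((HD.of e z t1).mul (HD.of e z t2)).add ((HD.of e z Y1).mul (HD.of e z Y2))).add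
      ((HD.of e z f1).mul (HD.of e z f2))) (HD.const e z 0)
  have b1 := a11 (1, 0)
  have b2 := a11 (0, 1)
  have b3 := a22 (1, 0)
  have b4 := a22 (0, 1)
  have b5 := a12 (1, 0)
  have b6 := a12 (0, 1)
  simp only [← d1_eq, ← d2_eq, comm12 H.smt, comm12 H.smY, comm12 H.smf] at b1 b2 b3 b4 b5 b6
  refine ⟨?_, ?_, ?_, ?_, ?_, ?_⟩
  · linear_combination (1 / 2) * b1
  · linear_combination b5 - (1 / 2) * b2
  · linear_combination (1 / 2) * b2
  · linear_combination (1 / 2) * b3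
  · linear_combination b6 - (1 / 2) * b3
  · linear_combination (1 / 2) * b4

/-- the twice differentiated metric identity behind the Gauss equation -/
theorem second_order (hφ : ContDiff ℝ ∞ φ) (H : Hyp η a0 φ t Y f) {z : P} (hz : z ∈ sq 4) :
    d1 (d1 t) z * d2 (d2 t) z + d1 (d1 Y) z * d2 (d2 Y) z + d1 (d1 f) z * d2 (d2 f) z
      - (d1 (d2 t) z ^ 2 + d1 (d2 Y) z ^ 2 + d1 (d2 f) z ^ 2)
      = - Real.exp (2 * φ z) * (2 * d1 φ z ^ 2 + 2 * d2 φ z ^ 2 + d1 (d1 φ) z + d2 (d2 φ) z) := by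
  have t2 := contDiff_d2 H.smt
  have Y2 := contDiff_d2 H.smY
  have f2 := contDiff_d2 H.smf
  have t11 := contDiff_d1 (contDiff_d1 H.smt)
  have Y11 := contDiff_d1 (contDiff_d1 H.smY)
  have f11 := contDiff_d1 (contDiff_d1 H.smf)
  have t12 := contDiff_d1 t2
  have Y12 := contDiff_d1 Y2
  have f12 := contDiff_d1 f2
  have A := HD.unique (fun z hz => (first_order hφ H hz).2.1) hz
    ((((HD.of (0, 1) z t11).mul (HD.of _ z t2)).add ((HD.of _ z Y11).mul (HD.of _ z Y2))).add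
      ((HD.of _ z f11).mul (HD.of _ z f2)))
    ((HD.of _ z hφ).exp2.mul (HD.of _ z (contDiff_d2 hφ)).neg)
  have B := HD.unique (fun z hz => (first_order hφ H hz).2.2.2.1) hz
    ((((HD.of (1, 0) z t12).mul (HD.of _ z t2)).add ((HD.of _ z Y12).mul (HD.of _ z Y2))).add
      ((HD.of _ z f12).mul (HD.of _ z f2)))
    ((HD.of _ z hφ).exp2.mul (HD.of _ z (contDiff_d1 hφ)))
  simp only [← d1_eq, ← d2_eq, comm12 (contDiff_d1 H.smt), comm12 (contDiff_d1 H.smY),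
    comm12 (contDiff_d1 H.smf), comm12 H.smt, comm12 H.smY, comm12 H.smf] at A B
  linear_combination A - B

/-- directional derivatives of the frame, of `p` and of `q` -/
theorem frame_deriv (H : Hyp η a0 φ t Y f) {z : P} (hJ : Jx t Y z ≠ 0) (e : P)
    {u1 v1 N1 u2 v2 N2 : ℝ}
    (ht1 : dv e (d1 t) z = u1 * d1 t z + v1 * d2 t z - qx t Y f z * N1)
    (hY1 : dv e (d1 Y) z = u1 * d1 Y z + v1 * d2 Y z - px t Y f z * N1)
    (hf1 : dv e (d1 f) z = u1 * d1 f z + v1 * d2 f z + N1)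
    (ht2 : dv e (d2 t) z = u2 * d1 t z + v2 * d2 t z - qx t Y f z * N2)
    (hY2 : dv e (d2 Y) z = u2 * d1 Y z + v2 * d2 Y z - px t Y f z * N2)
    (hf2 : dv e (d2 f) z = u2 * d1 f z + v2 * d2 f z + N2) :
    dv e (px t Y f) z = Wx t Y f z * (ξ1x t Y z * N1 + ξ2x t Y z * N2) ∧
    dv e (qx t Y f) z = Wx t Y f z * (ζ1x t Y z * N1 + ζ2x t Y z * N2) ∧
    dv e (ξ1x t Y) z = - (ξ1x t Y z * u1 + ξ2x t Y z * u2)
      + (qx t Y f z * ζ1x t Y z + px t Y f z * ξ1x t Y z) * (ξ1x t Y z * N1 + ξ2x t Y z * N2) ∧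
    dv e (ξ2x t Y) z = - (ξ1x t Y z * v1 + ξ2x t Y z * v2)
      + (qx t Y f z * ζ2x t Y z + px t Y f z * ξ2x t Y z) * (ξ1x t Y z * N1 + ξ2x t Y z * N2) ∧
    dv e (ζ1x t Y) z = - (ζ1x t Y z * u1 + ζ2x t Y z * u2)
      + (qx t Y f z * ζ1x t Y z + px t Y f z * ξ1x t Y z) * (ζ1x t Y z * N1 + ζ2x t Y z * N2) ∧
    dv e (ζ2x t Y) z = - (ζ1x t Y z * v1 + ζ2x t Y z * v2)
      + (qx t Y f z * ζ2x t Y z + px t Y f z * ξ2x t Y z) * (ζ1x t Y z * N1 + ζ2x t Y z * N2) := by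
  have t1 := HD.of e z (contDiff_d1 H.smt)
  have t2 := HD.of e z (contDiff_d2 H.smt)
  have Y1 := HD.of e z (contDiff_d1 H.smY)
  have Y2 := HD.of e z (contDiff_d2 H.smY)
  have f1 := HD.of e z (contDiff_d1 H.smf)
  have f2 := HD.of e z (contDiff_d2 H.smf)
  have J : HD e z (Jx t Y) _ := (t1.mul Y2).sub (t2.mul Y1)
  have p : HD e z (px t Y f) _ := ((t1.mul f2).sub (t2.mul f1)).div J hJ
  have q : HD e z (qx t Y f) _ := ((f1.mul Y2).sub (f2.mul Y1)).div J hJ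
  have x1 : HD e z (ξ1x t Y) _ := t2.neg.div J hJ
  have x2 : HD e z (ξ2x t Y) _ := t1.div J hJ
  have z1 : HD e z (ζ1x t Y) _ := Y2.div J hJ
  have z2 : HD e z (ζ2x t Y) _ := Y1.neg.div J hJ
  have hf1' : d1 f z = qx t Y f z * d1 t z + px t Y f z * d1 Y z := by
    simp only [px, qx]; field_simp; simp only [Jx]; ring
  have hf2' : d2 f z = qx t Y f z * d2 t z + px t Y f z * d2 Y z := by
    simp only [px, qx]; field_simp; simp only [Jx]; ring
  rw [p.eq, q.eq, x1.eq, x2.eq, z1.eq, z2.eq, ht1, hY1, hf1, ht2, hY2, hf2]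
  simp only [Wx, ξ1x, ξ2x, ζ1x, ζ2x]
  generalize px t Y f z = p at *
  generalize qx t Y f z = q at *
  rw [hf1', hf2']
  refine ⟨?_, ?_, ?_, ?_, ?_, ?_⟩ <;> field_simp <;> simp only [Jx] <;> ring

end main
end Ident

theorem ident : StmtIdent := by
  intro η a0 φ t Y f ha0 hφ H hJ hD z hz
  have hJz := hJ z hz
  have hDz := hD z hz
  have ha : aa f ≠ 0 := (lt_of_lt_of_le ha0 H.ha0).ne'
  have hW : Wx t Y f z ≠ 0 := by simp only [Wx]; positivity
  have hf1 : d1 f z = qx t Y f z * d1 t z + px t Y f z * d1 Y z := by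
    simp only [px, qx]; field_simp; simp only [Jx]; ring
  have hf2 : d2 f z = qx t Y f z * d2 t z + px t Y f z * d2 Y z := by
    simp only [px, qx]; field_simp; simp only [Jx]; ring
  obtain ⟨k1, k2, k3, k4, k5, k6⟩ := Ident.first_order hφ H hz
  have hG := Ident.second_order hφ H hz
  have m11 := H.m11 z hz
  have m12 := H.m12 z hz
  have m22 := H.m22 z hz
  obtain ⟨N11, t11, Y11, f11⟩ := Ident.gauss_alg hJz hf1 hf2 m11 m12 m22 k1 k2
  obtain ⟨N12, t12, Y12, f12⟩ := Ident.gauss_alg hJz hf1 hf2 m11 m12 m22 k3 k4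
  obtain ⟨N22, t22, Y22, f22⟩ := Ident.gauss_alg hJz hf1 hf2 m11 m12 m22 k5 k6
  obtain ⟨p1, q1, x11, x21, z11, z21⟩ := Ident.frame_deriv H hJz (1, 0) t11 Y11 f11 t12 Y12 f12
  obtain ⟨p2, q2, x12, x22, z12, z22⟩ := Ident.frame_deriv H hJz (0, 1)
    (by rw [← d2_eq, Ident.comm12 H.smt]; exact t12)
    (by rw [← d2_eq, Ident.comm12 H.smY]; exact Y12)
    (by rw [← d2_eq, Ident.comm12 H.smf]; exact f12) t22 Y22 f22
  simp only [← d1_eq, ← d2_eq] at p1 q1 x11 x21 z11 z21 p2 q2 x12 x22 z12 z22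
  -- `Vd p = a`, `Td p = 0`, `β ζ·∇p = - a α`
  have hV : βx t Y f z * (ξ1x t Y z * d1 (px t Y f) z + ξ2x t Y z * d2 (px t Y f) z) = aa f := by
    simp only [βx, ξ1x, ξ2x]; field_simp; simp only [Dx]; ring
  have hZ : βx t Y f z * (ζ1x t Y z * d1 (px t Y f) z + ζ2x t Y z * d2 (px t Y f) z)
      = - aa f * αx t Y f z := by
    simp only [βx, ζ1x, ζ2x, αx]; field_simp; ring
  have hT1 : ζ1x t Y z + αx t Y f z * ξ1x t Y z = d2 (px t Y f) z / Dx t Y f z := by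
    simp only [ζ1x, αx, ξ1x]; field_simp; simp only [Dx, Jx]; ring
  have hT2 : ζ2x t Y z + αx t Y f z * ξ2x t Y z = - d1 (px t Y f) z / Dx t Y f z := by
    simp only [ζ2x, αx, ξ2x]; field_simp; simp only [Dx, Jx]; ring
  have hT : (ζ1x t Y z + αx t Y f z * ξ1x t Y z) * d1 (px t Y f) z
      + (ζ2x t Y z + αx t Y f z * ξ2x t Y z) * d2 (px t Y f) z = 0 := by
    rw [hT1, hT2]; ring
  have n1 : ξ1x t Y z * N11 + ξ2x t Y z * N12 = d1 (px t Y f) z / Wx t Y f z := by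
    rw [p1]; field_simp
  have n2 : ξ1x t Y z * N12 + ξ2x t Y z * N22 = d2 (px t Y f) z / Wx t Y f z := by
    rw [p2]; field_simp
  have n3 : ζ1x t Y z * N11 + ζ2x t Y z * N12 = d1 (qx t Y f) z / Wx t Y f z := by
    rw [q1]; field_simp
  have n4 : ζ1x t Y z * N12 + ζ2x t Y z * N22 = d2 (qx t Y f) z / Wx t Y f z := by
    rw [q2]; field_simp
  have hVq : βx t Y f z * (ξ1x t Y z * d1 (qx t Y f) z + ξ2x t Y z * d2 (qx t Y f) z)
      = - aa f * αx t Y f z := by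
    rw [← hZ, p1, p2, q1, q2]; ring
  rw [n1] at x11 x21
  rw [n2] at x12 x22
  rw [n3] at z11 z21
  rw [n4] at z12 z22
  -- Lagrange identity and the Gauss equation
  have hE : 0 < Real.exp (2 * φ z) := Real.exp_pos _
  have hL : Jx t Y z ^ 2 * Wx t Y f z = Real.exp (2 * φ z) ^ 2 := by
    simp only [Jx, Wx]
    rw [hf1] at m11 m12
    rw [hf2] at m12 m22
    linear_combination Real.exp (2 * φ z) * m22
      + (d2 t z ^ 2 + d2 Y z ^ 2 + (qx t Y f z * d2 t z + px t Y f z * d2 Y z) ^ 2) * m11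
      - (d1 t z * d2 t z + d1 Y z * d2 Y z + (qx t Y f z * d1 t z + px t Y f z * d1 Y z)
          * (qx t Y f z * d2 t z + px t Y f z * d2 Y z)) * m12
  have hN : Wx t Y f z * (N11 * N22 - N12 ^ 2)
      = - Real.exp (2 * φ z) * (d1 (d1 φ) z + d2 (d2 φ) z) := by
    rw [t11, Y11, f11, t12, Y12, f12, t22, Y22, f22] at hG
    simp only [Wx]
    rw [hf1] at m11
    rw [hf2] at m22
    rw [hf1, hf2] at hG
    linear_combination hG + (d1 φ z ^ 2 + d2 φ z ^ 2) * (m11 + m22)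
  have hK : Kf φ z * Real.exp (2 * φ z) = - (d1 (d1 φ) z + d2 (d2 φ) z) := by
    have : Real.exp (-2 * φ z) * Real.exp (2 * φ z) = 1 := by
      rw [← Real.exp_add]; simp
    simp only [Kf]
    linear_combination (- (d1 (d1 φ) z + d2 (d2 φ) z)) * this
  have hfr : ζ1x t Y z * ξ2x t Y z - ζ2x t Y z * ξ1x t Y z = (Jx t Y z)⁻¹ := by
    simp only [ζ1x, ζ2x, ξ1x, ξ2x]; field_simp; simp only [Jx]; ring
  have hN' : N11 * N22 - N12 ^ 2 = Kf φ z * Jx t Y z ^ 2 := by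
    apply mul_left_cancel₀ hW
    linear_combination hN - Real.exp (2 * φ z) * hK - Kf φ z * hL
  have hdet : d1 (qx t Y f) z * d2 (px t Y f) z - d2 (qx t Y f) z * d1 (px t Y f) z
      = Kf φ z * Wx t Y f z ^ 2 * Jx t Y z := by
    have : d1 (qx t Y f) z * d2 (px t Y f) z - d2 (qx t Y f) z * d1 (px t Y f) z
        = Wx t Y f z ^ 2 * (ζ1x t Y z * ξ2x t Y z - ζ2x t Y z * ξ1x t Y z)
          * (N11 * N22 - N12 ^ 2) := by
      rw [p1, p2, q1, q2]; ring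
    rw [this, hfr, hN']; field_simp
  refine ⟨?_, ?_, ?_, ?_, ?_, ?_, ?_, ?_, ?_, ?_⟩
  · simp only [Vd, Gam1]; rw [x11, x12]
    linear_combination ((qx t Y f z * ζ1x t Y z + px t Y f z * ξ1x t Y z) / Wx t Y f z) * hV
  · simp only [Vd, Gam2]; rw [x21, x22]
    linear_combination ((qx t Y f z * ζ2x t Y z + px t Y f z * ξ2x t Y z) / Wx t Y f z) * hV
  · simp only [Vd, Gam1]; rw [z11, z12]
    linear_combination ((qx t Y f z * ζ1x t Y z + px t Y f z * ξ1x t Y z) / Wx t Y f z) * hVq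
  · simp only [Vd, Gam2]; rw [z21, z22]
    linear_combination ((qx t Y f z * ζ2x t Y z + px t Y f z * ξ2x t Y z) / Wx t Y f z) * hVq
  · simp only [Td, Gam1]; rw [x11, x12]
    linear_combination ((qx t Y f z * ζ1x t Y z + px t Y f z * ξ1x t Y z) / Wx t Y f z) * hT
  · simp only [Td, Gam2]; rw [x21, x22]
    linear_combination ((qx t Y f z * ζ2x t Y z + px t Y f z * ξ2x t Y z) / Wx t Y f z) * hT
  · exact hVq
  · simp only [Td]; rw [hT1, hT2]; simp only [βx]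
    field_simp
    linear_combination hdet
  · have : ξ1x t Y z * ζ1x t Y z * (d1 t z ^ 2 + d1 Y z ^ 2 + d1 f z ^ 2)
        + (ξ1x t Y z * ζ2x t Y z + ξ2x t Y z * ζ1x t Y z)
          * (d1 t z * d2 t z + d1 Y z * d2 Y z + d1 f z * d2 f z)
        + ξ2x t Y z * ζ2x t Y z * (d2 t z ^ 2 + d2 Y z ^ 2 + d2 f z ^ 2)
        = px t Y f z * qx t Y f z := by
      rw [hf1, hf2]; simp only [ξ1x, ξ2x, ζ1x, ζ2x]; field_simp; simp only [Jx]; ring
    rw [m11, m12, m22] at this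
    linear_combination this
  · have : ξ1x t Y z ^ 2 * (d1 t z ^ 2 + d1 Y z ^ 2 + d1 f z ^ 2)
        + 2 * ξ1x t Y z * ξ2x t Y z * (d1 t z * d2 t z + d1 Y z * d2 Y z + d1 f z * d2 f z)
        + ξ2x t Y z ^ 2 * (d2 t z ^ 2 + d2 Y z ^ 2 + d2 f z ^ 2)
        = 1 + px t Y f z ^ 2 := by
      rw [hf1, hf2]; simp only [ξ1x, ξ2x]; field_simp; simp only [Jx]; ring
    rw [m11, m12, m22] at this
    linear_combination this

end Crest.Agent.R220
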