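import Crest.Agent.R220.Step

/-! Sobolev step, bounds for the conformal factor, and the iteration. -/

set_option autoImplicit false
open scoped ContDiff Topology
open Set MeasureTheory Filter

namespace Crest.Agent.R220

theorem Bd_of_sob (hS : StmtSobolev) {c2 τ τ' : ℝ} (hc : 0 < c2) (hc' : c2 ≤ 1 / 4) (hτ : 0 < τ)
    (hττ : τ < τ') (hτ' : τ' < 1) {f : Fam} (sf : Sm f) {g : ℕ → ℝ} (hg : ∀ n, g n = 1)
    (h0 : L2 (omDom c2 (fun _ => -c2) (fun _ => c2 / 2) τ) g f)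
    (h1 : L2 (omDom c2 (fun _ => -c2) (fun _ => c2 / 2) τ) g fun n => d1 (f n))
    (h2 : L2 (omDom c2 (fun _ => -c2) (fun _ => c2 / 2) τ) g fun n => d2 (f n))
    (h3 : L2 (omDom c2 (fun _ => -c2) (fun _ => c2 / 2) τ) g fun n => d1 (d2 (f n))) :
    Bd (omDom c2 (fun _ => -c2) (fun _ => c2 / 2) τ') f := by
  obtain ⟨C, hC⟩ := hS c2 hc hc' τ τ' hτ hττ hτ'
  obtain ⟨C0, h0⟩ := h0
  obtain ⟨C1, h1⟩ := h1
  obtain ⟨C2, h2⟩ := h2
  obtain ⟨C3, h3⟩ := h3
  refine ⟨max C 0 * (1 + (C0 + C1 + C2 + C3)), fun n z hz => (hC (f n) (sf n) z hz.1).trans ?_⟩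
  have eΩ : (omDom c2 (fun _ => -c2) (fun _ => c2 / 2) τ).Ω n = Om c2 (-c2) (c2 / 2) τ :=
    inter_eq_left.2 (Om_subset_sq (by linarith) (by rw [abs_neg, abs_of_pos hc]) (by linarith) hτ)
  rw [← eΩ]
  set O := omDom c2 (fun _ => -c2) (fun _ => c2 / 2) τ
  have i0 : IntegrableOn (fun z => f n z ^ 2) _ := O.int ((sf n).continuous.pow 2) n
  have i1 : IntegrableOn (fun z => d1 (f n) z ^ 2) _ :=
    O.int ((contDiff_d1 (sf n)).continuous.pow 2) n
  have i2 : IntegrableOn (fun z => d2 (f n) z ^ 2) _ :=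
    O.int ((contDiff_d2 (sf n)).continuous.pow 2) n
  have i3 : IntegrableOn (fun z => d1 (d2 (f n)) z ^ 2) _ :=
    O.int ((contDiff_d1 (contDiff_d2 (sf n))).continuous.pow 2) n
  have hnn : 0 ≤ ∫ p in O.Ω n,
      (f n p ^ 2 + d1 (f n) p ^ 2 + d2 (f n) p ^ 2 + d1 (d2 (f n)) p ^ 2) :=
    integral_nonneg fun z => by positivity
  refine (mul_le_mul_of_nonneg_right (le_max_left C 0) (by linarith)).trans ?_
  refine mul_le_mul_of_nonneg_left ?_ (le_max_right _ _)
  have i01 : IntegrableOn (fun p => f n p ^ 2 + d1 (f n) p ^ 2) (O.Ω n) := i0.add i1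
  have i012 : IntegrableOn (fun p => f n p ^ 2 + d1 (f n) p ^ 2 + d2 (f n) p ^ 2) (O.Ω n) :=
    i01.add i2
  rw [integral_add i012 i3, integral_add i01 i2, integral_add i0 i1]
  have := h0 n
  have := h1 n
  have := h2 n
  have := h3 n
  simp only [hg, one_pow, mul_one] at *
  linarith

section family
variable {φ : ℕ → P → ℝ} {a0 M : ℝ} (c : ∀ n, Cfg (φ n) a0 M)

theorem cl_kβ {O : Dom} {w : Wt} {l N L : ℕ} (ha0 : 0 < a0)
    (hφ : ∀ n, ContDiff ℝ ∞ (φ n)) (hΦ : PhiOK c O w L) (hL : l ≤ L) (hl : 2 ≤ l)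
    (hN : N + 3 ≤ 2 * l + 1) (h : Lev c O w l N) (J : ℕ) :
    Cl (ctx O w l N) 3 J fun n z => (c n).k (Kf (φ n)) z * (c n).β z := by
  have hG := gen_zero c ha0 0 hφ hΦ hL hl hN h J
  exact Cl.mul (X := ctx O w l N) hN (cl_k c hN ha0 hG (fun n => contDiff_Kf (hφ n))
    (cl_Kf c hN hG fun v hv => by omega)) (h.2 J) (by norm_num) le_rfl (by norm_num)

theorem sob_step (hS : StmtSobolev) {c2 τ τ' : ℝ} (hc : 0 < c2) (hc' : c2 ≤ 1 / 4) (hτ : 0 < τ)
    (hττ : τ < τ') (hτ' : τ' < 1) (ha0 : 0 < a0) (hφ : ∀ n, ContDiff ℝ ∞ (φ n)) {w : Wt}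
    {l L : ℕ} (hΦ : PhiOK c (omDom c2 (fun _ => -c2) (fun _ => c2 / 2) τ) w L) (hL : l ≤ L)
    (hl : 5 ≤ l) (hw : ∀ n, w.G (l + 3) n = 1)
    (h : Lev c (omDom c2 (fun _ => -c2) (fun _ => c2 / 2) τ) w l (l + 3)) :
    Lev c (omDom c2 (fun _ => -c2) (fun _ => c2 / 2) τ') w (l + 1) (l + 1) := by
  obtain ⟨j, rfl⟩ : ∃ j, l = j + 2 := ⟨l - 2, by omega⟩
  have hk := cl_kβ c ha0 hφ hΦ hL (by omega) (by omega) h
  set O := omDom c2 (fun _ => -c2) (fun _ => c2 / 2) τ
  have get : ∀ {f : Fam}, (∀ J, Cl (ctx O w (j + 2) (j + 2 + 3)) 3 J f) → ∀ i ≤ j + 2,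
      L2 O (w.G (j + 2 + 3)) (D i f) := fun hf i hi =>
    (ctx O w (j + 2) (j + 2 + 3)).L2_mono ((hf i).2 i le_rfl (by simp only [ctx]; omega)).1
      (by omega)
  have sα := (h.1 0).1
  have sβ := (h.2 0).1
  have bβ := Bd_of_sob hS hc hc' hτ hττ hτ' (sβ.D j) hw (get h.2 j (by omega))
    ((get h.1 (j + 1) (by omega)).congr fun n z hz => (c n).u_t j hz.2)
    ((get h.2 (j + 1) (by omega)).congr fun n z hz => by
      simp only [D, Function.iterate_succ_apply'])
    ((get h.1 (j + 2) (by omega)).congr fun n z hz => by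
      have := (c n).u_t (j + 1) hz.2
      rw [Function.iterate_succ_apply'] at this
      exact this)
  have bα := Bd_of_sob hS hc hc' hτ hττ hτ' (sα.D j) hw (get h.1 j (by omega))
    ((get hk (j + 1) (by omega)).neg.congr fun n z hz => (c n).α_t_iter (hφ n) ha0 j hz.2)
    ((get h.1 (j + 1) (by omega)).congr fun n z hz => by
      simp only [D, Function.iterate_succ_apply'])
    ((get hk (j + 2) (by omega)).neg.congr fun n z hz => by
      have := (c n).α_t_iter (hφ n) ha0 (j + 1) hz.2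
      rw [Function.iterate_succ_apply'] at this
      exact this)
  have hsub : ∀ n, (omDom c2 (fun _ => -c2) (fun _ => c2 / 2) τ').Ω n ⊆ O.Ω n :=
    fun n => inter_subset_inter_left _ (Om_mono hc.le (by linarith) hττ.le)
  have main : ∀ f : Fam, Sm f → (∀ J, Cl (ctx O w (j + 2) (j + 2 + 3)) 3 J f) →
      Bd (omDom c2 (fun _ => -c2) (fun _ => c2 / 2) τ') (D j f) →
      ∀ J, Cl (ctx (omDom c2 (fun _ => -c2) (fun _ => c2 / 2) τ') w (j + 2 + 1) (j + 2 + 1)) 3 J f := by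
    intro f sf hf hb J
    refine ⟨sf, fun i _ hi => ?_⟩
    simp only [ctx] at hi ⊢
    have := (hf i).2 i le_rfl (by simp only [ctx]; omega)
    refine ⟨this.1.subset (sf.D i) hsub, fun h2 => ?_⟩
    rcases Nat.lt_or_ge i j with h1 | h1
    · exact (this.2 (by simp only [ctx]; omega)).subset hsub
    · obtain rfl : i = j := by omega
      exact hb
  exact ⟨main _ sα h.1 bα, main _ sβ h.2 bβ⟩

theorem lev_base (O : Dom) (w : Wt) : Lev c O w 5 5 := by
  have main : ∀ f : Fam, Sm f → (∀ n, ∀ j ≤ 2, ∀ z ∈ sq 2, |d2^[j] (f n) z| ≤ M) →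
      ∀ J, Cl (ctx O w 5 5) 3 J f := by
    intro f sf hf J
    refine ⟨sf, fun j _ hj => ?_⟩
    simp only [ctx] at hj ⊢
    have hb : Bd O (D j f) := ⟨M, fun n z hz => hf n j (by omega) z (O.sub n hz)⟩
    exact ⟨L2.of_bd (sf.D j) hb (w.G1 _), fun _ => hb⟩
  exact ⟨main _ (fun n => (c n).smα) fun n => (c n).αM, main _ (fun n => (c n).smβ) fun n => (c n).βM⟩

/-- restriction to a smaller domain with another weight, at `N = l` -/
theorem Lev.restrict {O O' : Dom} {w : Wt} (w' : Wt) {l : ℕ} (h : Lev c O w l l)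
    (hs : ∀ n, O'.Ω n ⊆ O.Ω n) : Lev c O' w' l l := by
  have main : ∀ f : Fam, (∀ J, Cl (ctx O w l l) 3 J f) → ∀ J, Cl (ctx O' w' l l) 3 J f := by
    intro f hf J
    refine ⟨(hf 0).1, fun j _ hj => ?_⟩
    have hb : Bd O' (D j f) := (((hf j).2 j le_rfl hj).2 hj).subset hs
    exact ⟨L2.of_bd ((hf 0).1.D j) hb (w'.G1 _), fun _ => hb⟩
  exact ⟨main _ h.1, main _ h.2⟩

end family

theorem Cfg.far {φ : P → ℝ} {a0 M : ℝ} (c : Cfg φ a0 M) {lam : ℝ} (hl : 0 < lam) {z : P}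
    (hz : z ∈ sq 2) (h : 2 / lam < ‖z‖) : 1 < lam ^ 2 * rs (c.x z, c.y z) := by
  have hx := c.geomx z hz
  have hy := c.geomy z hz
  have h1 : 1 / lam < |c.x z| ∨ 1 / lam < |c.y z| := by
    have h2 : 0 < 1 / lam := by positivity
    have h3 : 2 / lam = 2 * (1 / lam) := by ring
    have a1 := abs_sub_abs_le_abs_sub z.1 (c.x z)
    have a2 := abs_sub_abs_le_abs_sub z.2 (c.y z)
    rw [abs_sub_comm] at a1 a2
    rcases le_total |z.1| |z.2| with h4 | h4
    · have : ‖z‖ = |z.2| := by rw [Prod.norm_def]; exact max_eq_right h4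
      right; linarith
    · have : ‖z‖ = |z.1| := by rw [Prod.norm_def]; exact max_eq_left h4
      left; linarith
  simp only [rs]
  rcases h1 with h1 | h1
  · rw [div_lt_iff₀ hl] at h1
    have : 1 < (|c.x z| * lam) ^ 2 := by nlinarith
    rw [mul_pow, sq_abs] at this
    nlinarith [sq_nonneg (lam * c.y z)]
  · rw [div_lt_iff₀ hl] at h1
    have : 1 < (|c.y z| * lam) ^ 2 := by nlinarith
    rw [mul_pow, sq_abs] at this
    nlinarith [sq_nonneg (lam * c.x z)]

noncomputable def wLam (lam : ℕ → ℝ) (h : ∀ n, 1 ≤ lam n) (m : ℕ) : Wt :=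
  ⟨fun o n => lam n ^ (o - (m + 3)), fun _ n => one_le_pow₀ (h n),
    fun _ _ n ho => pow_le_pow_right₀ (h n) (by omega)⟩

def wOne : Wt := ⟨fun _ _ => 1, fun _ _ => le_rfl, fun _ _ _ _ => le_rfl⟩

theorem volume_real_closedBall {r : ℝ} (hr : 0 ≤ r) :
    (volume : Measure P).real (Metric.closedBall 0 r) = 4 * r ^ 2 := by
  have : Metric.closedBall (0 : P) r = Metric.closedBall (0 : ℝ) r ×ˢ Metric.closedBall (0 : ℝ) r := by
    rw [closedBall_prod_same]; rfl
  rw [this, Measure.volume_eq_prod, Measure.real, Measure.prod_prod, Real.volume_closedBall,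
    ENNReal.toReal_mul, ENNReal.toReal_ofReal (by positivity)]
  ring

section phi
variable {ε : ℝ} {m : ℕ} {lam : ℕ → ℝ} {a0 M : ℝ} (c : ∀ n, Cfg (phi ε m (lam n)) a0 M)

theorem phiOK_D (hP : StmtPhi) (hε : 0 ≤ ε) (hl : ∀ n, 1 ≤ lam n) (O : Dom) :
    PhiOK c O (wLam lam hl m) (m + 2) := by
  intro v
  obtain ⟨C, hC⟩ := hP.2.2.1 v
  have s0 : Sm fun n z => dw v (phi0 ε) ((c n).x z, (c n).y z) :=
    fun n => (c n).smcomp (contDiff_dw (hP.1 ε) v)
  have s1 : Sm (Phi c v) := fun n => (c n).smcomp (contDiff_dw (hP.2.1 ε m (lam n)) v)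
  have s2 : Sm fun n z => Phi c v n z - dw v (phi0 ε) ((c n).x z, (c n).y z) :=
    fun n => (s1 n).sub (s0 n)
  have b0 : Bd O fun n z => dw v (phi0 ε) ((c n).x z, (c n).y z) :=
    ⟨C * ε, fun n z _ => (hC ε m (lam n) hε (hl n) _).1⟩
  have hC0 : 0 ≤ C := by
    have := (abs_nonneg _).trans (hC 1 m 1 zero_le_one le_rfl 0).1
    linarith
  have e : ∀ n, ∀ z ∈ O.Ω n, Phi c v n z = dw v (phi0 ε) ((c n).x z, (c n).y z)
      + (Phi c v n z - dw v (phi0 ε) ((c n).x z, (c n).y z)) := fun n z _ => by ring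
  constructor
  · refine (L2.add s0 s2 (L2.of_bd s0 b0 ((wLam lam hl m).G1 _)) ⟨16 * C ^ 2, fun n => ?_⟩).congr e
    have hl0 : 0 < lam n := zero_lt_one.trans_le (hl n)
    set T := C * (lam n ^ v.length / lam n ^ (m + 2))
    calc ∫ z in O.Ω n, (Phi c v n z - dw v (phi0 ε) ((c n).x z, (c n).y z)) ^ 2
        ≤ ∫ z in O.Ω n, (Metric.closedBall (0 : P) (2 / lam n)).indicator (fun _ => T ^ 2) z := by
          refine setIntegral_mono_on (O.int ((s2 n).continuous.pow 2) n)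
            ((integrableOn_const (Metric.isBounded_ball.measure_lt_top.ne)).mono_set (O.sub n)
              |>.indicator measurableSet_closedBall) (O.meas n) fun z hz => ?_
          by_cases h : z ∈ Metric.closedBall (0 : P) (2 / lam n)
          · rw [indicator_of_mem h]
            have := (hC ε m (lam n) hε (hl n) ((c n).x z, (c n).y z)).2
            exact sq_le_sq' (abs_le.1 this).1 (abs_le.1 this).2
          · rw [indicator_of_notMem h]
            have h' : 2 / lam n < ‖z‖ := by simpa using h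
            have := (dw_congr (hP.2.2.2.1 ε m (lam n) hl0 _ ((c n).far hl0 (O.sub n hz) h')) v).eq_of_nhds
            simp only [Phi, this, sub_self]; norm_num
      _ ≤ ∫ z, (Metric.closedBall (0 : P) (2 / lam n)).indicator (fun _ => T ^ 2) z := by
          refine setIntegral_le_integral ?_ (Eventually.of_forall fun z => ?_)
          · exact (integrable_indicator_iff measurableSet_closedBall).2
              (integrableOn_const (Metric.isBounded_closedBall.measure_lt_top.ne))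
          · exact indicator_nonneg (fun _ _ => sq_nonneg _) z
      _ = 4 * (2 / lam n) ^ 2 * T ^ 2 := by
          rw [integral_indicator measurableSet_closedBall, setIntegral_const,
            volume_real_closedBall (by positivity), smul_eq_mul]
      _ = 16 * C ^ 2 * (lam n ^ v.length / lam n ^ (m + 3)) ^ 2 := by
          simp only [T]; field_simp; ring
      _ ≤ _ := by
          gcongr
          rw [div_le_iff₀ (by positivity), wLam]
          simp only
          rw [← pow_add]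
          exact pow_le_pow_right₀ (hl n) (by omega)
  · intro hv
    refine (Bd.add b0 ⟨C, fun n z _ => ?_⟩).congr e
    refine (hC ε m (lam n) hε (hl n) ((c n).x z, (c n).y z)).2.trans ?_
    have hl0 : 0 < lam n := zero_lt_one.trans_le (hl n)
    have : lam n ^ v.length / lam n ^ (m + 2) ≤ 1 := by
      rw [div_le_one (by positivity)]; exact pow_le_pow_right₀ (hl n) hv
    nlinarith

theorem phiOK_U (hP : StmtPhi) (hε : 0 ≤ ε) (hl : ∀ n, 1 ≤ lam n) {c2 τ : ℝ} (hτ : 0 < τ)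
    (hc : ∀ n, 3 / lam n ≤ c2) (L : ℕ) :
    PhiOK c (omDom c2 (fun n => 3 / lam n) (fun n => 1 / lam n) τ) wOne L := by
  intro v
  obtain ⟨C, hC⟩ := hP.2.2.1 v
  have s1 : Sm (Phi c v) := fun n => (c n).smcomp (contDiff_dw (hP.2.1 ε m (lam n)) v)
  have hb : Bd (omDom c2 (fun n => 3 / lam n) (fun n => 1 / lam n) τ) (Phi c v) := by
    refine ⟨C * ε, fun n z hz => ?_⟩
    have hl0 : 0 < lam n := zero_lt_one.trans_le (hl n)
    have h' : 2 / lam n < ‖z‖ := by
      obtain ⟨⟨-, -, h3⟩, -⟩ := hz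
      have g0 := gf_nonneg' z.1
      have g1 := gf_le_one' z.1
      have h4 : 0 < 1 / lam n := by positivity
      have h5 : 3 / lam n = 3 * (1 / lam n) := by ring
      have h6 : 2 / lam n = 2 * (1 / lam n) := by ring
      have h7 := hc n
      have h8 : 3 / lam n * (1 - gf z.1) ≤ (3 / lam n + τ * (1 / lam n)) * (1 - gf z.1) := by
        apply mul_le_mul_of_nonneg_right _ (by linarith); nlinarith
      have h9 : 3 / lam n * gf z.1 ≤ c2 * (1 + τ) * gf z.1 := by
        apply mul_le_mul_of_nonneg_right _ g0; nlinarith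
      have := (le_abs_self _).trans (abs_snd_le z)
      simp only at h3
      nlinarith
    have := (dw_congr (hP.2.2.2.1 ε m (lam n) hl0 _ ((c n).far hl0 hz.2 h')) v).eq_of_nhds
    simp only [Phi, this]
    exact (hC ε m (lam n) hε (hl n) _).1
  exact ⟨L2.of_bd s1 hb fun _ => le_rfl, fun _ => hb⟩

variable {cs Cp : ℝ}

theorem steps (hP : StmtPhi) (hE : EnergyAt cs ε) (hPt : ∀ n, PtFacts cs ε Cp (c n)) (ha0 : 0 < a0)
    (hε : 0 < ε) (hc2 : cs * √ε ≤ 1) {d d' : ℕ → ℝ} (hd : ∀ n, |d n| ≤ cs * √ε)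
    (hd' : ∀ n, 0 < d' n) (hd'' : ∀ n, d' n ≤ cs * √ε) {w : Wt} {l L : ℕ}
    (hΦ : ∀ τ, 0 < τ → PhiOK c (omDom (cs * √ε) d d' τ) w L) (hL : l + 1 ≤ L) (hl : 3 ≤ l)
    (h : ∀ τ, 0 < τ → τ < 1 → Lev c (omDom (cs * √ε) d d' τ) w l l) :
    ∀ i, l + i + 2 ≤ 2 * l → ∀ τ, 0 < τ → τ < 1 → Lev c (omDom (cs * √ε) d d' τ) w l (l + i) := by
  intro i
  induction i with
  | zero => exact fun _ => h
  | succ i ih =>
    intro hi τ hτ hτ1
    exact step c (N := l + i) hP hE hPt ha0 hε hc2 hd hd' hd'' (half_pos hτ) (half_lt_self hτ) hτ1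
      (hΦ _ (half_pos hτ)) hL hl (by omega) (by omega)
      (ih (by omega) _ (half_pos hτ) (by linarith))

theorem levD (hP : StmtPhi) (hS : StmtSobolev) (hE : EnergyAt cs ε)
    (hPt : ∀ n, PtFacts cs ε Cp (c n)) (ha0 : 0 < a0) (hε : 0 < ε) (hcs : 0 < cs)
    (hc2 : cs * √ε ≤ 1 / 4) (hl : ∀ n, 1 ≤ lam n) :
    ∀ i, 5 + i ≤ m + 1 → ∀ τ, 0 < τ → τ < 1 →
      Lev c (omDom (cs * √ε) (fun _ => -(cs * √ε)) (fun _ => cs * √ε / 2) τ) (wLam lam hl m)
        (5 + i) (5 + i) := by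
  have hc : 0 < cs * √ε := by positivity
  intro i
  induction i with
  | zero => exact fun _ τ _ _ => lev_base c _ _
  | succ i ih =>
    intro hi τ hτ hτ1
    have h3 := steps c hP hE hPt ha0 hε (by linarith) (d := fun _ => -(cs * √ε))
      (d' := fun _ => cs * √ε / 2) (fun _ => by rw [abs_neg, abs_of_pos hc]) (fun _ => by linarith)
      (fun _ => by linarith) (fun τ _ => phiOK_D c hP hε.le hl _) (by omega) (by omega)
      (ih (by omega)) 3 (by omega) _ (half_pos hτ) (by linarith)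
    exact sob_step c (l := 5 + i) hS hc hc2 (half_pos hτ) (half_lt_self hτ) hτ1 ha0
      (fun n => hP.2.1 ε m (lam n)) (phiOK_D c hP hε.le hl _) (by omega) (by omega)
      (fun n => by simp only [wLam]; rw [show 5 + i + 3 - (m + 3) = 0 by omega, pow_zero]) h3

/-- bounds on the big domain -/
theorem levD' (hP : StmtPhi) (hS : StmtSobolev) (hE : EnergyAt cs ε)
    (hPt : ∀ n, PtFacts cs ε Cp (c n)) (ha0 : 0 < a0) (hε : 0 < ε) (hcs : 0 < cs)
    (hc2 : cs * √ε ≤ 1 / 4) (hl : ∀ n, 1 ≤ lam n) (hm : 6 ≤ m) (i : ℕ) (hi : i ≤ 5) :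
    Lev c (omDom (cs * √ε) (fun _ => -(cs * √ε)) (fun _ => cs * √ε / 2) (1 / 2)) (wLam lam hl m)
      (m + 1) (m + 1 + i) := by
  have hc : 0 < cs * √ε := by positivity
  have h0 := levD c hP hS hE hPt ha0 hε hcs hc2 hl (m - 4) (by omega)
  rw [show 5 + (m - 4) = m + 1 by omega] at h0
  exact steps c hP hE hPt ha0 hε (by linarith) (d := fun _ => -(cs * √ε))
    (d' := fun _ => cs * √ε / 2) (fun _ => by rw [abs_neg, abs_of_pos hc]) (fun _ => by linarith)
    (fun _ => by linarith) (fun τ _ => phiOK_D c hP hε.le hl _) le_rfl (by omega) h0 i (by omega)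
    _ (by norm_num) (by norm_num)

/-- the bound above the bump -/
theorem upper_bound (hP : StmtPhi) (hS : StmtSobolev) (hE : EnergyAt cs ε)
    (hPt : ∀ n, PtFacts cs ε Cp (c n)) (ha0 : 0 < a0) (hε : 0 < ε) (hcs : 0 < cs)
    (hc2 : cs * √ε ≤ 1 / 4) (hl : ∀ n, 1 ≤ lam n) (hm : 6 ≤ m) (hc3 : ∀ n, 3 / lam n ≤ cs * √ε) :
    ∃ C, ∀ n, ∫ z in {z : P | |z.1| < 1 / 8 ∧ 4 / lam n < z.2 ∧ z.2 < 1},
      d2^[m + 2] (c n).β z ^ 2 ≤ C := by
  have hc : 0 < cs * √ε := by positivity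
  have hl0 : ∀ n, 0 < lam n := fun n => zero_lt_one.trans_le (hl n)
  have h0 := levD c hP hS hE hPt ha0 hε hcs hc2 hl (m - 4) (by omega)
  rw [show 5 + (m - 4) = m + 1 by omega] at h0
  have h1 : ∀ τ, 0 < τ → τ < 1 → Lev c (omDom (cs * √ε) (fun n => 3 / lam n) (fun n => 1 / lam n) τ)
      wOne (m + 1) (m + 1) := by
    intro τ hτ hτ1
    refine (h0 τ hτ hτ1).restrict c wOne fun n => inter_subset_inter_left _ ?_
    rintro z ⟨a1, a2, a3⟩
    refine ⟨a1, a2, lt_of_le_of_lt ?_ a3⟩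
    have g1 := gf_le_one' z.1
    have := hl0 n
    have : 0 ≤ 3 / lam n + τ * (1 / lam n) := by positivity
    have : (-(cs * √ε) + τ * (cs * √ε / 2)) * (1 - gf z.1)
        ≤ (3 / lam n + τ * (1 / lam n)) * (1 - gf z.1) := by
      apply mul_le_mul_of_nonneg_right _ (by linarith); nlinarith
    simp only
    linarith
  have h2 := steps c hP hE hPt ha0 hε (by linarith) (d := fun n => 3 / lam n)
    (d' := fun n => 1 / lam n)
    (fun n => by have := hl0 n; rw [abs_of_pos (by positivity)]; exact hc3 n)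
    (fun n => by have := hl0 n; positivity)
    (fun n => by
      have := hl0 n
      refine le_trans ?_ (hc3 n); gcongr; norm_num)
    (fun τ hτ => phiOK_U c hP hε.le hl hτ hc3 (m + 2)) le_rfl (by omega) h1 4 (by omega)
    (1 / 2) (by norm_num) (by norm_num)
  have h3 := ((h2.2 (m + 2)).2 (m + 2) le_rfl (by simp only [ctx]; omega)).1
  let O : Dom := ⟨fun n => {z : P | |z.1| < 1 / 8 ∧ 4 / lam n < z.2 ∧ z.2 < 1},
    fun n z hz => by
      have := hl0 n
      have h4 : 0 < 4 / lam n := by positivity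
      exact mem_sq'.2 ⟨by linarith [hz.1], abs_lt.2 ⟨by linarith [hz.2.1], by linarith [hz.2.2]⟩⟩,
    fun n => by
      have h1 : IsOpen {z : P | |z.1| < 1 / 8} := isOpen_lt (by fun_prop) (by fun_prop)
      have h2 : IsOpen {z : P | 4 / lam n < z.2} := isOpen_lt (by fun_prop) (by fun_prop)
      have h3 : IsOpen {z : P | z.2 < 1} := isOpen_lt (by fun_prop) (by fun_prop)
      exact (h1.inter (h2.inter h3)).measurableSet⟩
  obtain ⟨C, hC⟩ := h3.subset (O' := O) ((h2.2 0).1.D _) fun n z hz => by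
    refine ⟨⟨by linarith [hz.1], by linarith [hz.2.2], ?_⟩, O.sub n hz⟩
    rw [gf_eq_zero hz.1.le]
    have := hz.2.1
    have h5 : 4 / lam n = 4 * (1 / lam n) := by ring
    have h6 : 3 / lam n = 3 * (1 / lam n) := by ring
    have : 0 < 1 / lam n := by have := hl0 n; positivity
    simp only
    linarith
  exact ⟨C, fun n => by simpa [wOne, ctx, D, O] using hC n⟩

end phi

end Crest.Agent.R220
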