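import Crest.Agent.R220.Cls

/-! Closure of the lower-order variables, and the differentiated equation. -/

set_option autoImplicit false
open scoped ContDiff Topology
open Set MeasureTheory Filter

namespace Crest.Agent.R220

section
variable {X : Ctx} {o J : ℕ} {f g : Fam}
theorem Cl.mul3 (hN : X.N + 3 ≤ 2 * X.l + 1) (ho : o ≤ 3) (hf : Cl X o J f) (hg : Cl X o J g) :
    Cl X o J (fun n z => f n z * g n z) := Cl.mul hN hf hg le_rfl le_rfl ho
theorem Cl.sq3 (hN : X.N + 3 ≤ 2 * X.l + 1) (ho : o ≤ 3) (hf : Cl X o J f) :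
    Cl X o J (fun n z => f n z ^ 2) := by
  simpa only [pow_two] using Cl.mul3 hN ho hf hf
end

/-- closes goals `Cl X o J (fun n z => polynomial)` with `o ≤ 3` -/
macro "cl_tac" h:term : tactic =>
  `(tactic| repeat' first
    | with_reducible assumption
    | with_reducible exact Cl.num _
    | with_reducible exact Cl.snd
    | with_reducible apply Cl.add
    | with_reducible apply Cl.sub
    | with_reducible apply Cl.mul3 $h (by omega)
    | with_reducible apply Cl.sq3 $h (by omega)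
    | with_reducible apply Cl.neg)

namespace Cfg
variable {φ : P → ℝ} {a0 M : ℝ} (c : Cfg φ a0 M)

theorem one_le_W (z : P) : 1 ≤ c.W z := by
  unfold W; nlinarith [sq_nonneg (c.a * z.2), sq_nonneg (c.q z)]
theorem W_pos (z : P) : 0 < c.W z := lt_of_lt_of_le one_pos (c.one_le_W z)
theorem smW : ContDiff ℝ ∞ c.W := by
  have := c.smq
  unfold W; fun_prop
theorem smWi : ContDiff ℝ ∞ (fun z => (c.W z)⁻¹) := c.smW.inv fun z => (c.W_pos z).ne'
theorem smcomp {h : P → ℝ} (hh : ContDiff ℝ ∞ h) : ContDiff ℝ ∞ (fun z => h (c.x z, c.y z)) :=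
  hh.comp (c.smx.prodMk c.smy)
theorem x_bd {z : P} (hz : z ∈ sq 2) : |c.x z| ≤ 3 := by
  have h1 := c.geomx z hz
  have h2 := mem_sq.1 hz
  have h3 := abs_fst_le z
  have := abs_sub_abs_le_abs_sub (c.x z) z.1
  linarith
theorem y_bd {z : P} (hz : z ∈ sq 2) : |c.y z| ≤ 3 := by
  have h1 := c.geomy z hz
  have h2 := mem_sq.1 hz
  have h3 := abs_snd_le z
  have := abs_sub_abs_le_abs_sub (c.y z) z.2
  linarith

theorem comp_v {h : P → ℝ} (hh : ContDiff ℝ ∞ h) {z : P} (hz : z ∈ sq 2) :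
    d2 (fun z => h (c.x z, c.y z)) z
      = c.β z * (c.ξ1 z * d1 h (c.x z, c.y z) + c.ξ2 z * d2 h (c.x z, c.y z)) := by
  rw [d2_eq, dv_comp2 (hh.differentiable (by simp) _) (c.smx.differentiable (by simp) _)
    (c.smy.differentiable (by simp) _), ← d2_eq, ← d2_eq, c.x_v z hz, c.y_v z hz]
  ring

theorem W_v {z : P} (hz : z ∈ sq 2) :
    d2 c.W z = 2 * c.a ^ 2 * z.2 - 2 * c.a * c.q z * c.α z := by
  have hq := c.smq.differentiable (by simp) z
  unfold W
  rw [d2_eq, dv_add (by fun_prop) (by fun_prop), dv_add (by fun_prop) (by fun_prop), dv_const,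
    dv_pow 2 (by fun_prop), dv_pow 2 hq, dv_const_mul _ (by fun_prop), dv_snd, ← d2_eq, c.q_v z hz]
  simp; ring

theorem smk {K : P → ℝ} (hK : ContDiff ℝ ∞ K) : ContDiff ℝ ∞ (c.k K) :=
  ((c.smcomp hK).mul (c.smW.pow 2)).div_const _
theorem smA {K : P → ℝ} (hK : ContDiff ℝ ∞ K) : ContDiff ℝ ∞ (c.A K) :=
  (((c.smξ1.mul (c.smcomp (contDiff_d1 hK))).add (c.smξ2.mul (c.smcomp (contDiff_d2 hK)))).mul
    (c.smW.pow 2)).div_const _
theorem smB {K : P → ℝ} (hK : ContDiff ℝ ∞ K) : ContDiff ℝ ∞ (c.B K) := by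
  have h1 := c.smk hK
  have h2 := c.smq
  exact ContDiff.div (by fun_prop) c.smW fun z => (c.W_pos z).ne'
theorem smC {K : P → ℝ} (hK : ContDiff ℝ ∞ K) : ContDiff ℝ ∞ (c.C K) := by
  have h1 := c.smk hK
  exact ContDiff.div (by fun_prop) c.smW fun z => (c.W_pos z).ne'
theorem smS : ContDiff ℝ ∞ c.S := by
  have h1 := c.smx
  have h2 := c.smy
  unfold S; fun_prop

theorem k_v {K : P → ℝ} (hK : ContDiff ℝ ∞ K) {z : P} (hz : z ∈ sq 2) :
    d2 (c.k K) z = c.β z * c.A K z + c.α z * c.B K z + c.C K z := by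
  have h1 := (c.smcomp hK).differentiable (by simp) z
  have h2 := c.smW.differentiable (by simp) z
  have hW := (c.W_pos z).ne'
  have e : c.k K = fun z => (c.a ^ 2)⁻¹ * (K (c.x z, c.y z) * c.W z ^ 2) := by
    funext z; simp only [k]; ring
  rw [e, d2_eq, dv_const_mul (f := fun z => K (c.x z, c.y z) * c.W z ^ 2) _ (h1.mul (h2.pow 2)),
    dv_mul (g := fun z => c.W z ^ 2) h1 (h2.pow 2), dv_pow 2 h2, ← d2_eq,
    ← d2_eq, c.comp_v hK hz, c.W_v hz]
  simp only [A, B, C, k]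
  field_simp
  ring

theorem α_t (hφ : ContDiff ℝ ∞ φ) (ha0 : 0 < a0) {z : P} (hz : z ∈ sq 2) :
    d1 c.α z = - d2 (fun z => c.k (Kf φ) z * c.β z) z := by
  have ha : c.a ≠ 0 := (ha0.trans_le c.ha0).ne'
  have hK : ContDiff ℝ ∞ (Kf φ) := by unfold Kf; fun_prop
  have h1 : d1 (d2 c.q) z = d2 (d1 c.q) z := d1_d2_comm c.smq.contDiffAt
  have h2 : d1 (d2 c.q) z = - c.a * d1 c.α z := by
    rw [d1_eq, (dv_congr (eventuallyEq_of_sq c.q_v hz)).eq_of_nhds,
      dv_const_mul _ (c.smα.differentiable (by simp) z)]; rfl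
  have h3 : d2 (d1 c.q) z = c.a * d2 (fun z => c.k (Kf φ) z * c.β z) z := by
    have : ∀ z ∈ sq 2, d1 c.q z = c.a * (c.k (Kf φ) z * c.β z) := fun z hz => by
      rw [c.q_t z hz]; simp only [k, W]; ring
    rw [d2_eq, (dv_congr (eventuallyEq_of_sq this hz)).eq_of_nhds,
      dv_const_mul _ (((c.smk hK).mul c.smβ).differentiable (by simp) z)]; rfl
  have : c.a * (d1 c.α z + d2 (fun z => c.k (Kf φ) z * c.β z) z) = 0 := by linarith
  have := (mul_eq_zero.1 this).resolve_left ha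
  linarith

end Cfg

theorem contDiff_Kf {φ : P → ℝ} (hφ : ContDiff ℝ ∞ φ) : ContDiff ℝ ∞ (Kf φ) := by
  unfold Kf; fun_prop

theorem d1_Kf {φ : P → ℝ} (hφ : ContDiff ℝ ∞ φ) (e : P) (z : P) :
    dv e (Kf φ) z = - Real.exp (-2 * φ z) * (-2 * dv e φ z * (d1 (d1 φ) z + d2 (d2 φ) z)
      + dv e (d1 (d1 φ)) z + dv e (d2 (d2 φ)) z) := by
  have h0 := hφ.differentiable (by simp) z
  have h1 := (contDiff_d1 (contDiff_d1 hφ)).differentiable (by simp) z
  have h2 := (contDiff_d2 (contDiff_d2 hφ)).differentiable (by simp) z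
  unfold Kf
  rw [dv_mul (by fun_prop) (by fun_prop), dv_neg, dv_exp (by fun_prop), dv_const_mul _ h0,
    dv_add h1 h2]
  ring

section family
variable {φ : ℕ → P → ℝ} {a0 M : ℝ} (c : ∀ n, Cfg (φ n) a0 M)

noncomputable def Phi (w : List Bool) : Fam := fun n z => dw w (φ n) ((c n).x z, (c n).y z)

/-- the lower-order variables -/
structure Gen (X : Ctx) (ord : List Bool → ℕ) (ε : ℝ) (J : ℕ) : Prop where
  x : Cl X 2 J fun n => (c n).x
  y : Cl X 2 J fun n => (c n).y
  ξ1 : Cl X 2 J fun n => (c n).ξ1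
  ξ2 : Cl X 2 J fun n => (c n).ξ2
  ζ1 : Cl X 2 J fun n => (c n).ζ1
  ζ2 : Cl X 2 J fun n => (c n).ζ2
  q : Cl X 2 J fun n => (c n).q
  Wi : Cl X 2 J fun n z => ((c n).W z)⁻¹
  e : Cl X 2 J fun n z => Real.exp (-2 * φ n ((c n).x z, (c n).y z))
  e0 : Cl X 2 J fun n z => Real.exp (-2 * (ε * (rs ((c n).x z, (c n).y z) / 4
    - rs ((c n).x z, (c n).y z) ^ 2 / 16)))
  Φ : ∀ w, Cl X (ord w) J (Phi c w)

theorem cl_a (ha0 : 0 < a0) {X : Ctx} {o J : ℕ} : Cl X o J fun n _ => (c n).a :=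
  Cl.const (C := 1) fun n => by
    rw [abs_of_pos (ha0.trans_le (c n).ha0)]; linarith [(c n).ha1]

theorem cl_ainv (ha0 : 0 < a0) {X : Ctx} {o J : ℕ} : Cl X o J fun n _ => ((c n).a ^ 2)⁻¹ :=
  Cl.const (C := (a0 ^ 2)⁻¹) fun n => by
    have := (c n).ha0
    rw [abs_of_pos (by have := ha0.trans_le this; positivity)]
    gcongr

theorem closure {X : Ctx} (hN : X.N + 3 ≤ 2 * X.l + 1) (ha0 : 0 < a0) (ε : ℝ)
    (hφ : ∀ n, ContDiff ℝ ∞ (φ n)) {ord : List Bool → ℕ} (h2 : ∀ w, 2 ≤ ord w)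
    (hs : ∀ b w, ord (b :: w) ≤ ord w + 1) (h1 : ∀ b, ord [b] ≤ 3) (h0 : ord [] ≤ X.l)
    (hΦ : ∀ w, L2 X.toDom (X.G (ord w)) (Phi c w) ∧ (ord w ≤ X.l → Bd X.toDom (Phi c w)))
    (hα : ∀ J, Cl X 3 J fun n => (c n).α) (hβ : ∀ J, Cl X 3 J fun n => (c n).β) :
    ∀ J, Gen c X ord ε J := by
  have hrs : ContDiff ℝ ∞ rs := by unfold rs; fun_prop
  have base : Gen c X ord ε 0 := by
    have bd : ∀ {f : Fam} (C : ℝ), (∀ n, ∀ z ∈ sq 2, |f n z| ≤ C) → Bd X.toDom f :=
      fun C h => ⟨C, fun n z hz => h n z (X.sub n hz)⟩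
    refine ⟨Cl.zero' (fun n => (c n).smx) (bd 3 fun n z hz => (c n).x_bd hz),
      Cl.zero' (fun n => (c n).smy) (bd 3 fun n z hz => (c n).y_bd hz),
      Cl.zero' (fun n => (c n).smξ1) (bd 2 fun n => (c n).ξ1_bd),
      Cl.zero' (fun n => (c n).smξ2) (bd 2 fun n => (c n).ξ2_bd),
      Cl.zero' (fun n => (c n).smζ1) (bd 2 fun n => (c n).ζ1_bd),
      Cl.zero' (fun n => (c n).smζ2) (bd 2 fun n => (c n).ζ2_bd),
      Cl.zero' (fun n => (c n).smq) (bd _ fun n => (c n).q_bd),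
      Cl.zero' (fun n => (c n).smWi) (bd 1 fun n z _ => ?_),
      Cl.zero' (fun n => (c n).smcomp (h := fun p => Real.exp (-2 * φ n p))
        (by have := hφ n; fun_prop)) ?_,
      Cl.zero' (fun n => (c n).smcomp
        (h := fun p => Real.exp (-2 * (ε * (rs p / 4 - rs p ^ 2 / 16)))) (by fun_prop))
        (bd (Real.exp (100 * |ε|)) fun n z hz => ?_),
      fun w => Cl.zero (fun n => (c n).smcomp (contDiff_dw (hφ n) w)) (hΦ w).1 (hΦ w).2⟩
    · rw [abs_of_pos (inv_pos.2 ((c n).W_pos z))]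
      exact inv_le_one_of_one_le₀ ((c n).one_le_W z)
    · obtain ⟨C, hC⟩ := (hΦ []).2 h0
      refine ⟨Real.exp (2 * C), fun n z hz => ?_⟩
      rw [abs_of_pos (Real.exp_pos _)]
      have := hC n z hz
      simp only [Phi, dw_nil] at this
      exact Real.exp_le_exp.2 (by linarith [(abs_le.1 this).1])
    · rw [abs_of_pos (Real.exp_pos _)]
      refine Real.exp_le_exp.2 ?_
      have hx := (c n).x_bd hz
      have hy := (c n).y_bd hz
      have hs0 : 0 ≤ rs ((c n).x z, (c n).y z) := by unfold rs; positivity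
      have hs1 : rs ((c n).x z, (c n).y z) ≤ 18 := by
        unfold rs
        have := sq_le_sq' (abs_le.1 hx).1 (abs_le.1 hx).2
        have := sq_le_sq' (abs_le.1 hy).1 (abs_le.1 hy).2
        simp only; linarith
      set s := rs ((c n).x z, (c n).y z)
      have hb : |s / 4 - s ^ 2 / 16| ≤ 50 := by rw [abs_le]; constructor <;> nlinarith
      have : |ε * (s / 4 - s ^ 2 / 16)| ≤ |ε| * 50 := by rw [abs_mul]; gcongr
      linarith [(abs_le.1 this).1]
  intro J
  induction J with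
  | zero => exact base
  | succ J ih =>
    have hx := ih.x.mono (show 2 ≤ 3 by norm_num)
    have hy := ih.y.mono (show 2 ≤ 3 by norm_num)
    have hξ1 := ih.ξ1.mono (show 2 ≤ 3 by norm_num)
    have hξ2 := ih.ξ2.mono (show 2 ≤ 3 by norm_num)
    have hζ1 := ih.ζ1.mono (show 2 ≤ 3 by norm_num)
    have hζ2 := ih.ζ2.mono (show 2 ≤ 3 by norm_num)
    have hq := ih.q.mono (show 2 ≤ 3 by norm_num)
    have hWi := ih.Wi.mono (show 2 ≤ 3 by norm_num)
    have hWi' : Cl X 3 J fun n z => (1 + ((c n).a * z.2) ^ 2 + (c n).q z ^ 2)⁻¹ := hWi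
    have he := ih.e.mono (show 2 ≤ 3 by norm_num)
    have he0 := ih.e0.mono (show 2 ≤ 3 by norm_num)
    have hg1 : Cl X 3 J fun n z => d1 (φ n) ((c n).x z, (c n).y z) := (ih.Φ [false]).mono (h1 _)
    have hg2 : Cl X 3 J fun n z => d2 (φ n) ((c n).x z, (c n).y z) := (ih.Φ [true]).mono (h1 _)
    have ha : Cl X 3 J fun n _ => (c n).a := cl_a c ha0
    have hα' := hα J
    have hβ' := hβ J
    refine ⟨base.x.succ ?_, base.y.succ ?_, base.ξ1.succ ?_, base.ξ2.succ ?_, base.ζ1.succ ?_,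
      base.ζ2.succ ?_, base.q.succ ?_, base.Wi.succ ?_, base.e.succ ?_, base.e0.succ ?_,
      fun w => (base.Φ w).succ ?_⟩
    · refine Cl.congr ?_ (fun n => contDiff_d2 (c n).smx) fun n z hz => (c n).x_v z hz
      cl_tac hN
    · refine Cl.congr ?_ (fun n => contDiff_d2 (c n).smy) fun n z hz => (c n).y_v z hz
      cl_tac hN
    · refine Cl.congr ?_ (fun n => contDiff_d2 (c n).smξ1) fun n z hz =>
        ((c n).ξ1_v z hz).trans (by rw [div_eq_mul_inv])
      simp only [Gam1]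
      cl_tac hN
    · refine Cl.congr ?_ (fun n => contDiff_d2 (c n).smξ2) fun n z hz =>
        ((c n).ξ2_v z hz).trans (by rw [div_eq_mul_inv])
      simp only [Gam2]
      cl_tac hN
    · refine Cl.congr ?_ (fun n => contDiff_d2 (c n).smζ1) fun n z hz =>
        ((c n).ζ1_v z hz).trans (by rw [div_eq_mul_inv])
      simp only [Gam1]
      cl_tac hN
    · refine Cl.congr ?_ (fun n => contDiff_d2 (c n).smζ2) fun n z hz =>
        ((c n).ζ2_v z hz).trans (by rw [div_eq_mul_inv])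
      simp only [Gam2]
      cl_tac hN
    · refine Cl.congr ?_ (fun n => contDiff_d2 (c n).smq) fun n z hz => (c n).q_v z hz
      cl_tac hN
    · refine Cl.congr (f := fun n z => - ((c n).W z)⁻¹ ^ 2 *
          (2 * (c n).a ^ 2 * z.2 - 2 * (c n).a * (c n).q z * (c n).α z)) ?_
        (fun n => contDiff_d2 (c n).smWi) fun n z hz => ?_
      · cl_tac hN
      · rw [d2_eq, dv_inv ((c n).smW.differentiable (by simp) z) ((c n).W_pos z).ne', ← d2_eq,
          (c n).W_v hz, inv_pow]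
    · refine Cl.congr (f := fun n z => (c n).β z *
          ((c n).ξ1 z * (Real.exp (-2 * φ n ((c n).x z, (c n).y z))
              * (-2 * d1 (φ n) ((c n).x z, (c n).y z)))
            + (c n).ξ2 z * (Real.exp (-2 * φ n ((c n).x z, (c n).y z))
              * (-2 * d2 (φ n) ((c n).x z, (c n).y z))))) ?_
        (fun n => contDiff_d2 (base.e.1 n)) fun n z hz => ?_
      · cl_tac hN
      · have h0 := (hφ n).differentiable (by simp) ((c n).x z, (c n).y z)
        rw [(c n).comp_v (h := fun p => Real.exp (-2 * φ n p)) (by have := hφ n; fun_prop) hz,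
          d1_eq, d2_eq, dv_exp (by fun_prop), dv_exp (by fun_prop), dv_const_mul _ h0,
          dv_const_mul _ h0]
        rfl
    · refine Cl.congr (f := fun n z => Real.exp (-2 * (ε * (rs ((c n).x z, (c n).y z) / 4
            - rs ((c n).x z, (c n).y z) ^ 2 / 16))) * ((-ε) * (1 - (1 / 2) *
              ((c n).x z ^ 2 + (c n).y z ^ 2)) * ((c n).β z *
              ((c n).x z * (c n).ξ1 z + (c n).y z * (c n).ξ2 z)))) ?_
        (fun n => contDiff_d2 (base.e0.1 n)) fun n z hz => ?_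
      · cl_tac hN
      · have h1 := (c n).smx.differentiable (by simp) z
        have h2 := (c n).smy.differentiable (by simp) z
        have h3 : d2 (fun z => rs ((c n).x z, (c n).y z)) z
            = 2 * ((c n).β z * ((c n).x z * (c n).ξ1 z + (c n).y z * (c n).ξ2 z)) := by
          simp only [rs]
          rw [d2_eq, dv_add (by fun_prop) (by fun_prop), dv_pow 2 h1, dv_pow 2 h2, ← d2_eq, ← d2_eq,
            (c n).x_v z hz, (c n).y_v z hz]
          simp; ring
        have h4 := ((c n).smcomp hrs).differentiable (by simp) z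
        have h5 : HasDerivAt (fun s : ℝ => Real.exp (-2 * (ε * (s / 4 - s ^ 2 / 16))))
            (Real.exp (-2 * (ε * (rs ((c n).x z, (c n).y z) / 4
              - rs ((c n).x z, (c n).y z) ^ 2 / 16))) *
              (-2 * (ε * (1 / 4 - 2 * rs ((c n).x z, (c n).y z) / 16))))
            (rs ((c n).x z, (c n).y z)) := by
          refine HasDerivAt.exp (HasDerivAt.const_mul _ (HasDerivAt.const_mul _ ?_))
          refine HasDerivAt.sub ((hasDerivAt_id _).div_const _) (HasDerivAt.div_const ?_ _)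
          simpa using hasDerivAt_pow 2 (rs ((c n).x z, (c n).y z))
        rw [d2_eq, dv_comp (f := fun z => rs ((c n).x z, (c n).y z)) h5 h4, ← d2_eq, h3]
        simp only [rs]; ring
    · have hb1 : Cl X 3 J fun n z => (c n).β z * (c n).ξ1 z := by cl_tac hN
      have hb2 : Cl X 3 J fun n z => (c n).β z * (c n).ξ2 z := by cl_tac hN
      have := h2 w
      refine Cl.congr ((Cl.mul hN hb1 (ih.Φ (false :: w)) (r := ord w + 1) (by omega) (hs _ _)
        le_rfl).add (Cl.mul hN hb2 (ih.Φ (true :: w)) (by omega) (hs _ _) le_rfl))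
        (fun n => contDiff_d2 ((base.Φ w).1 n)) fun n z hz => ?_
      unfold Phi
      rw [(c n).comp_v (contDiff_dw (hφ n) w) hz, dw_false, dw_true]
      ring

end family

end Crest.Agent.R220
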