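import Crest.Agent.R220.Level

/-! The coefficients `k, A, B, C` and the differentiated equation. -/

set_option autoImplicit false
open scoped ContDiff Topology
open Set MeasureTheory Filter

namespace Crest.Agent.R220

section family
variable {φ : ℕ → P → ℝ} {a0 M : ℝ} (c : ∀ n, Cfg (φ n) a0 M)

/-- the four coefficient families are of order two -/
structure Coef (X : Ctx) (K : ℕ → P → ℝ) : Prop where
  sm : ∀ n, ContDiff ℝ ∞ (K n)
  k : ∀ J, Cl X 2 J fun n => (c n).k (K n)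
  A : ∀ J, Cl X 2 J fun n => (c n).A (K n)
  B : ∀ J, Cl X 2 J fun n => (c n).B (K n)
  C : ∀ J, Cl X 2 J fun n => (c n).C (K n)

theorem cl_k {X : Ctx} (hN : X.N + 3 ≤ 2 * X.l + 1) (ha0 : 0 < a0) {ord : List Bool → ℕ} {ε : ℝ}
    {J : ℕ} (hG : Gen c X ord ε J) {K : ℕ → P → ℝ} (hK : ∀ n, ContDiff ℝ ∞ (K n))
    (h0 : Cl X 2 J fun n z => K n ((c n).x z, (c n).y z)) :
    Cl X 2 J fun n => (c n).k (K n) := by
  have ha : Cl X 2 J fun n _ => (c n).a := cl_a c ha0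
  have hai : Cl X 2 J fun n _ => ((c n).a ^ 2)⁻¹ := cl_ainv c ha0
  have hq := hG.q
  refine Cl.congr (f := fun n z => K n ((c n).x z, (c n).y z) *
    (1 + ((c n).a * z.2) ^ 2 + (c n).q z ^ 2) ^ 2 * ((c n).a ^ 2)⁻¹) ?_
    (fun n => (c n).smk (hK n)) fun n z _ => by simp only [Cfg.k, Cfg.W, div_eq_mul_inv]
  cl_tac hN

theorem coef_of {X : Ctx} (hN : X.N + 3 ≤ 2 * X.l + 1) (ha0 : 0 < a0) {ord : List Bool → ℕ} {ε : ℝ}
    (hG : ∀ J, Gen c X ord ε J) {K : ℕ → P → ℝ} (hK : ∀ n, ContDiff ℝ ∞ (K n))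
    (h0 : ∀ J, Cl X 2 J fun n z => K n ((c n).x z, (c n).y z))
    (h1 : ∀ J, Cl X 2 J fun n z => d1 (K n) ((c n).x z, (c n).y z))
    (h2 : ∀ J, Cl X 2 J fun n z => d2 (K n) ((c n).x z, (c n).y z)) : Coef c X K := by
  have hk := fun J => cl_k c hN ha0 (hG J) hK (h0 J)
  refine ⟨hK, hk, fun J => ?_, fun J => ?_, fun J => ?_⟩
  all_goals
    have ha : Cl X 2 J fun n _ => (c n).a := cl_a c ha0
    have hai : Cl X 2 J fun n _ => ((c n).a ^ 2)⁻¹ := cl_ainv c ha0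
    have hq := (hG J).q
    have hξ1 := (hG J).ξ1
    have hξ2 := (hG J).ξ2
    have hWi := (hG J).Wi
    have h1' := h1 J
    have h2' := h2 J
    have hk' := hk J
  · refine Cl.congr (f := fun n z => ((c n).ξ1 z * d1 (K n) ((c n).x z, (c n).y z)
      + (c n).ξ2 z * d2 (K n) ((c n).x z, (c n).y z)) *
      (1 + ((c n).a * z.2) ^ 2 + (c n).q z ^ 2) ^ 2 * ((c n).a ^ 2)⁻¹) ?_
      (fun n => (c n).smA (hK n)) fun n z _ => by simp only [Cfg.A, Cfg.W, div_eq_mul_inv]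
    cl_tac hN
  · refine Cl.congr (f := fun n z => -4 * (c n).k (K n) z * (c n).a * (c n).q z * ((c n).W z)⁻¹) ?_
      (fun n => (c n).smB (hK n)) fun n z _ => by simp only [Cfg.B, div_eq_mul_inv]
    cl_tac hN
  · refine Cl.congr (f := fun n z => 4 * (c n).k (K n) z * (c n).a ^ 2 * z.2 * ((c n).W z)⁻¹) ?_
      (fun n => (c n).smC (hK n)) fun n z _ => by simp only [Cfg.C, div_eq_mul_inv]
    cl_tac hN

theorem cl_Kf {X : Ctx} (hN : X.N + 3 ≤ 2 * X.l + 1) {ord : List Bool → ℕ} {ε : ℝ} {J : ℕ}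
    (hG : Gen c X ord ε J) (h2 : ∀ w, w.length = 2 → ord w ≤ 2) :
    Cl X 2 J fun n z => Kf (φ n) ((c n).x z, (c n).y z) := by
  have he := hG.e
  have h11 : Cl X 2 J fun n z => d1 (d1 (φ n)) ((c n).x z, (c n).y z) :=
    (hG.Φ [false, false]).mono (h2 _ rfl)
  have h22 : Cl X 2 J fun n z => d2 (d2 (φ n)) ((c n).x z, (c n).y z) :=
    (hG.Φ [true, true]).mono (h2 _ rfl)
  simp only [Kf]
  cl_tac hN

theorem coef_Kf {X : Ctx} (hN : X.N + 3 ≤ 2 * X.l + 1) (ha0 : 0 < a0) {ord : List Bool → ℕ}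
    {ε : ℝ} (hφ : ∀ n, ContDiff ℝ ∞ (φ n)) (hG : ∀ J, Gen c X ord ε J)
    (h3 : ∀ w, w.length ≤ 3 → ord w ≤ 2) : Coef c X fun n => Kf (φ n) := by
  refine coef_of c hN ha0 hG (fun n => contDiff_Kf (hφ n))
    (fun J => cl_Kf c hN (hG J) fun w hw => h3 w (by omega)) (fun J => ?_) (fun J => ?_)
  all_goals
    have he := (hG J).e
    have h11 : Cl X 2 J fun n z => d1 (d1 (φ n)) ((c n).x z, (c n).y z) :=
      ((hG J).Φ [false, false]).mono (h3 _ (by simp))
    have h22 : Cl X 2 J fun n z => d2 (d2 (φ n)) ((c n).x z, (c n).y z) :=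
      ((hG J).Φ [true, true]).mono (h3 _ (by simp))
  · have g0 : Cl X 2 J fun n z => dv (1, 0) (φ n) ((c n).x z, (c n).y z) :=
      ((hG J).Φ [false]).mono (h3 _ (by simp))
    have g1 : Cl X 2 J fun n z => dv (1, 0) (d1 (d1 (φ n))) ((c n).x z, (c n).y z) :=
      ((hG J).Φ [false, false, false]).mono (h3 _ (by simp))
    have g2 : Cl X 2 J fun n z => dv (1, 0) (d2 (d2 (φ n))) ((c n).x z, (c n).y z) :=
      ((hG J).Φ [false, true, true]).mono (h3 _ (by simp))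
    refine Cl.congr ?_ (fun n => (c n).smcomp (contDiff_d1 (contDiff_Kf (hφ n))))
      fun n z _ => d1_Kf (hφ n) (1, 0) _
    cl_tac hN
  · have g0 : Cl X 2 J fun n z => dv (0, 1) (φ n) ((c n).x z, (c n).y z) :=
      ((hG J).Φ [true]).mono (h3 _ (by simp))
    have g1 : Cl X 2 J fun n z => dv (0, 1) (d1 (d1 (φ n))) ((c n).x z, (c n).y z) :=
      ((hG J).Φ [true, false, false]).mono (h3 _ (by simp))
    have g2 : Cl X 2 J fun n z => dv (0, 1) (d2 (d2 (φ n))) ((c n).x z, (c n).y z) :=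
      ((hG J).Φ [true, true, true]).mono (h3 _ (by simp))
    refine Cl.congr ?_ (fun n => (c n).smcomp (contDiff_d2 (contDiff_Kf (hφ n))))
      fun n z _ => d1_Kf (hφ n) (0, 1) _
    cl_tac hN

theorem dv_K0 (ε : ℝ) (e p : P) :
    dv e (fun p => ε * Real.exp (-2 * (ε * (rs p / 4 - rs p ^ 2 / 16))) * (rs p - 1)) p
      = ε * Real.exp (-2 * (ε * (rs p / 4 - rs p ^ 2 / 16))) *
        (1 - ε * (1 / 2 - (1 / 4) * (p.1 ^ 2 + p.2 ^ 2)) * (p.1 ^ 2 + p.2 ^ 2 - 1))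
          * (2 * (e.1 * p.1 + e.2 * p.2)) := by
  have h3 : dv e rs p = 2 * (e.1 * p.1 + e.2 * p.2) := by
    unfold rs
    rw [dv_add (by fun_prop) (by fun_prop), dv_pow 2 (by fun_prop), dv_pow 2 (by fun_prop),
      dv_fst, dv_snd]
    simp; ring
  have h4 : DifferentiableAt ℝ rs p := by unfold rs; fun_prop
  have h5 : HasDerivAt (fun s : ℝ => Real.exp (-2 * (ε * (s / 4 - s ^ 2 / 16))))
      (Real.exp (-2 * (ε * (rs p / 4 - rs p ^ 2 / 16))) *
        (-2 * (ε * (1 / 4 - 2 * rs p / 16)))) (rs p) := by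
    refine HasDerivAt.exp (HasDerivAt.const_mul _ (HasDerivAt.const_mul _ ?_))
    refine HasDerivAt.sub ((hasDerivAt_id _).div_const _) (HasDerivAt.div_const ?_ _)
    simpa using hasDerivAt_pow 2 (rs p)
  have h6 := (h5.const_mul ε).mul ((hasDerivAt_id (rs p)).sub_const 1)
  refine (dv_comp (e := e) (f := rs) h6 h4).trans ?_
  rw [h3]
  simp only [rs, id]; ring

theorem coef_K0 (hP : StmtPhi) {X : Ctx} (hN : X.N + 3 ≤ 2 * X.l + 1) (ha0 : 0 < a0)
    {ord : List Bool → ℕ} {ε : ℝ} (hG : ∀ J, Gen c X ord ε J) :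
    Coef c X fun _ => Kf (phi0 ε) := by
  have hK := contDiff_Kf (hP.1 ε)
  have key : ∀ n, ∀ z ∈ sq 2, Kf (phi0 ε) =ᶠ[𝓝 ((c n).x z, (c n).y z)]
      fun p => ε * Real.exp (-2 * (ε * (rs p / 4 - rs p ^ 2 / 16))) * (rs p - 1) := by
    intro n z hz
    refine hP.2.2.2.2.2 ε _ ?_
    have hx := (c n).x_bd hz
    have hy := (c n).y_bd hz
    have := sq_le_sq' (abs_le.1 hx).1 (abs_le.1 hx).2
    have := sq_le_sq' (abs_le.1 hy).1 (abs_le.1 hy).2
    simp only [rs]; linarith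
  refine coef_of c hN ha0 hG (fun _ => hK) (fun J => ?_) (fun J => ?_) (fun J => ?_)
  all_goals
    have he0 := (hG J).e0
    have hx := (hG J).x
    have hy := (hG J).y
  · refine Cl.congr (f := fun n z => ε * Real.exp (-2 * (ε * (rs ((c n).x z, (c n).y z) / 4
        - rs ((c n).x z, (c n).y z) ^ 2 / 16))) * ((c n).x z ^ 2 + (c n).y z ^ 2 - 1)) ?_
      (fun n => (c n).smcomp hK) fun n z hz => (key n z hz).eq_of_nhds
    cl_tac hN
  · refine Cl.congr ?_ (fun n => (c n).smcomp (contDiff_d1 hK))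
      fun n z hz => (dv_congr (e := (1, 0)) (key n z hz)).eq_of_nhds.trans (dv_K0 ε _ _)
    simp only
    cl_tac hN
  · refine Cl.congr ?_ (fun n => (c n).smcomp (contDiff_d2 hK))
      fun n z hz => (dv_congr (e := (0, 1)) (key n z hz)).eq_of_nhds.trans (dv_K0 ε _ _)
    simp only
    cl_tac hN

/-- remainder in the `s + 1` times differentiated equation -/
noncomputable def Rem (K : ℕ → P → ℝ) (s : ℕ) : Fam := fun n z =>
  d2^[s + 2] (fun z => (c n).k (K n) z * (c n).β z) z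
    - ((c n).k (K n) z * d2^[s + 2] (c n).β z
      + ((s + 2) * d2 ((c n).k (K n)) z + (c n).β z * (c n).A (K n) z) * d2^[s + 1] (c n).β z
      + (c n).β z * (c n).B (K n) z * d2^[s + 1] (c n).α z)

theorem sm_Rem {K : ℕ → P → ℝ} (hK : ∀ n, ContDiff ℝ ∞ (K n)) (s : ℕ) : Sm (Rem c K s) := by
  intro n
  have h1 := (c n).smk (hK n)
  have h2 := (c n).smA (hK n)
  have h3 := (c n).smB (hK n)
  have h4 := (c n).smβ
  have h5 := contDiff_d2_iter (h1.mul h4) (s + 2)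
  have h6 := contDiff_d2_iter h4 (s + 2)
  have h7 := contDiff_d2_iter h4 (s + 1)
  have h8 := contDiff_d2_iter (c n).smα (s + 1)
  unfold Rem
  fun_prop

theorem L2_Rem {X : Ctx} {s : ℕ} (hs : X.N = s + 3) (hN : X.N + 3 ≤ 2 * X.l) {K : ℕ → P → ℝ}
    (hK : Coef c X K) (hα : ∀ J, Cl X 3 J fun n => (c n).α)
    (hβ : ∀ J, Cl X 3 J fun n => (c n).β) : L2 X.toDom (X.G X.N) (Rem c K s) := by
  have t1 := Cl.top3 (s := s) (r := X.N) (hβ s) (hK.k (s + 1)) le_rfl le_rfl (by omega) (by omega)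
    le_rfl (by omega)
  have t2 := Cl.top (s := s + 1) (r := X.N) (hβ s) (hK.A (s + 1)) le_rfl le_rfl (by omega)
    (by omega) le_rfl (by omega)
  have t3 := Cl.top (s := s + 1) (r := X.N) (hα s) (hK.B (s + 1)) le_rfl le_rfl (by omega)
    (by omega) le_rfl (by omega)
  have t4 := X.L2_mono ((hK.C (s + 1)).2 (s + 1) le_rfl (by omega)).1 (show _ ≤ X.N by omega)
  have bβ : Bd X.toDom fun n => (c n).β := ((hβ 0).2 0 le_rfl (by omega)).2 (by omega)
  have sβ := (hβ 0).1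
  have sα := (hα 0).1
  have sk := (hK.k 0).1
  have sA := (hK.A 0).1
  have sB := (hK.B 0).1
  have sC := (hK.C 0).1
  have s1 : Sm fun n z => D (s + 2) (fun n z => (c n).β z * (c n).k (K n) z) n z
      - (D (s + 2) (fun n => (c n).β) n z * (c n).k (K n) z
        + (s + 2) * (D (s + 1) (fun n => (c n).β) n z * d2 ((c n).k (K n)) z)
        + (c n).β z * D (s + 2) (fun n => (c n).k (K n)) n z) := fun n => by
    have := (sβ.mul sk).D (s + 2) n
    have := sβ.D (s + 2) n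
    have := sβ.D (s + 1) n
    have := sk.D (s + 2) n
    have := sk n
    have := sβ n
    fun_prop
  have s2 : Sm fun n z => D (s + 1) (fun n z => (c n).β z * (c n).A (K n) z) n z
      - D (s + 1) (fun n => (c n).β) n z * (c n).A (K n) z :=
    fun n => ((sβ.mul sA).D _ n).sub ((sβ.D _ n).mul (sA n))
  have s3 : Sm fun n z => D (s + 1) (fun n z => (c n).α z * (c n).B (K n) z) n z
      - D (s + 1) (fun n => (c n).α) n z * (c n).B (K n) z :=
    fun n => ((sα.mul sB).D _ n).sub ((sα.D _ n).mul (sB n))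
  have t5 := L2.bd_mul sβ ((s2.add s3).add (sC.D (s + 1))) bβ
    (L2.add (s2.add s3) (sC.D _) (L2.add s2 s3 t2 t3) t4)
  refine (L2.add s1 (sβ.mul ((s2.add s3).add (sC.D (s + 1)))) t1 t5).congr fun n z hz => ?_
  have hz' := X.sub n hz
  have e1 : d2^[s + 2] ((c n).k (K n)) z
      = d2^[s + 1] (fun z => (c n).β z * (c n).A (K n) z) z
        + d2^[s + 1] (fun z => (c n).α z * (c n).B (K n) z) z + d2^[s + 1] ((c n).C (K n)) z := by
    rw [Function.iterate_succ_apply, d2_iter_congr_sq (fun z hz => (c n).k_v (hK.sm n) hz) _ z hz',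
      d2_iter_add (((sβ n).mul (sA n)).add ((sα n).mul (sB n))) (sC n),
      d2_iter_add ((sβ n).mul (sA n)) ((sα n).mul (sB n))]
  have e2 : (fun z => (c n).k (K n) z * (c n).β z) = fun z => (c n).β z * (c n).k (K n) z := by
    funext z; ring
  simp only [Rem, D, e1, e2]
  ring

end family

end Crest.Agent.R220
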