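import Crest.Agent.R220.Basic

/-! R220, B3: the main term on the `(x,y)` side. -/

set_option autoImplicit false
open scoped ContDiff Topology
open Set MeasureTheory Filter

namespace Crest.Agent.R220

namespace MainOf

section calc2
variable {e z : P} {g h : P → ℝ}

theorem diffAt (hg : ContDiffAt ℝ ∞ g z) : DifferentiableAt ℝ g z :=
  hg.differentiableAt (by simp)

theorem ev_diff (hg : ContDiffAt ℝ ∞ g z) : ∀ᶠ y in 𝓝 z, DifferentiableAt ℝ g y := by
  have h1 : ContDiffAt ℝ 1 g z := hg.of_le (by norm_cast)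
  filter_upwards [h1.eventually (by simp)] with y hy
  exact hy.differentiableAt (by norm_num)

theorem dv2_mul (hg : ContDiffAt ℝ ∞ g z) (hh : ContDiffAt ℝ ∞ h z) :
    dv e (dv e fun z => g z * h z) z
      = dv e (dv e g) z * h z + 2 * dv e g z * dv e h z + g z * dv e (dv e h) z := by
  have h1 : dv e (fun z => g z * h z) =ᶠ[𝓝 z] fun z => dv e g z * h z + g z * dv e h z := by
    filter_upwards [ev_diff hg, ev_diff hh] with y hy hy'
    exact dv_mul hy hy'
  have dg := diffAt (contDiffAt_dv (e := e) hg)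
  have dh := diffAt (contDiffAt_dv (e := e) hh)
  rw [(dv_congr h1).self_of_nhds, dv_add (dg.fun_mul (diffAt hh)) ((diffAt hg).fun_mul dh),
    dv_mul dg (diffAt hh), dv_mul (diffAt hg) dh]
  ring

theorem dv2_add (hg : ContDiffAt ℝ ∞ g z) (hh : ContDiffAt ℝ ∞ h z) :
    dv e (dv e fun z => g z + h z) z = dv e (dv e g) z + dv e (dv e h) z := by
  have h1 : dv e (fun z => g z + h z) =ᶠ[𝓝 z] fun z => dv e g z + dv e h z := by
    filter_upwards [ev_diff hg, ev_diff hh] with y hy hy'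
    exact dv_add hy hy'
  rw [(dv_congr h1).self_of_nhds,
    dv_add (diffAt (contDiffAt_dv hg)) (diffAt (contDiffAt_dv hh))]

theorem dv2_exp (hg : ContDiffAt ℝ ∞ g z) :
    dv e (dv e fun z => Real.exp (g z)) z
      = Real.exp (g z) * (dv e g z * dv e g z + dv e (dv e g) z) := by
  have h1 : dv e (fun z => Real.exp (g z)) =ᶠ[𝓝 z] fun z => Real.exp (g z) * dv e g z := by
    filter_upwards [ev_diff hg] with y hy
    exact dv_exp hy
  rw [(dv_congr h1).self_of_nhds, dv_mul (diffAt hg.exp) (diffAt (contDiffAt_dv hg)),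
    dv_exp (diffAt hg)]
  ring

end calc2

/-- bounds up to second order in the direction `e` at the point `z` -/
structure Bd (e : P) (B : ℝ) (g : P → ℝ) (z : P) : Prop where
  sm : ContDiffAt ℝ ∞ g z
  b0 : |g z| ≤ B
  b1 : |dv e g z| ≤ B
  b2 : |dv e (dv e g) z| ≤ B

section bd
variable {e z : P} {g h : P → ℝ} {B B' : ℝ}

theorem Bd.nonneg (hg : Bd e B g z) : 0 ≤ B := (abs_nonneg _).trans hg.b0

theorem Bd.mono (hg : Bd e B g z) (hB : B ≤ B') : Bd e B' g z :=
  ⟨hg.sm, hg.b0.trans hB, hg.b1.trans hB, hg.b2.trans hB⟩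

theorem Bd.const {c : ℝ} (hc : |c| ≤ B) : Bd e B (fun _ => c) z := by
  have hB : 0 ≤ B := (abs_nonneg _).trans hc
  have : dv e (fun _ : P => c) = fun _ => 0 := funext fun _ => dv_const c
  refine ⟨contDiffAt_const, hc, ?_, ?_⟩
  · rw [this]; simpa using hB
  · rw [this, dv_const]; simpa using hB

theorem Bd.add (hg : Bd e B g z) (hh : Bd e B' h z) : Bd e (B + B') (fun z => g z + h z) z := by
  refine ⟨hg.sm.add hh.sm, (abs_add_le _ _).trans (add_le_add hg.b0 hh.b0), ?_, ?_⟩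
  · rw [dv_add (diffAt hg.sm) (diffAt hh.sm)]
    exact (abs_add_le _ _).trans (add_le_add hg.b1 hh.b1)
  · rw [dv2_add hg.sm hh.sm]
    exact (abs_add_le _ _).trans (add_le_add hg.b2 hh.b2)

theorem abs_mul_le' {x y B B' : ℝ} (hx : |x| ≤ B) (hy : |y| ≤ B') : |x * y| ≤ B * B' := by
  rw [abs_mul]; exact mul_le_mul hx hy (abs_nonneg _) ((abs_nonneg _).trans hx)

theorem Bd.mul (hg : Bd e B g z) (hh : Bd e B' h z) :
    Bd e (4 * (B * B')) (fun z => g z * h z) z := by
  have h0 : 0 ≤ B * B' := mul_nonneg hg.nonneg hh.nonneg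
  refine ⟨hg.sm.mul hh.sm, ?_, ?_, ?_⟩
  · have := abs_mul_le' hg.b0 hh.b0
    linarith
  · rw [dv_mul (diffAt hg.sm) (diffAt hh.sm)]
    have h1 := abs_le.1 (abs_mul_le' hg.b1 hh.b0)
    have h2 := abs_le.1 (abs_mul_le' hg.b0 hh.b1)
    rw [abs_le]; constructor <;> linarith [h1.1, h1.2, h2.1, h2.2]
  · rw [dv2_mul hg.sm hh.sm, mul_assoc 2]
    have h1 := abs_le.1 (abs_mul_le' hg.b2 hh.b0)
    have h2 := abs_le.1 (abs_mul_le' hg.b1 hh.b1)
    have h3 := abs_le.1 (abs_mul_le' hg.b0 hh.b2)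
    rw [abs_le]; constructor <;> linarith [h1.1, h1.2, h2.1, h2.2, h3.1, h3.2]

theorem Bd.exp (hg : Bd e B g z) :
    Bd e (Real.exp B * (1 + B + B * B)) (fun z => Real.exp (g z)) z := by
  have hB := hg.nonneg
  have hBB := mul_nonneg hB hB
  have h0 : |Real.exp (g z)| ≤ Real.exp B := by
    rw [abs_of_pos (Real.exp_pos _)]
    exact Real.exp_le_exp.2 ((le_abs_self _).trans hg.b0)
  refine ⟨hg.sm.exp, ?_, ?_, ?_⟩
  · have := abs_mul_le' h0 (show |(1 : ℝ)| ≤ 1 + B + B * B by rw [abs_one]; linarith)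
    rwa [mul_one] at this
  · rw [dv_exp (diffAt hg.sm)]
    exact abs_mul_le' h0 (hg.b1.trans (by linarith))
  · rw [dv2_exp hg.sm]
    refine abs_mul_le' h0 ((abs_add_le _ _).trans ?_)
    have := abs_mul_le' hg.b1 hg.b1
    linarith [hg.b2]

theorem Bd.of_dw (hg : ContDiffAt ℝ ∞ g z) (hw : ∀ w : List Bool, w.length ≤ 2 → |dw w g z| ≤ B)
    (he : e = (1, 0) ∨ e = (0, 1)) : Bd e B g z := by
  rcases he with rfl | rfl
  · exact ⟨hg, hw [] (by simp), hw [false] (by simp), hw [false, false] (by simp)⟩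
  · exact ⟨hg, hw [] (by simp), hw [true] (by simp), hw [true, true] (by simp)⟩

end bd

/-- the weight `Ω` -/
noncomputable def Om' (φ p q J : P → ℝ) (c : ℝ) : P → ℝ := fun z =>
  Real.exp (-2 * φ z) * ((1 + p z * p z + q z * q z) * (1 + p z * p z + q z * q z)) * (c * c) * J z

theorem unif (N : ℝ) : ∃ B : ℝ, ∀ (e z : P) (φ p q J t : P → ℝ) (c c' : ℝ),
    Bd e N φ z → Bd e N p z → Bd e N q z → Bd e N J z → Bd e N t z → |c| ≤ N → |c'| ≤ N →
    Bd e B (Om' φ p q J c) z ∧ Bd e B (fun z => p z * c + c' * t z) z := by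
  refine ⟨max ?B1 ?B2, fun e z φ p q J t c c' hφ hp hq hJ ht hc hc' => ⟨Bd.mono ?h1 (le_max_left _ _),
    Bd.mono ?h2 (le_max_right _ _)⟩⟩
  case h1 =>
    have hW := ((Bd.const (e := e) (z := z) (c := 1) (B := 1) (by simp)).add (hp.mul hp)).add
      (hq.mul hq)
    exact ((((Bd.const (c := -2) (B := 2) (by simp)).mul hφ).exp.mul (hW.mul hW)).mul
      (Bd.const (abs_mul_le' hc hc))).mul hJ
  case h2 => exact (hp.mul (Bd.const hc)).add ((Bd.const hc').mul ht)

/-- second derivative of `s² Ω` where `s` is small -/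
theorem lap_lb {e z : P} {s Ω : P → ℝ} {B δ : ℝ} (hs : Bd e B s z) (hΩ : Bd e B Ω z)
    (hδ : |s z| ≤ δ) :
    2 * dv e s z ^ 2 * Ω z - δ * (7 * (B * B)) ≤ dv e (dv e fun z => s z * s z * Ω z) z := by
  rw [dv2_mul (hs.sm.mul hs.sm) hΩ.sm, dv2_mul hs.sm hs.sm, dv_mul (diffAt hs.sm) (diffAt hs.sm)]
  have h1 := (abs_le.1 (abs_mul_le' hδ (abs_mul_le' hs.b2 hΩ.b0))).1
  have h2 := (abs_le.1 (abs_mul_le' hδ (abs_mul_le' hs.b1 hΩ.b1))).1
  have h3 := (abs_le.1 (abs_mul_le' hδ (abs_mul_le' hs.b0 hΩ.b2))).1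
  nlinarith

/-- a globally smooth function equal to `G` on the square `(-2,2)²` -/
theorem exists_ext {G : P → ℝ} (hG : ∀ z ∈ sq 4, ContDiffAt ℝ ∞ G z) :
    ∃ G' : P → ℝ, ContDiff ℝ ∞ G' ∧ ∀ z ∈ sq 2, G' =ᶠ[𝓝 z] G := by
  let χ : ContDiffBump (0 : P) := ⟨2, 3, by norm_num, by norm_num⟩
  refine ⟨fun z => χ z * G z, contDiff_iff_contDiffAt.2 fun z => ?_, fun z hz => ?_⟩
  · by_cases hz : z ∈ sq 4
    · exact χ.contDiff.contDiffAt.mul (hG z hz)
    · have h1 : (Metric.closedBall (0 : P) 3)ᶜ ∈ 𝓝 z := by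
        refine Metric.isClosed_closedBall.isOpen_compl.mem_nhds ?_
        rw [mem_sq] at hz
        simp only [mem_compl_iff, mem_closedBall_zero_iff]
        linarith
      refine (contDiffAt_const (c := (0 : ℝ))).congr_of_eventuallyEq ?_
      filter_upwards [h1] with y hy
      simp only [mem_compl_iff, mem_closedBall_zero_iff, not_le] at hy
      have : χ y = 0 := χ.zero_of_le_dist (by simpa using hy.le)
      rw [this, zero_mul]
  · filter_upwards [sq_mem_nhds hz] with y hy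
    have : χ y = 1 := χ.one_of_mem_closedBall (Metric.ball_subset_closedBall hy)
    rw [this, one_mul]

theorem parts2 {e : P} {f G : P → ℝ} (hf : ContDiff ℝ ∞ f) (hc : HasCompactSupport f)
    (hG : ContDiff ℝ ∞ G) : ∫ z, dv e (dv e f) z * G z = ∫ z, f z * dv e (dv e G) z := by
  have hc' : HasCompactSupport (dv e f) := hc.fderiv_apply ℝ e
  rw [integral_mul_dv hf (contDiff_dv hG) hc, integral_mul_dv (contDiff_dv hf) hG hc', neg_neg]

/-- the perturbation of the conformal factor -/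
noncomputable def phi1 (m : ℕ) (lam : ℝ) : P → ℝ :=
  fun z => (lam ^ (m + 2))⁻¹ * bump (lam ^ 2 * rs z)

theorem phi_eq (ε : ℝ) (m : ℕ) (lam : ℝ) :
    phi ε m lam = fun z => phi0 ε z + phi1 m lam z := rfl

theorem contDiff_phi1 (m : ℕ) (lam : ℝ) : ContDiff ℝ ∞ (phi1 m lam) := by
  have h1 : ContDiff ℝ ∞ fun z : P => lam ^ 2 * rs z := by unfold rs; fun_prop
  exact contDiff_const.mul (bump.contDiff.comp h1)

theorem phi1_nonneg (m : ℕ) {lam : ℝ} (hl : 0 < lam) (z : P) : 0 ≤ phi1 m lam z :=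
  mul_nonneg (by positivity) bump.nonneg

theorem norm_sq_le_rs (z : P) : ‖z‖ ^ 2 ≤ rs z := by
  rw [Prod.norm_def, rs, Real.norm_eq_abs, Real.norm_eq_abs]
  rcases max_cases |z.1| |z.2| with h | h <;> rw [h.1, sq_abs] <;>
    nlinarith [sq_nonneg z.1, sq_nonneg z.2]

theorem phi1_eq_zero (m : ℕ) {lam : ℝ} (_hl : 0 < lam) {z : P} (hz : 1 ≤ lam * ‖z‖) :
    phi1 m lam z = 0 := by
  have h1 : 1 ≤ lam ^ 2 * rs z := by
    have h2 := mul_le_mul_of_nonneg_left (norm_sq_le_rs z) (sq_nonneg lam)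
    nlinarith
  have : bump (lam ^ 2 * rs z) = 0 := bump.zero_of_le_dist (by
    rw [dist_zero_right, Real.norm_eq_abs]
    exact h1.trans (le_abs_self _))
  rw [phi1, this, mul_zero]

theorem phi1_ev (m : ℕ) {lam : ℝ} (hl : 0 < lam) {z : P} (hz : 1 < lam * ‖z‖) :
    phi1 m lam =ᶠ[𝓝 z] fun _ => 0 := by
  have : ∀ᶠ y in 𝓝 z, 1 < lam * ‖y‖ :=
    (continuous_const.mul continuous_norm).continuousAt.eventually (lt_mem_nhds hz)
  filter_upwards [this] with y hy
  exact phi1_eq_zero m hl hy.le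

theorem phi1_compact (m : ℕ) {lam : ℝ} (hl : 1 ≤ lam) : HasCompactSupport (phi1 m lam) := by
  refine HasCompactSupport.intro (isCompact_closedBall (0 : P) 1) fun z hz => ?_
  rw [mem_closedBall_zero_iff, not_le] at hz
  exact phi1_eq_zero m (by linarith) (by nlinarith)

theorem integral_phi1 (m : ℕ) {lam : ℝ} (hl : 1 ≤ lam) :
    (lam ^ (m + 2))⁻¹ / (4 * lam ^ 2) ≤ ∫ z, phi1 m lam z := by
  have hl0 : 0 < lam := by linarith
  have hi : Integrable (phi1 m lam) :=
    (contDiff_phi1 m lam).continuous.integrable_of_hasCompactSupport (phi1_compact m hl)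
  have hr : 0 < 1 / (4 * lam) := by positivity
  have hv : (volume : Measure P).real (sq (1 / (4 * lam))) = 1 / (4 * lam ^ 2) := by
    rw [sq, show (0 : P) = ((0 : ℝ), (0 : ℝ)) from rfl, ← ball_prod_same, Measure.volume_eq_prod,
      measureReal_prod_prod, Real.volume_real_ball hr.le]
    field_simp
    norm_num
  calc (lam ^ (m + 2))⁻¹ / (4 * lam ^ 2)
      = ∫ _ in sq (1 / (4 * lam)), (lam ^ (m + 2))⁻¹ := by
        rw [setIntegral_const, hv, smul_eq_mul]; ring
    _ = ∫ z in sq (1 / (4 * lam)), phi1 m lam z := by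
        refine setIntegral_congr_fun (measurableSet_sq _) fun z hz => ?_
        obtain ⟨h1, h2⟩ := mem_sq'.1 hz
        rw [lt_div_iff₀ (by positivity)] at h1 h2
        have h3 : lam ^ 2 * rs z ≤ 1 / 4 := by
          have e : lam ^ 2 * rs z = (|z.1| * lam) ^ 2 + (|z.2| * lam) ^ 2 := by
            rw [rs, mul_pow, mul_pow, sq_abs, sq_abs]; ring
          have a1 : 0 ≤ |z.1| * lam := by positivity
          have a2 : 0 ≤ |z.2| * lam := by positivity
          rw [e]; nlinarith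
        have h4 : 0 ≤ lam ^ 2 * rs z := by rw [rs]; positivity
        have : bump (lam ^ 2 * rs z) = 1 := bump.one_of_mem_closedBall (by
          rw [mem_closedBall_zero_iff, Real.norm_eq_abs, abs_of_nonneg h4]; exact h3)
        simp only [phi1, this, mul_one]
    _ ≤ ∫ z, phi1 m lam z :=
        setIntegral_le_integral hi (Eventually.of_forall (phi1_nonneg m hl0))

/-- The integration-by-parts step. -/
theorem core (m : ℕ) {lam D : ℝ} (hl : 2 ≤ lam) (hD : 2 * D ≤ lam ^ 2) {I H : P → ℝ}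
    (hI : ∀ z ∈ sq 4, ContinuousAt I z) (hH : ∀ z ∈ sq 4, ContDiffAt ℝ ∞ H z)
    (hIH : ∀ z ∈ sq 1, I z ≤ D * phi1 m lam z
      - lam ^ 2 * ((d1 (d1 (phi1 m lam)) z + d2 (d2 (phi1 m lam)) z) * H z))
    (hlap : ∀ z, lam * ‖z‖ < 1 → 1 ≤ d1 (d1 H) z + d2 (d2 H) z) :
    ∫ z in sq 1, I z ≤ - (1 / 8) * (lam ^ (m + 2))⁻¹ := by
  have hl0 : 0 < lam := by linarith
  obtain ⟨G, hG, hGH⟩ := exists_ext hH
  have hf := contDiff_phi1 m lam
  have hc := phi1_compact m (show 1 ≤ lam by linarith)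
  set f := phi1 m lam with hfdef
  have hc2 : ∀ e, HasCompactSupport (dv e (dv e f)) := fun e =>
    (hc.fderiv_apply ℝ e).fderiv_apply ℝ e
  have i0 : Integrable f := hf.continuous.integrable_of_hasCompactSupport hc
  have i1 : ∀ e, Integrable fun z => dv e (dv e f) z * G z := fun e =>
    ((contDiff_dv (contDiff_dv hf)).mul hG).continuous.integrable_of_hasCompactSupport
      (hc2 e).mul_right
  have i2 : ∀ e, Integrable fun z => f z * dv e (dv e G) z := fun e =>
    (hf.mul (contDiff_dv (contDiff_dv hG))).continuous.integrable_of_hasCompactSupport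
      hc.mul_right
  have iU : Integrable fun z => D * f z
      - lam ^ 2 * (dv (1, 0) (dv (1, 0) f) z * G z + dv (0, 1) (dv (0, 1) f) z * G z) :=
    (i0.const_mul D).sub (((i1 _).add (i1 _)).const_mul _)
  have iI : IntegrableOn I (sq 1) := by
    refine (ContinuousOn.integrableOn_compact (isCompact_closedBall (0 : P) 1) ?_).mono_set
      Metric.ball_subset_closedBall
    intro z hz
    rw [mem_closedBall_zero_iff] at hz
    exact (hI z (mem_sq.2 (by linarith))).continuousWithinAt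
  calc ∫ z in sq 1, I z ≤ ∫ z in sq 1, (D * f z
        - lam ^ 2 * (dv (1, 0) (dv (1, 0) f) z * G z + dv (0, 1) (dv (0, 1) f) z * G z)) := by
        refine setIntegral_mono_on iI iU.integrableOn (measurableSet_sq _) fun z hz => ?_
        have h2 : z ∈ sq 2 := mem_sq.2 (by linarith [mem_sq.1 hz])
        rw [(hGH z h2).self_of_nhds, ← add_mul]
        exact hIH z hz
    _ = ∫ z, (D * f z
        - lam ^ 2 * (dv (1, 0) (dv (1, 0) f) z * G z + dv (0, 1) (dv (0, 1) f) z * G z)) := by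
        refine setIntegral_eq_integral_of_forall_compl_eq_zero fun z hz => ?_
        rw [mem_sq, not_lt] at hz
        have h1 : f =ᶠ[𝓝 z] fun _ => 0 := phi1_ev m hl0 (by nlinarith)
        have h2 : ∀ e, dv e (dv e f) z = 0 := fun e => by
          rw [(dv_congr (dv_congr h1)).self_of_nhds,
            show dv e (fun _ : P => (0 : ℝ)) = fun _ => 0 from funext fun _ => dv_const 0, dv_const]
        rw [h1.self_of_nhds, h2, h2]; ring
    _ = ∫ z, (D * f z
        - lam ^ 2 * (f z * dv (1, 0) (dv (1, 0) G) z + f z * dv (0, 1) (dv (0, 1) G) z)) := by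
        have j1 : Integrable fun z => lam ^ 2 *
            (dv (1, 0) (dv (1, 0) f) z * G z + dv (0, 1) (dv (0, 1) f) z * G z) :=
          ((i1 _).add (i1 _)).const_mul _
        have j2 : Integrable fun z => lam ^ 2 *
            (f z * dv (1, 0) (dv (1, 0) G) z + f z * dv (0, 1) (dv (0, 1) G) z) :=
          ((i2 _).add (i2 _)).const_mul _
        rw [integral_sub (i0.const_mul D) j1, integral_sub (i0.const_mul D) j2,
          integral_const_mul (lam ^ 2), integral_const_mul (lam ^ 2),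
          integral_add (i1 _) (i1 _), integral_add (i2 _) (i2 _), parts2 hf hc hG, parts2 hf hc hG]
    _ ≤ ∫ z, - (lam ^ 2 / 2) * f z := by
        refine integral_mono ((i0.const_mul D).sub (((i2 _).add (i2 _)).const_mul _))
          (i0.const_mul _) fun z => ?_
        have h0 : 0 ≤ f z := phi1_nonneg m hl0 z
        by_cases hz : lam * ‖z‖ < 1
        · have h2 : z ∈ sq 2 := mem_sq.2 (by nlinarith [norm_nonneg z])
          have h3 := hlap z hz
          rw [d1_eq, d1_eq, d2_eq, d2_eq] at h3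
          simp only
          rw [(dv_congr (dv_congr (hGH z h2))).self_of_nhds,
            (dv_congr (dv_congr (hGH z h2))).self_of_nhds, ← mul_add]
          have h4 := mul_le_mul_of_nonneg_left h3 h0
          have h5 := mul_le_mul_of_nonneg_left h4 (sq_nonneg lam)
          have h6 := mul_le_mul_of_nonneg_right hD h0
          linarith
        · have h1 : f z = 0 := phi1_eq_zero m hl0 (not_lt.1 hz)
          simp [h1]
    _ ≤ - (1 / 8) * (lam ^ (m + 2))⁻¹ := by
        rw [integral_const_mul]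
        have h1 := integral_phi1 m (show 1 ≤ lam by linarith)
        rw [div_le_iff₀ (by positivity)] at h1
        linarith

theorem phi0_le {ε : ℝ} (hε : 0 ≤ ε) (hε1 : ε ≤ 1) {z : P} (hz : ‖z‖ ≤ 1) : phi0 ε z ≤ 1 / 4 := by
  have h0 : 0 ≤ rs z := by rw [rs]; positivity
  have h1 : rs z / 4 - rs z ^ 2 / 16 ≤ 1 / 4 := by nlinarith [sq_nonneg (rs z - 2)]
  have h2 : rs z ≤ 2 := by
    have a1 := (abs_fst_le z).trans hz
    have a2 := (abs_snd_le z).trans hz
    rw [rs, ← sq_abs z.1, ← sq_abs z.2]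
    nlinarith [abs_nonneg z.1, abs_nonneg z.2]
  have h3 : 0 ≤ rs z / 4 - rs z ^ 2 / 16 := by nlinarith
  have h4 : cut (rs z) * (rs z / 4 - rs z ^ 2 / 16) ≤ 1 / 4 :=
    (mul_le_of_le_one_left h3 cut.le_one).trans h1
  have h5 : 0 ≤ cut (rs z) * (rs z / 4 - rs z ^ 2 / 16) := mul_nonneg cut.nonneg h3
  simp only [phi0, prof0]
  nlinarith

end MainOf

open MainOf in
theorem mainOf (hP : StmtPhi) : StmtMainOf := by
  rintro ⟨η, hη, hη1, hE⟩
  refine ⟨η, hη, fun a0 ha0 m ε hε hεη hεa => ?_⟩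
  obtain ⟨M, hM⟩ := hE a0 ha0
  obtain ⟨sm0, sm, hdw, -⟩ := hP
  choose C hC using hdw
  -- one constant for everything
  obtain ⟨N, hN1, hNM, hNa, hNC⟩ : ∃ N : ℝ, 1 ≤ N ∧ M ≤ N ∧ a0⁻¹ ≤ N ∧
      ∀ w : List Bool, w.length ≤ 2 → |C w| ≤ N := by
    obtain ⟨N0, hN0⟩ := ((List.finite_length_le Bool 2).image fun w => |C w|).bddAbove
    exact ⟨max (max 1 M) (max a0⁻¹ N0), by simp, by simp, by simp, fun w hw =>
      (hN0 (mem_image_of_mem _ hw)).trans (by simp)⟩
  obtain ⟨B, hB⟩ := unif N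
  refine ⟨1 / 8, by norm_num, max (max 2 η⁻¹) (max (100 * (B * B)) (144 * (N * B))),
    fun lam hlam t Y f H => ?_⟩
  simp only [max_le_iff] at hlam
  obtain ⟨⟨hl2, hlη⟩, hlB, hlN⟩ := hlam
  have hl0 : 0 < lam := by linarith
  have hl1 : 1 ≤ lam := by linarith
  have hε1 : ε ≤ 1 := by linarith
  have hφ0 : |phi ε m lam 0| ≤ η := by
    have h1 : phi0 ε 0 = 0 := by simp [phi0, prof0, rs]
    have h2 : phi1 m lam 0 ≤ (lam ^ (m + 2))⁻¹ :=
      mul_le_of_le_one_right (by positivity) bump.le_one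
    have h3 : (lam ^ (m + 2))⁻¹ ≤ η := by
      rw [inv_le_comm₀ (by positivity) hη]
      exact hlη.trans (le_self_pow₀ hl1 (by omega))
    rw [phi_eq]
    simp only [h1, zero_add]
    rw [abs_of_nonneg (phi1_nonneg m hl0 0)]
    exact h2.trans h3
  have est := hM _ t Y f hφ0 H
  have h04 : (0 : P) ∈ sq 4 := mem_sq.2 (by simp)
  set a := aa f with ha
  have haa : a0 ≤ a := H.ha0
  have ha' : 0 < a := ha0.trans_le haa
  have ha1 : a ≤ 1 / 100 :=
    ((le_abs_self _).trans (H.bd [true, true] (by simp) (by simp) 0 h04).2.2).trans hη1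
  have hc : |a⁻¹| ≤ N := by
    rw [abs_of_pos (inv_pos.2 ha')]
    exact (inv_anti₀ ha0 haa).trans hNa
  have hc0 : 0 ≤ √ε / a := by positivity
  have hc1 : √ε / a ≤ 1 := by
    rw [div_le_one ha', Real.sqrt_le_left ha'.le]
    exact hεa.trans (pow_le_pow_left₀ ha0.le haa 2)
  have hc' : |-(√ε / a)| ≤ N := by rw [abs_neg, abs_of_nonneg hc0]; linarith
  have hJ : ∀ z ∈ sq 4, 9 / 10 ≤ Jx t Y z := by
    intro z hz
    obtain ⟨h1, h2, h3, h4, -⟩ := est z hz
    have h5 := (abs_le.1 (abs_mul_le' h2 h3)).2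
    rw [abs_le] at h1 h4
    simp only [Jx]
    nlinarith [h1.1, h4.1]
  have smJ : ContDiff ℝ ∞ (Jx t Y) := by
    have := H.smt; have := H.smY
    unfold Jx; fun_prop
  have smp : ∀ z ∈ sq 4, ContDiffAt ℝ ∞ (px t Y f) z := by
    intro z hz
    have h1 : ContDiff ℝ ∞ fun z => d1 t z * d2 f z - d2 t z * d1 f z := by
      have := H.smt; have := H.smf
      fun_prop
    exact h1.contDiffAt.div smJ.contDiffAt (by linarith [hJ z hz])
  have smq : ∀ z ∈ sq 4, ContDiffAt ℝ ∞ (qx t Y f) z := by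
    intro z hz
    have h1 : ContDiff ℝ ∞ fun z => d1 f z * d2 Y z - d2 f z * d1 Y z := by
      have := H.smY; have := H.smf
      fun_prop
    exact h1.contDiffAt.div smJ.contDiffAt (by linarith [hJ z hz])
  set Ω := Om' (phi0 ε) (px t Y f) (qx t Y f) (Jx t Y) a⁻¹ with hΩ
  set s : P → ℝ := fun z => px t Y f z * a⁻¹ + -(√ε / a) * t z with hs
  have bd0 : ∀ w : List Bool, w.length ≤ 2 → ∀ z, |dw w (phi0 ε) z| ≤ N := by
    intro w hw z
    refine ((hC w ε m lam hε.le hl1 z).1.trans ?_).trans (hNC w hw)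
    exact (mul_le_mul_of_nonneg_right (le_abs_self _) hε.le).trans
      (mul_le_of_le_one_right (abs_nonneg _) hε1)
  have bd1 : ∀ w : List Bool, w.length = 2 → ∀ z, |dw w (phi ε m lam) z| ≤ 2 * N := by
    intro w hw z
    have h1 := (hC w ε m lam hε.le hl1 z).2
    have h2 : lam ^ w.length / lam ^ (m + 2) ≤ 1 := by
      rw [div_le_one (by positivity), hw]
      exact pow_le_pow_right₀ hl1 (by omega)
    have h3 : C w * (lam ^ w.length / lam ^ (m + 2)) ≤ N :=
      ((mul_le_mul_of_nonneg_right (le_abs_self _) (by positivity)).trans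
        (mul_le_of_le_one_right (abs_nonneg _) h2)).trans (hNC w hw.le)
    have h4 := bd0 w hw.le z
    have h5 := abs_sub_abs_le_abs_sub (dw w (phi ε m lam) z) (dw w (phi0 ε) z)
    linarith
  have bd : ∀ z ∈ sq 4, ∀ e : P, e = (1, 0) ∨ e = (0, 1) → Bd e B Ω z ∧ Bd e B s z := by
    intro z hz e he
    have hw := (est z hz).2.2.2.2.2.2.2.2.2
    exact hB e z _ _ _ _ _ _ _ (Bd.of_dw (sm0 ε).contDiffAt (fun w hw' => bd0 w hw' z) he)
      (Bd.of_dw (smp z hz) (fun w hw' => (hw w hw').1.trans hNM) he)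
      (Bd.of_dw (smq z hz) (fun w hw' => (hw w hw').2.1.trans hNM) he)
      (Bd.of_dw smJ.contDiffAt (fun w hw' => (hw w hw').2.2.1.trans hNM) he)
      (Bd.of_dw H.smt.contDiffAt (fun w hw' => (hw w hw').2.2.2.trans hNM) he) hc hc'
  have hB0 : 0 ≤ B := (bd 0 h04 _ (Or.inl rfl)).1.nonneg
  have ds : ∀ z ∈ sq 4, ∀ e, dv e s z = dv e (px t Y f) z / a - √ε / a * dv e t z := by
    intro z hz e
    have h1 := diffAt (smp z hz)
    have h2 := diffAt (H.smt.contDiffAt (x := z))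
    rw [hs, dv_add (h1.mul_const _) (h2.const_mul _), dv_mul h1 (differentiableAt_const _),
      dv_const, dv_const_mul _ h2]
    ring
  have ds2 : ∀ z ∈ sq 4, |d1 s z| + |d2 s z| ≤ 3 ∧ 9 / 10 ≤ d2 s z := by
    intro z hz
    obtain ⟨h1, h2, -, -, h5, h6, -⟩ := est z hz
    have e1 : d1 s z = d1 (px t Y f) z / a - √ε / a * d1 t z := ds z hz _
    have e2 : d2 s z = d2 (px t Y f) z / a - √ε / a * d2 t z := ds z hz _
    have hcc : |√ε / a| ≤ 1 := by rwa [abs_of_nonneg hc0]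
    have h7 := abs_le.1 (abs_mul_le' hcc h2)
    have h8 : |d1 t z| ≤ 101 / 100 := by
      rw [abs_le] at h1 ⊢; constructor <;> linarith [h1.1, h1.2]
    have h9 := abs_le.1 (abs_mul_le' hcc h8)
    rw [abs_le] at h5 h6
    have h10 : |d1 s z| ≤ 3 / 2 := by
      rw [e1, abs_le]; constructor <;> linarith [h5.1, h5.2, h9.1, h9.2]
    have h11 : |d2 s z| ≤ 3 / 2 := by
      rw [e2, abs_le]; constructor <;> linarith [h6.1, h6.2, h7.1, h7.2]
    exact ⟨by linarith, by rw [e2]; linarith [h6.1, h7.2]⟩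
  have s0 : s 0 = 0 := by simp [hs, px, H.t0, H.fx0, H.fy0]
  have hsb : ∀ z, lam * ‖z‖ < 1 → z ∈ sq 4 ∧ ‖z‖ ≤ 1 ∧ |s z| ≤ 3 / lam := by
    intro z hz
    have h1 : ‖z‖ ≤ 1 := by nlinarith [norm_nonneg z]
    have h2 : z ∈ sq 4 := mem_sq.2 (by linarith)
    refine ⟨h2, h1, ?_⟩
    have := abs_sub_le_of_d (fun z hz => diffAt (bd z hz _ (Or.inl rfl)).2.sm)
      (fun z hz => (ds2 z hz).1) h04 h2
    rw [s0, sub_zero, sub_zero] at this
    rw [le_div_iff₀ hl0]
    nlinarith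
  have hΩ1 : ∀ z ∈ sq 4, ‖z‖ ≤ 1 → 2 ≤ Ω z := by
    intro z hz hz1
    have h1 : 1 / 2 ≤ Real.exp (-2 * phi0 ε z) := by
      have := Real.add_one_le_exp (-2 * phi0 ε z)
      linarith [phi0_le hε.le hε1 hz1]
    have h2 : 1 ≤ 1 + px t Y f z * px t Y f z + qx t Y f z * qx t Y f z := by
      nlinarith [mul_self_nonneg (px t Y f z), mul_self_nonneg (qx t Y f z)]
    have h3 : 100 ≤ a⁻¹ := by
      rw [le_inv_comm₀ (by norm_num) ha']; linarith
    calc (2 : ℝ) ≤ 1 / 2 * (1 * 1) * (100 * 100) * (9 / 10) := by norm_num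
      _ ≤ Ω z := by
        simp only [hΩ, Om']
        have := hJ z hz
        gcongr
  have key : ∀ z, (lam * (px t Y f z / a - √ε / a * t z)) ^ 2 *
      ((Kf (phi ε m lam) z - Kf (phi0 ε) z) * Wx t Y f z ^ 2 / a ^ 2) * Jx t Y z
      = (lam * s z) ^ 2 * ((1 - Real.exp (-2 * phi1 m lam z)) *
          ((d1 (d1 (phi ε m lam)) z + d2 (d2 (phi ε m lam)) z) * Ω z))
        - lam ^ 2 * ((d1 (d1 (phi1 m lam)) z + d2 (d2 (phi1 m lam)) z) * (s z * s z * Ω z)) := by
    intro z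
    have e1 : d1 (d1 (phi ε m lam)) z = d1 (d1 (phi0 ε)) z + d1 (d1 (phi1 m lam)) z :=
      dv2_add (sm0 ε).contDiffAt (contDiff_phi1 m lam).contDiffAt
    have e2 : d2 (d2 (phi ε m lam)) z = d2 (d2 (phi0 ε)) z + d2 (d2 (phi1 m lam)) z :=
      dv2_add (sm0 ε).contDiffAt (contDiff_phi1 m lam).contDiffAt
    have e3 : Real.exp (-2 * phi ε m lam z)
        = Real.exp (-2 * phi0 ε z) * Real.exp (-2 * phi1 m lam z) := by
      rw [← Real.exp_add, phi_eq]; congr 1; ring
    simp only [Kf, e1, e2, e3, hΩ, hs, Om', Wx]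
    ring
  simp only [key]
  refine core m (D := 72 * (N * B)) (H := fun z => s z * s z * Ω z) hl2 (by nlinarith)
    (fun z hz => ?_) (fun z hz => ?_) (fun z hz => ?_) (fun z hz => ?_)
  · have h1 := (bd z hz _ (Or.inl rfl)).1.sm.continuousAt
    have h2 := (bd z hz _ (Or.inl rfl)).2.sm.continuousAt
    have h3 := (contDiff_phi1 m lam).continuous.continuousAt (x := z)
    have h4 := (contDiff_d1 (contDiff_d1 (contDiff_phi1 m lam))).continuous.continuousAt (x := z)
    have h5 := (contDiff_d2 (contDiff_d2 (contDiff_phi1 m lam))).continuous.continuousAt (x := z)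
    have h6 := (contDiff_d1 (contDiff_d1 (sm ε m lam))).continuous.continuousAt (x := z)
    have h7 := (contDiff_d2 (contDiff_d2 (sm ε m lam))).continuous.continuousAt (x := z)
    fun_prop
  · obtain ⟨h1, h2⟩ := bd z hz _ (Or.inl rfl)
    exact (h2.sm.mul h2.sm).mul h1.sm
  · refine sub_le_sub_right ?_ _
    by_cases hz' : lam * ‖z‖ < 1
    · obtain ⟨h1, -, h3⟩ := hsb z hz'
      have h0 := phi1_nonneg m hl0 z
      have h4 : |(lam * s z) ^ 2| ≤ 9 := by
        rw [le_div_iff₀ hl0] at h3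
        rw [abs_of_nonneg (sq_nonneg _), mul_pow, ← sq_abs (s z), ← mul_pow]
        nlinarith [mul_nonneg hl0.le (abs_nonneg (s z))]
      have h5 : |1 - Real.exp (-2 * phi1 m lam z)| ≤ 2 * phi1 m lam z := by
        have := Real.add_one_le_exp (-2 * phi1 m lam z)
        have : Real.exp (-2 * phi1 m lam z) ≤ 1 := Real.exp_le_one_iff.2 (by linarith)
        rw [abs_le]; constructor <;> linarith
      have h6 : |d1 (d1 (phi ε m lam)) z + d2 (d2 (phi ε m lam)) z| ≤ 2 * N + 2 * N :=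
        (abs_add_le _ _).trans (add_le_add (bd1 [false, false] rfl z) (bd1 [true, true] rfl z))
      have h7 := (bd z h1 _ (Or.inl rfl)).1.b0
      have h8 := (le_abs_self _).trans (abs_mul_le' h4 (abs_mul_le' h5 (abs_mul_le' h6 h7)))
      linarith
    · have h1 : phi1 m lam z = 0 := phi1_eq_zero m hl0 (not_lt.1 hz')
      simp [h1]
  · obtain ⟨h1, h2, h3⟩ := hsb z hz
    have l1 := lap_lb (bd z h1 _ (Or.inl rfl)).2 (bd z h1 _ (Or.inl rfl)).1 h3
    have l2 := lap_lb (bd z h1 _ (Or.inr rfl)).2 (bd z h1 _ (Or.inr rfl)).1 h3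
    have h4 := hΩ1 z h1 h2
    have h5 : 9 / 10 ≤ dv (0, 1) s z := (ds2 z h1).2
    have h6 : 3 / lam * (7 * (B * B)) ≤ 1 / 4 := by
      rw [div_mul_eq_mul_div, div_le_iff₀ hl0]; linarith
    have h7 : 0 ≤ 2 * dv (1, 0) s z ^ 2 * Ω z := by positivity
    have h8 : 2 * (9 / 10) ^ 2 * 2 ≤ 2 * dv (0, 1) s z ^ 2 * Ω z := by gcongr
    rw [d1_eq, d1_eq, d2_eq, d2_eq]
    linarith

end Crest.Agent.R220
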