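import Crest.Agent.R220.Basic

/-! A2: on the `V`-shaped curve the second derivative of an immersion cannot vanish identically. -/

set_option autoImplicit false
open scoped ContDiff Topology
open Set

namespace Crest.Agent.R220

namespace NonFlat

/-- along a ray on which the second derivative vanishes the map is affine -/
theorem ray {U : Set E2} {F : E2 → E3} (hU : IsOpen U) (hF : ContDiffOn ℝ ∞ F U) (b : E2)
    (hb : ∀ s ∈ Icc (0 : ℝ) 1, s • b ∈ U ∧ fderiv ℝ (fderiv ℝ F) (s • b) = 0) :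
    F b - F 0 = fderiv ℝ F 0 b := by
  have hat : ∀ s ∈ Icc (0 : ℝ) 1, ContDiffAt ℝ ∞ F (s • b) := fun s hs =>
    hF.contDiffAt (hU.mem_nhds (hb s hs).1)
  have hl : ∀ s : ℝ, HasDerivAt (fun s : ℝ => s • b) b s := fun s => by
    simpa using (hasDerivAt_id s).smul_const b
  have hG : ∀ s ∈ Icc (0 : ℝ) 1, HasDerivAt (fun s : ℝ => fderiv ℝ F (s • b)) 0 s := by
    intro s hs
    have hd : DifferentiableAt ℝ (fderiv ℝ F) (s • b) :=
      ((hat s hs).fderiv_right (m := 1) (by norm_cast)).differentiableAt (by norm_num)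
    have := hd.hasFDerivAt.comp_hasDerivAt s (hl s)
    rw [(hb s hs).2] at this
    exact this
  have hGc : ∀ s ∈ Icc (0 : ℝ) 1, fderiv ℝ F (s • b) = fderiv ℝ F 0 := by
    have := constant_of_has_deriv_right_zero (f := fun s : ℝ => fderiv ℝ F (s • b)) (a := 0) (b := 1)
      (fun s hs => (hG s hs).continuousAt.continuousWithinAt)
      (fun s hs => (hG s (Ico_subset_Icc_self hs)).hasDerivWithinAt)
    intro s hs
    simpa using this s hs
  have hH : ∀ s ∈ Icc (0 : ℝ) 1,
      HasDerivAt (fun s : ℝ => F (s • b) - s • fderiv ℝ F 0 b) 0 s := by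
    intro s hs
    have hd : DifferentiableAt ℝ F (s • b) := (hat s hs).differentiableAt (by simp)
    have h1 := hd.hasFDerivAt.comp_hasDerivAt s (hl s)
    rw [hGc s hs] at h1
    have h2 : HasDerivAt (fun s : ℝ => s • fderiv ℝ F 0 b) (fderiv ℝ F 0 b) s := by
      simpa using (hasDerivAt_id s).smul_const (fderiv ℝ F 0 b)
    have h3 := h1.sub h2
    rw [sub_self] at h3
    exact h3
  have := constant_of_has_deriv_right_zero
    (f := fun s : ℝ => F (s • b) - s • fderiv ℝ F 0 b) (a := 0) (b := 1)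
    (fun s hs => (hH s hs).continuousAt.continuousWithinAt)
    (fun s hs => (hH s (Ico_subset_Icc_self hs)).hasDerivWithinAt) 1 (by simp)
  simp only [one_smul, zero_smul, sub_zero] at this
  rw [← this]
  abel

end NonFlat

theorem nonFlat : StmtNonFlat := by
  intro Φ U F _ hΦ0 hΦ hU h0 hF hiso
  by_contra hcon
  push Not at hcon
  obtain ⟨r, hr, hball⟩ := Metric.isOpen_iff.1 hU 0 h0
  set R : ℝ := r / 2 with hR
  have hR0 : 0 < R := by positivity
  have hmem : ∀ x : E2, |x 0| ≤ R → |x 1| ≤ R → x ∈ U := by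
    intro x h1 h2
    apply hball
    rw [mem_ball_zero_iff, EuclideanSpace.norm_eq, Fin.sum_univ_two, Real.norm_eq_abs,
      Real.norm_eq_abs, Real.sqrt_lt' hr]
    have h3 := pow_le_pow_left₀ (abs_nonneg _) h1 2
    have h4 := pow_le_pow_left₀ (abs_nonneg _) h2 2
    have h5 : r = 2 * R := by rw [hR]; ring
    rw [h5]
    nlinarith
  set e0 : E2 := !₂[1, 0] with he0
  set e1 : E2 := !₂[0, R] with he1
  have hpt0 : ∀ s : ℝ, (s • e0 + e1) 0 = s := fun s => by simp [he0, he1]
  have hpt1 : ∀ s : ℝ, (s • e0 + e1) 1 = R := fun s => by simp [he0, he1]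
  have hray : ∀ t : ℝ, |t| = R → F (t • e0 + e1) - F 0 = fderiv ℝ F 0 (t • e0 + e1) := by
    intro t ht
    refine NonFlat.ray hU hF _ fun s hs => ?_
    have h1 : |(s • (t • e0 + e1)) 0| = s * R := by
      rw [PiLp.smul_apply, hpt0, smul_eq_mul, abs_mul, ht, abs_of_nonneg hs.1]
    have h2 : (s • (t • e0 + e1)) 1 = s * R := by
      rw [PiLp.smul_apply, hpt1, smul_eq_mul]
    have h3 : s * R ≤ R := by nlinarith [hs.2]
    have h4 : s • (t • e0 + e1) ∈ U :=
      hmem _ (by rw [h1]; exact h3)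
        (by rw [h2, abs_of_nonneg (mul_nonneg hs.1 hR0.le)]; exact h3)
    exact ⟨h4, hcon _ h4 (by rw [h1, h2])⟩
  set u : E3 := fderiv ℝ F 0 e0 with hu
  have he : inner ℝ e0 e0 = (1 : ℝ) := by
    simp [he0, EuclideanSpace.norm_eq, Fin.sum_univ_two]
  have huu : inner ℝ u u = (1 : ℝ) := by
    rw [hu, hiso 0 h0, hΦ0, he]; simp
  have hun : ‖u‖ = 1 := by
    have h1 : ‖u‖ ^ 2 = 1 := by rw [← real_inner_self_eq_norm_sq, huu]
    exact (pow_eq_one_iff_of_nonneg (norm_nonneg _) two_ne_zero).1 h1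
  have hdiff : F (R • e0 + e1) - F ((-R) • e0 + e1) = (2 * R) • u := by
    have h1 := hray R (abs_of_pos hR0)
    have h2 := hray (-R) (by rw [abs_neg, abs_of_pos hR0])
    have h3 : F (R • e0 + e1) - F ((-R) • e0 + e1) =
        (F (R • e0 + e1) - F 0) - (F ((-R) • e0 + e1) - F 0) := by abel
    rw [h3, h1, h2, ← map_sub, hu, ← map_smul]
    congr 1
    module
  have hder : ∀ s ∈ Icc (-R) R, HasDerivAt (fun s : ℝ => inner ℝ u (F (s • e0 + e1)))
      (inner ℝ u (fderiv ℝ F (s • e0 + e1) e0)) s := by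
    intro s hs
    have hm : s • e0 + e1 ∈ U :=
      hmem _ (by rw [hpt0]; exact abs_le.2 hs) (by rw [hpt1, abs_of_pos hR0])
    have hd : DifferentiableAt ℝ F (s • e0 + e1) :=
      (hF.contDiffAt (hU.mem_nhds hm)).differentiableAt (by simp)
    have hl : HasDerivAt (fun s : ℝ => s • e0 + e1) e0 s := by
      simpa using ((hasDerivAt_id s).smul_const e0).add_const e1
    have h1 := hd.hasFDerivAt.comp_hasDerivAt s hl
    exact (innerSL ℝ u).hasFDerivAt.comp_hasDerivAt s h1
  obtain ⟨s, hs, hslope⟩ := exists_hasDerivAt_eq_slope (fun s : ℝ => inner ℝ u (F (s • e0 + e1)))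
    (fun s => inner ℝ u (fderiv ℝ F (s • e0 + e1) e0)) (by linarith : -R < R)
    (fun s hs => (hder s hs).continuousAt.continuousWithinAt)
    (fun s hs => hder s (Ioo_subset_Icc_self hs))
  rw [← inner_sub_right, hdiff, inner_smul_right, huu] at hslope
  have h1 : inner ℝ u (fderiv ℝ F (s • e0 + e1) e0) = (1 : ℝ) := by
    rw [hslope]; field_simp; ring
  have hm : s • e0 + e1 ∈ U :=
    hmem _ (by rw [hpt0]; exact abs_le.2 (Ioo_subset_Icc_self hs)) (by rw [hpt1, abs_of_pos hR0])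
  have h2 := hiso _ hm e0 e0
  rw [he, mul_one, real_inner_self_eq_norm_sq] at h2
  have h3 : Φ (s • e0 + e1) < 0 := hΦ _ (by rw [hpt0, hpt1]; exact abs_lt.2 hs)
  have h4 : Real.exp (2 * Φ (s • e0 + e1)) < 1 := Real.exp_lt_one_iff.2 (by linarith)
  have h5 := real_inner_le_norm u (fderiv ℝ F (s • e0 + e1) e0)
  rw [h1, hun, one_mul] at h5
  nlinarith

end Crest.Agent.R220
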