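import Crest.Agent.R220.Basic

/-! # R220: normalisation of an immersion near a point with `D²F ≠ 0` -/

set_option autoImplicit false
open scoped ContDiff Topology RealInnerProductSpace
open Set Filter

namespace Crest.Agent.R220

namespace Normalize

/-! ### linear algebra -/

theorem exists_diag (B : E2 →L[ℝ] E2 →L[ℝ] E3) (hB : ∀ u v, B u v = B v u) (n : E3) :
    ∃ v : OrthonormalBasis (Fin 2) ℝ E2, ⟪n, B (v 0) (v 1)⟫ = 0 ∧
      |⟪n, B (v 0) (v 0)⟫| ≤ |⟪n, B (v 1) (v 1)⟫| := by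
  let T : E2 →ₗ[ℝ] E2 :=
    { toFun := fun u => ContinuousLinearMap.adjoint (B u) n
      map_add' := fun u u' => by simp
      map_smul' := fun c u => by simp }
  have hT : ∀ u v, ⟪T u, v⟫ = ⟪n, B u v⟫ := fun u v =>
    ContinuousLinearMap.adjoint_inner_left (B u) v n
  have hs : T.IsSymmetric := fun u v => by rw [hT, real_inner_comm (T v) u, hT, hB]
  have hn : Module.finrank ℝ E2 = 2 := by simp
  set b := hs.eigenvectorBasis hn with hb
  have h01 : ⟪n, B (b 0) (b 1)⟫ = 0 := by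
    rw [← hT, hb, hs.apply_eigenvectorBasis, inner_smul_left, ← hb,
      b.orthonormal.2 (by decide : (0 : Fin 2) ≠ 1), mul_zero]
  rcases le_total |⟪n, B (b 0) (b 0)⟫| |⟪n, B (b 1) (b 1)⟫| with h | h
  · exact ⟨b, h01, h⟩
  · refine ⟨b.reindex (Equiv.swap 0 1), ?_, ?_⟩
    · simpa [hB (b 1)] using h01
    · simpa using h

theorem exists_normal (D : E2 →L[ℝ] E3) : ∃ n : E3, ‖n‖ = 1 ∧ ∀ w, ⟪n, D w⟫ = 0 := by
  have h1 : (LinearMap.range (D : E2 →ₗ[ℝ] E3))ᗮ ≠ ⊥ := by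
    rw [Ne, Submodule.orthogonal_eq_bot_iff]
    intro h
    have := LinearMap.finrank_range_le (D : E2 →ₗ[ℝ] E3)
    rw [h] at this
    simp at this
  obtain ⟨n, hn, hn0⟩ := Submodule.exists_mem_ne_zero_of_ne_bot h1
  refine ⟨‖n‖⁻¹ • n, norm_smul_inv_norm hn0, fun w => ?_⟩
  have hw : D w ∈ LinearMap.range (D : E2 →ₗ[ℝ] E3) := LinearMap.mem_range_self _ w
  rw [inner_smul_left, Submodule.inner_left_of_mem_orthogonal hw hn, mul_zero]

theorem frame (D : E2 →L[ℝ] E3) (B : E2 →L[ℝ] E2 →L[ℝ] E3) {E : ℝ} (hE : 0 < E)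
    (hD : ∀ v w, ⟪D v, D w⟫ = E * ⟪v, w⟫) (hB : ∀ u v, B u v = B v u)
    (hBD : ∀ u v w, ⟪B u v, D w⟫ = 0) :
    ∃ (v : OrthonormalBasis (Fin 2) ℝ E2) (e : OrthonormalBasis (Fin 3) ℝ E3),
      ⟪e 0, D (v 1)⟫ = 0 ∧ ⟪e 1, D (v 0)⟫ = 0 ∧ ⟪e 2, D (v 0)⟫ = 0 ∧ ⟪e 2, D (v 1)⟫ = 0 ∧
      0 < ⟪e 0, D (v 0)⟫ ∧ 0 < ⟪e 1, D (v 1)⟫ ∧ ⟪e 2, B (v 0) (v 1)⟫ = 0 ∧
      |⟪e 2, B (v 0) (v 0)⟫| ≤ ⟪e 2, B (v 1) (v 1)⟫ ∧ ‖B‖ ≤ 2 * ⟪e 2, B (v 1) (v 1)⟫ := by
  obtain ⟨n, v, hn1, hnD, h01, h00⟩ : ∃ (n : E3) (v : OrthonormalBasis (Fin 2) ℝ E2),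
      ‖n‖ = 1 ∧ (∀ w, ⟪n, D w⟫ = 0) ∧ ⟪n, B (v 0) (v 1)⟫ = 0 ∧
      |⟪n, B (v 0) (v 0)⟫| ≤ ⟪n, B (v 1) (v 1)⟫ := by
    obtain ⟨n, hn1, hnD⟩ := exists_normal D
    obtain ⟨v, h1, h2⟩ := exists_diag B hB n
    rcases le_total 0 ⟪n, B (v 1) (v 1)⟫ with h | h
    · exact ⟨n, v, hn1, hnD, h1, by rwa [abs_of_nonneg h] at h2⟩
    · refine ⟨-n, v, by simpa using hn1, fun w => by simp [hnD], by simp [h1], ?_⟩
      rw [inner_neg_left, inner_neg_left, abs_neg]
      rwa [abs_of_nonpos h] at h2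
  have hs : 0 < √E := Real.sqrt_pos.2 hE
  have hss : √E * √E = E := Real.mul_self_sqrt hE.le
  have v00 : ⟪v 0, v 0⟫ = 1 := by simp
  have v11 : ⟪v 1, v 1⟫ = 1 := by simp
  have v01 : ⟪v 0, v 1⟫ = 0 := v.orthonormal.2 (by decide)
  have v10 : ⟪v 1, v 0⟫ = 0 := v.orthonormal.2 (by decide)
  have hnD' : ∀ w, ⟪D w, n⟫ = 0 := fun w => by rw [real_inner_comm, hnD]
  have hnn : ⟪n, n⟫ = 1 := by rw [real_inner_self_eq_norm_sq, hn1]; norm_num
  have hinv : (√E)⁻¹ * ((√E)⁻¹ * E) = 1 := by field_simp; nlinarith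
  have horth : Orthonormal ℝ ![(√E)⁻¹ • D (v 0), (√E)⁻¹ • D (v 1), n] := by
    rw [orthonormal_iff_ite]
    intro i j
    fin_cases i <;> fin_cases j <;>
      simp [inner_smul_left, inner_smul_right, hD, v00, v11, v01, v10, hnD, hnD', hnn, hinv,
        -inner_self_eq_norm_sq_to_K]
  obtain ⟨e, he⟩ := Orthonormal.exists_orthonormalBasis_extension_of_card_eq (𝕜 := ℝ) (E := E3)
    (ι := Fin 3) (by simp) (v := ![(√E)⁻¹ • D (v 0), (√E)⁻¹ • D (v 1), n]) (s := univ)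
    (horth.comp _ Subtype.val_injective)
  have e0 : e 0 = (√E)⁻¹ • D (v 0) := he 0 trivial
  have e1 : e 1 = (√E)⁻¹ • D (v 1) := he 1 trivial
  have e2 : e 2 = n := he 2 trivial
  have hl2 : 0 ≤ ⟪n, B (v 1) (v 1)⟫ := (abs_nonneg _).trans h00
  refine ⟨v, e, ?_, ?_, ?_, ?_, ?_, ?_, ?_, ?_, ?_⟩
  · rw [e0, real_inner_smul_left, hD, v01]; simp
  · rw [e1, real_inner_smul_left, hD, v10]; simp
  · rw [e2, hnD]
  · rw [e2, hnD]
  · rw [e0, real_inner_smul_left, hD, v00]; positivity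
  · rw [e1, real_inner_smul_left, hD, v11]; positivity
  · rw [e2, h01]
  · rw [e2]; exact h00
  · rw [e2]
    refine ContinuousLinearMap.opNorm_le_bound₂ _ (by positivity) fun u w => ?_
    have h1 : B u w = ⟪n, B u w⟫ • n := by
      conv_lhs => rw [← e.sum_repr' (B u w), Fin.sum_univ_three, e0, e1, e2]
      rw [real_inner_smul_left, real_inner_smul_left, real_inner_comm, hBD, real_inner_comm, hBD]
      simp
    have h2 : ⟪n, B u w⟫ = ⟪v 0, u⟫ * ⟪v 0, w⟫ * ⟪n, B (v 0) (v 0)⟫ +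
        ⟪v 1, u⟫ * ⟪v 1, w⟫ * ⟪n, B (v 1) (v 1)⟫ := by
      conv_lhs => rw [← v.sum_repr' u, ← v.sum_repr' w, Fin.sum_univ_two, Fin.sum_univ_two]
      simp only [map_add, map_smul, add_apply, smul_apply, inner_add_right, real_inner_smul_right,
        hB (v 1) (v 0), h01]
      ring
    have h3 : ∀ i x, |⟪v i, x⟫| ≤ ‖x‖ := fun i x => by
      simpa using abs_real_inner_le_norm (v i) x
    have h4 : ∀ i, |⟪v i, u⟫ * ⟪v i, w⟫| ≤ ‖u‖ * ‖w‖ := fun i => by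
      rw [abs_mul]; exact mul_le_mul (h3 i u) (h3 i w) (abs_nonneg _) (norm_nonneg _)
    rw [h1, norm_smul, hn1, mul_one, Real.norm_eq_abs, h2]
    refine (abs_add_le _ _).trans ?_
    rw [abs_mul _ ⟪n, B (v 0) (v 0)⟫, abs_mul _ ⟪n, B (v 1) (v 1)⟫, abs_of_nonneg hl2]
    have a1 := mul_le_mul (h4 0) h00 (abs_nonneg _) (by positivity)
    have a2 := mul_le_mul_of_nonneg_right (h4 1) hl2
    linarith

/-! ### calculus -/

/-- the coordinate direction of a letter -/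
def dir : Bool → P
  | false => (1, 0)
  | true => (0, 1)

theorem dw_cons (b : Bool) (w : List Bool) (g : P → ℝ) :
    dw (b :: w) g = fun z => fderiv ℝ (dw w g) z (dir b) := by
  cases b <;> rfl

theorem dw_sub_const (g : P → ℝ) (k : ℝ) :
    ∀ w : List Bool, w ≠ [] → dw w (fun z => g z - k) = dw w g
  | [], h => (h rfl).elim
  | [b], _ => by
    rw [dw_cons, dw_cons]
    funext z
    rw [dw_nil, dw_nil, fderiv_sub_const]
  | b :: b' :: w, _ => by
    rw [dw_cons, dw_cons b, dw_sub_const g k (b' :: w) (List.cons_ne_nil _ _)]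

theorem dw_formula {G : E2 → E3} (hG : ContDiff ℝ ∞ G) (c : E2) (L : P →L[ℝ] E2)
    (ℓ : E3 →L[ℝ] ℝ) (w : List Bool) :
    dw w (fun z => ℓ (G (c + L z))) =
      fun z => ℓ (iteratedFDeriv ℝ w.length G (c + L z) fun i => L (dir (w.get i))) := by
  induction w with
  | nil => funext z; simp
  | cons b w ih =>
    rw [dw_cons, ih]
    funext z
    have h1 : HasFDerivAt (fun z => c + L z) L z := L.hasFDerivAt.const_add c
    have h2 := ((hG.differentiable_iteratedFDeriv (m := w.length)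
      (by exact_mod_cast ENat.natCast_lt_top _)) (c + L z)).hasFDerivAt
    have h3 := (ℓ.comp (ContinuousMultilinearMap.apply ℝ (fun _ : Fin w.length => E2) E3
      fun i => L (dir (w.get i)))).hasFDerivAt.comp z (h2.comp z h1)
    have h4 := h3.fderiv
    have e : (fun z => ℓ (iteratedFDeriv ℝ w.length G (c + L z) fun i => L (dir (w.get i)))) =
        (ℓ.comp (ContinuousMultilinearMap.apply ℝ (fun _ : Fin w.length => E2) E3
          fun i => L (dir (w.get i)))) ∘ ((fun x => iteratedFDeriv ℝ w.length G x) ∘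
            fun z => c + L z) := rfl
    rw [e, h4]
    rfl

theorem exists_smooth {U : Set E2} {F : E2 → E3} {x₀ : E2} (hU : IsOpen U) (hx : x₀ ∈ U)
    (hF : ContDiffOn ℝ ∞ F U) : ∃ r > (0 : ℝ), ∃ G : E2 → E3, ContDiff ℝ ∞ G ∧
      Metric.ball x₀ r ⊆ U ∧ ∀ x ∈ Metric.ball x₀ r, G x = F x := by
  obtain ⟨ε, hε, hb⟩ := Metric.isOpen_iff.1 hU x₀ hx
  let b : ContDiffBump x₀ := ⟨ε / 4, ε / 2, by positivity, by linarith⟩
  refine ⟨ε / 4, by positivity, fun x => b x • F x, ?_,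
    (Metric.ball_subset_ball (by linarith)).trans hb, fun x hx => ?_⟩
  · refine contDiff_iff_contDiffAt.2 fun x => ?_
    by_cases hxU : x ∈ U
    · exact b.contDiff.contDiffAt.smul (hF.contDiffAt (hU.mem_nhds hxU))
    · have h1 : x ∉ tsupport b := by
        rw [b.tsupport_eq]
        exact fun h => hxU (hb (Metric.closedBall_subset_ball (by
          show ε / 2 < ε
          linarith) h))
      refine (contDiffAt_const (c := (0 : E3))).congr_of_eventuallyEq ?_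
      filter_upwards [notMem_tsupport_iff_eventuallyEq.1 h1] with y hy
      simp [hy]
  · show b x • F x = F x
    rw [b.one_of_mem_closedBall (Metric.ball_subset_closedBall hx), one_smul]

theorem snd_symm {G : E2 → E3} (hG : ContDiff ℝ ∞ G) (c : E2) : IsSymmSndFDerivAt ℝ G c := by
  have h2 : ContDiffAt ℝ 2 G c := hG.contDiffAt.of_le (by norm_cast)
  exact h2.isSymmSndFDerivAt (by simp)

theorem koszul {G : E2 → E3} (hG : ContDiff ℝ ∞ G) {c : E2} {ψ : E2 → ℝ}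
    (hψ : HasFDerivAt ψ (0 : E2 →L[ℝ] ℝ) c)
    (h : ∀ᶠ x in 𝓝 c, ∀ v w, ⟪fderiv ℝ G x v, fderiv ℝ G x w⟫ = ψ x * ⟪v, w⟫) (u v w : E2) :
    ⟪fderiv ℝ (fderiv ℝ G) c u v, fderiv ℝ G c w⟫ = 0 := by
  have hs := snd_symm hG c
  have hd : HasFDerivAt (fderiv ℝ G) (fderiv ℝ (fderiv ℝ G) c) c :=
    ((hG.fderiv_right (m := 1) (by norm_cast)).differentiable (by norm_num) c).hasFDerivAt
  have key : ∀ u v w, ⟪fderiv ℝ (fderiv ℝ G) c u v, fderiv ℝ G c w⟫ +
      ⟪fderiv ℝ (fderiv ℝ G) c u w, fderiv ℝ G c v⟫ = 0 := by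
    intro u v w
    have h1 := (hd.clm_apply (hasFDerivAt_const v c)).inner ℝ (hd.clm_apply (hasFDerivAt_const w c))
    have h2 := (hψ.mul_const ⟪v, w⟫).congr_of_eventuallyEq
      (f₁ := fun x => ⟪fderiv ℝ G x v, fderiv ℝ G x w⟫) (h.mono fun x hx => hx v w)
    have h3 := congrArg (fun T : E2 →L[ℝ] ℝ => T u) (h1.unique h2)
    simp only [ContinuousLinearMap.comp_apply, ContinuousLinearMap.prod_apply,
      fderivInnerCLM_apply, add_apply, ContinuousLinearMap.flip_apply, smul_zero, zero_apply,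
      map_zero, zero_add] at h3
    rw [real_inner_comm (fderiv ℝ G c v)]
    linarith
  have k1 := key u v w
  have k2 := key w u v
  have k3 := key v w u
  rw [hs.eq w u, hs.eq w v] at k2
  rw [hs.eq v u] at k3
  linarith

/-- the chart `z ↦ ρ (z₁ v₀ + z₂ v₁)` -/
noncomputable def chart (ρ : ℝ) (v : Fin 2 → E2) : P →L[ℝ] E2 :=
  ρ • ((ContinuousLinearMap.fst ℝ ℝ ℝ).smulRight (v 0) +
    (ContinuousLinearMap.snd ℝ ℝ ℝ).smulRight (v 1))

theorem chart_apply (ρ : ℝ) (v : Fin 2 → E2) (z : P) :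
    chart ρ v z = ρ • (z.1 • v 0 + z.2 • v 1) := rfl

theorem chart_false (ρ : ℝ) (v : Fin 2 → E2) : chart ρ v (dir false) = ρ • v 0 := by
  simp [chart_apply, dir]

theorem chart_true (ρ : ℝ) (v : Fin 2 → E2) : chart ρ v (dir true) = ρ • v 1 := by
  simp [chart_apply, dir]

theorem norm_chart_sq (ρ : ℝ) (v : OrthonormalBasis (Fin 2) ℝ E2) (z : P) :
    ‖chart ρ v z‖ ^ 2 = ρ ^ 2 * rs z := by
  have v01 : ⟪v 0, v 1⟫ = 0 := v.orthonormal.2 (by decide)
  rw [chart_apply, norm_smul, mul_pow, Real.norm_eq_abs, sq_abs, norm_add_sq_real,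
    real_inner_smul_left, real_inner_smul_right, v01, norm_smul, norm_smul]
  simp [rs]

theorem norm_chart_dir {ρ : ℝ} (hρ : 0 < ρ) (v : OrthonormalBasis (Fin 2) ℝ E2) (b : Bool) :
    ‖chart ρ v (dir b)‖ = ρ := by
  cases b
  · rw [chart_false, norm_smul]; simp [abs_of_pos hρ]
  · rw [chart_true, norm_smul]; simp [abs_of_pos hρ]

/-- the component of the rescaled immersion along `e` -/
noncomputable def comp (G : E2 → E3) (c : E2) (ρ : ℝ) (v : Fin 2 → E2) (e : E3) : P → ℝ :=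
  fun z => (ρ⁻¹ • innerSL ℝ e) (G (c + chart ρ v z)) - (ρ⁻¹ • innerSL ℝ e) (G c)

section comp
variable {G : E2 → E3} (hG : ContDiff ℝ ∞ G) (c : E2) {ρ : ℝ} (hρ : 0 < ρ)
include hG

theorem contDiff_comp (v : Fin 2 → E2) (e : E3) : ContDiff ℝ ∞ (comp G c ρ v e) :=
  ((ρ⁻¹ • innerSL ℝ e).contDiff.comp
    (hG.comp (contDiff_const.add (chart ρ v).contDiff))).sub contDiff_const

theorem dw_comp (v : Fin 2 → E2) (e : E3) {w : List Bool} (hw : w ≠ []) (z : P) :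
    dw w (comp G c ρ v e) z = ρ⁻¹ * ⟪e, iteratedFDeriv ℝ w.length G (c + chart ρ v z)
      fun i => chart ρ v (dir (w.get i))⟫ := by
  unfold comp
  rw [dw_sub_const _ _ w hw, dw_formula hG]
  rfl

include hρ

theorem dw_comp_one (v : Fin 2 → E2) (e : E3) (z : P) :
    d1 (comp G c ρ v e) z = ⟪e, fderiv ℝ G (c + chart ρ v z) (v 0)⟫ ∧
    d2 (comp G c ρ v e) z = ⟪e, fderiv ℝ G (c + chart ρ v z) (v 1)⟫ := by
  have key : ∀ b : Bool, dw [b] (comp G c ρ v e) z =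
      ρ⁻¹ * ⟪e, fderiv ℝ G (c + chart ρ v z) (chart ρ v (dir b))⟫ := by
    intro b
    rw [dw_comp hG c v e (List.cons_ne_nil _ _)]
    exact congrArg (fun y => ρ⁻¹ * ⟪e, y⟫) (iteratedFDeriv_one_apply _)
  have h1 := key false
  have h2 := key true
  simp only [chart_false, chart_true, map_smul, real_inner_smul_right,
    inv_mul_cancel_left₀ hρ.ne'] at h1 h2
  exact ⟨h1, h2⟩

theorem dw_comp_two (v : Fin 2 → E2) (e : E3) :
    d1 (d1 (comp G c ρ v e)) 0 = ρ * ⟪e, fderiv ℝ (fderiv ℝ G) c (v 0) (v 0)⟫ ∧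
    d1 (d2 (comp G c ρ v e)) 0 = ρ * ⟪e, fderiv ℝ (fderiv ℝ G) c (v 0) (v 1)⟫ ∧
    d2 (d2 (comp G c ρ v e)) 0 = ρ * ⟪e, fderiv ℝ (fderiv ℝ G) c (v 1) (v 1)⟫ := by
  have key : ∀ b b' : Bool, dw [b, b'] (comp G c ρ v e) 0 =
      ρ⁻¹ * ⟪e, fderiv ℝ (fderiv ℝ G) c (chart ρ v (dir b)) (chart ρ v (dir b'))⟫ := by
    intro b b'
    rw [dw_comp hG c v e (List.cons_ne_nil _ _), map_zero, add_zero]
    exact congrArg (fun y => ρ⁻¹ * ⟪e, y⟫) (iteratedFDeriv_two_apply G c _)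
  have h1 := key false false
  have h2 := key false true
  have h3 := key true true
  simp only [chart_false, chart_true, map_smul, smul_apply, real_inner_smul_right,
    inv_mul_cancel_left₀ hρ.ne'] at h1 h2 h3
  exact ⟨h1, h2, h3⟩

theorem abs_dw_comp_le (v : OrthonormalBasis (Fin 2) ℝ E2) {e : E3} (he : ‖e‖ = 1)
    {w : List Bool} {n : ℕ} (hw : w.length = n + 1) (z : P) {M : ℝ}
    (hM : ‖iteratedFDeriv ℝ w.length G (c + chart ρ v z)‖ ≤ M) :
    |dw w (comp G c ρ v e) z| ≤ ρ ^ n * M := by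
  rw [dw_comp hG c v e (by rintro rfl; simp at hw), abs_mul, abs_of_pos (inv_pos.2 hρ),
    inv_mul_le_iff₀ hρ]
  refine (abs_real_inner_le_norm _ _).trans ?_
  rw [he, one_mul]
  refine (ContinuousMultilinearMap.le_of_opNorm_le hM _).trans (le_of_eq ?_)
  simp only [norm_chart_dir hρ, Finset.prod_const, Finset.card_univ, Fintype.card_fin, hw]
  ring

end comp

end Normalize

open Normalize in
theorem normalize : StmtNormalize := by
  intro η hη U F x₀ hU hx hF h0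
  obtain ⟨r, hr, G, hG, hrU, hGF⟩ := exists_smooth hU hx hF
  have hev : ∀ x ∈ Metric.ball x₀ r, G =ᶠ[𝓝 x] F := fun x hx =>
    (Metric.isOpen_ball.eventually_mem hx).mono hGF
  have h0' : fderiv ℝ (fderiv ℝ G) x₀ ≠ 0 := by
    rwa [(hev x₀ (Metric.mem_ball_self hr)).fderiv.fderiv_eq]
  set a := ‖fderiv ℝ (fderiv ℝ G) x₀‖ / 2 with ha
  have ha0 : 0 < a := half_pos ((norm_nonneg _).lt_of_ne' fun h => h0' ((ContinuousLinearMap.opNorm_zero_iff _).1 h))
  have hc2 : Continuous fun x => ‖fderiv ℝ (fderiv ℝ G) x‖ :=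
    ((hG.fderiv_right (m := 1) (by norm_cast)).continuous_fderiv (by norm_num)).norm
  obtain ⟨δ₁, hδ₁, hnear⟩ : ∃ δ₁ > (0 : ℝ), ∀ c, dist c x₀ < δ₁ →
      a < ‖fderiv ℝ (fderiv ℝ G) c‖ := by
    have := hc2.continuousAt.eventually (lt_mem_nhds (a := a) (b := ‖fderiv ℝ (fderiv ℝ G) x₀‖)
      (by rw [ha]; linarith))
    obtain ⟨δ₁, hδ₁, h⟩ := Metric.eventually_nhds_iff.1 this
    exact ⟨δ₁, hδ₁, fun c hc => h hc⟩
  obtain ⟨M, hM0, hM⟩ : ∃ M > (0 : ℝ), ∀ k ≤ 4, ∀ x ∈ Metric.closedBall x₀ r,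
      ‖iteratedFDeriv ℝ k G x‖ ≤ M := by
    have hc : Continuous fun x => ∑ k ∈ Finset.range 5, ‖iteratedFDeriv ℝ k G x‖ :=
      continuous_finsetSum _ fun k _ =>
        (hG.continuous_iteratedFDeriv (m := k) (by exact_mod_cast le_top)).norm
    obtain ⟨C, hC⟩ := (isCompact_closedBall x₀ r).exists_bound_of_continuousOn hc.continuousOn
    refine ⟨max C 1, by positivity, fun k hk x hx => ?_⟩
    refine (Finset.single_le_sum (f := fun k => ‖iteratedFDeriv ℝ k G x‖)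
      (fun _ _ => norm_nonneg _) (Finset.mem_range.2 (show k < 5 by omega))).trans ?_
    exact ((le_abs_self _).trans (hC x hx)).trans (le_max_left _ _)
  refine ⟨min (min (min (r / 7) 1) (min δ₁ (η / M))) (min (η * a / (2 * M)) (a / 2)),
    by positivity, fun c ρ π hc hρ hρδ hπ hmet => ?_⟩
  set δ := min (min (min (r / 7) 1) (min δ₁ (η / M))) (min (η * a / (2 * M)) (a / 2)) with hδ
  have d1' : δ ≤ r / 7 := (min_le_left _ _).trans ((min_le_left _ _).trans (min_le_left _ _))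
  have d2' : δ ≤ 1 := (min_le_left _ _).trans ((min_le_left _ _).trans (min_le_right _ _))
  have d3' : δ ≤ δ₁ := (min_le_left _ _).trans ((min_le_right _ _).trans (min_le_left _ _))
  have d4' : δ ≤ η / M := (min_le_left _ _).trans ((min_le_right _ _).trans (min_le_right _ _))
  have d5' : δ ≤ η * a / (2 * M) := (min_le_right _ _).trans (min_le_left _ _)
  have d6' : δ ≤ a / 2 := (min_le_right _ _).trans (min_le_right _ _)
  have hball : ∀ x, dist x c < 6 * ρ → x ∈ Metric.ball x₀ r := fun x hx => by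
    have := dist_triangle x c x₀
    rw [Metric.mem_ball]
    linarith
  have hmetG : ∀ x, dist x c < 6 * ρ → ∀ v w, ⟪fderiv ℝ G x v, fderiv ℝ G x w⟫ =
      Real.exp (2 * π (‖x - c‖ ^ 2 / ρ ^ 2)) * ⟪v, w⟫ := fun x hx v w => by
    rw [(hev x (hball x hx)).fderiv_eq]
    exact hmet x (hrU (hball x hx)) hx v w
  have hψ : HasFDerivAt (fun x => Real.exp (2 * π (‖x - c‖ ^ 2 / ρ ^ 2))) (0 : E2 →L[ℝ] ℝ) c := by
    have h1 : HasFDerivAt (fun x : E2 => ‖x - c‖ ^ 2) (0 : E2 →L[ℝ] ℝ) c := by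
      simpa using ((hasFDerivAt_id c).sub_const c).norm_sq
    have h2 : DifferentiableAt ℝ (fun s : ℝ => Real.exp (2 * π (s / ρ ^ 2))) (‖c - c‖ ^ 2) := by
      have := hπ.differentiable (by simp)
      fun_prop
    have h3 := h2.hasDerivAt.comp_hasFDerivAt c h1
    rw [smul_zero] at h3
    exact h3
  have hBD := koszul hG hψ
    (mem_of_superset (Metric.ball_mem_nhds c (by positivity : 0 < 6 * ρ)) fun x hx => hmetG x hx)
  obtain ⟨v, e, a1, a2, a3, a4, a5, a6, a7, a8, a9⟩ := frame (fderiv ℝ G c)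
    (fderiv ℝ (fderiv ℝ G) c) (Real.exp_pos _) (hmetG c (by simpa using hρ))
    (snd_symm hG c).eq hBD
  have hl2 : a / 2 ≤ ⟪e 2, fderiv ℝ (fderiv ℝ G) c (v 1) (v 1)⟫ := by
    have := hnear c (hc.trans_le d3')
    linarith
  have hin : ∀ z ∈ sq 4, dist (c + chart ρ v z) c < 6 * ρ := by
    intro z hz
    rw [mem_sq'] at hz
    rw [dist_self_add_left]
    refine lt_of_pow_lt_pow_left₀ 2 (by positivity) ?_
    rw [norm_chart_sq, mul_pow, mul_comm]
    refine mul_lt_mul_of_pos_right ?_ (by positivity)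
    have h1 := abs_lt.1 hz.1
    have h2 := abs_lt.1 hz.2
    unfold rs
    nlinarith
  have hgram : ∀ z ∈ sq 4, ∀ i j, ∑ k, ⟪e k, fderiv ℝ G (c + chart ρ v z) (v i)⟫ *
      ⟪e k, fderiv ℝ G (c + chart ρ v z) (v j)⟫ = Real.exp (2 * π (rs z)) * ⟪v i, v j⟫ := by
    intro z hz i j
    have := hmetG _ (hin z hz) (v i) (v j)
    rw [add_sub_cancel_left, norm_chart_sq, mul_div_cancel_left₀ _ (by positivity),
      ← e.sum_inner_mul_inner] at this
    rw [← this]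
    exact Finset.sum_congr rfl fun k _ => by rw [real_inner_comm]
  have hd := fun k z => dw_comp_one hG c hρ v (e k) z
  have hd0 : ∀ k, d1 (comp G c ρ v (e k)) 0 = ⟪e k, fderiv ℝ G c (v 0)⟫ ∧
      d2 (comp G c ρ v (e k)) 0 = ⟪e k, fderiv ℝ G c (v 1)⟫ := fun k => by
    simpa using hd k 0
  obtain ⟨b1, b2, b3⟩ := dw_comp_two hG c hρ v (e 2)
  have hbd : ∀ k (w : List Bool) (n : ℕ), w.length = n + 1 → w.length ≤ 4 → ∀ z ∈ sq 4,
      |dw w (comp G c ρ v (e k)) z| ≤ ρ ^ n * M := fun k w n h1 h2 z hz =>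
    abs_dw_comp_le hG c hρ v (e.orthonormal.1 k) h1 z
      (hM _ h2 _ (Metric.ball_subset_closedBall (hball _ (hin z hz))))
  have hbd' : ∀ k (w : List Bool), 2 ≤ w.length → w.length ≤ 4 → ∀ z ∈ sq 4,
      |dw w (comp G c ρ v (e k)) z| ≤ η := fun k w h1 h2 z hz => by
    refine (hbd k w (w.length - 1) (by omega) h2 z hz).trans ?_
    have h3 : ρ ^ (w.length - 1) ≤ ρ ^ 1 :=
      pow_le_pow_of_le_one hρ.le (by linarith) (by omega)
    rw [← le_div_iff₀ hM0]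
    linarith
  refine ⟨comp G c ρ v (e 0), comp G c ρ v (e 1), comp G c ρ v (e 2),
    { smt := contDiff_comp hG c _ _
      smY := contDiff_comp hG c _ _
      smf := contDiff_comp hG c _ _
      m11 := fun z hz => ?_
      m12 := fun z hz => ?_
      m22 := fun z hz => ?_
      t0 := by simp [comp]
      ty0 := by rw [(hd0 0).2, a1]
      Yx0 := by rw [(hd0 1).1, a2]
      fx0 := by rw [(hd0 2).1, a3]
      fy0 := by rw [(hd0 2).2, a4]
      tx0 := by rw [(hd0 0).1]; exact a5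
      Yy0 := by rw [(hd0 1).2]; exact a6
      fxy0 := by rw [b2, a7, mul_zero]
      ha0 := ?_
      fxx0 := ?_
      bd := fun w h1 h2 z hz => ⟨hbd' 0 w h1 h2 z hz, hbd' 1 w h1 h2 z hz, hbd' 2 w h1 h2 z hz⟩
      bd3 := fun w h1 z hz => ?_ }⟩
  · have := hgram z hz 0 0
    rw [Fin.sum_univ_three, real_inner_self_eq_norm_sq, v.orthonormal.1 0] at this
    rw [(hd 0 z).1, (hd 1 z).1, (hd 2 z).1]
    linarith
  · have := hgram z hz 0 1
    rw [Fin.sum_univ_three, v.orthonormal.2 (by decide : (0 : Fin 2) ≠ 1)] at this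
    rw [(hd 0 z).1, (hd 1 z).1, (hd 2 z).1, (hd 0 z).2, (hd 1 z).2, (hd 2 z).2]
    linarith
  · have := hgram z hz 1 1
    rw [Fin.sum_univ_three, real_inner_self_eq_norm_sq, v.orthonormal.1 1] at this
    rw [(hd 0 z).2, (hd 1 z).2, (hd 2 z).2]
    linarith
  · rw [b3, mul_comm]
    exact mul_le_mul_of_nonneg_left (d6'.trans hl2) hρ.le
  · rw [b1, b3, abs_mul, abs_of_pos hρ]
    exact mul_le_mul_of_nonneg_left a8 hρ.le
  · refine (hbd 2 w 2 h1 (by omega) z hz).trans ?_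
    rw [b3]
    have h2 : ρ * (2 * M) ≤ η * a := by
      rw [← le_div_iff₀ (by positivity)]; linarith
    have h3 := mul_le_mul_of_nonneg_left hl2 (mul_pos hη hρ).le
    nlinarith

end Crest.Agent.R220
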