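import Crest.Agent.R220.Basic

/-! Facts on the conformal factors `phi0`, `phi`. -/

set_option autoImplicit false
open scoped ContDiff Topology
open Set MeasureTheory Filter

namespace Crest.Agent.R220

namespace Phi

theorem rs_smooth : ContDiff ℝ ∞ rs := by unfold rs; fun_prop

theorem prof0_smooth : ContDiff ℝ ∞ prof0 := by
  unfold prof0
  exact cut.contDiff.mul (by fun_prop)

noncomputable def g0 : P → ℝ := fun z => prof0 (rs z)
noncomputable def g1 : P → ℝ := fun z => bump (rs z)

theorem g0_smooth : ContDiff ℝ ∞ g0 := prof0_smooth.comp rs_smooth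
theorem g1_smooth : ContDiff ℝ ∞ g1 := bump.contDiff.comp rs_smooth

theorem norm_sq_le (z : P) : ‖z‖ ^ 2 ≤ rs z := by
  rw [Prod.norm_def, rs, Real.norm_eq_abs, Real.norm_eq_abs]
  rcases max_choice |z.1| |z.2| with h | h <;> rw [h, sq_abs] <;> nlinarith [sq_nonneg z.1, sq_nonneg z.2]

theorem rs_nonneg (z : P) : 0 ≤ rs z := by unfold rs; positivity

theorem big {z : P} (hz : z ∉ Metric.closedBall (0 : P) 8) : 60 ≤ dist (rs z) 0 := by
  rw [mem_closedBall_zero_iff, not_le] at hz
  rw [Real.dist_eq, sub_zero, abs_of_nonneg (rs_nonneg z)]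
  nlinarith [norm_sq_le z]

theorem g0_supp : HasCompactSupport g0 :=
  HasCompactSupport.intro (isCompact_closedBall (0 : P) 8) fun z hz => by
    unfold g0 prof0
    rw [cut.zero_of_le_dist (big hz), zero_mul]

theorem g1_supp : HasCompactSupport g1 :=
  HasCompactSupport.intro (isCompact_closedBall (0 : P) 8) fun z hz => by
    unfold g1
    exact bump.zero_of_le_dist (le_trans (by norm_num [bump]) (big hz))

theorem dw_supp {g : P → ℝ} (h : HasCompactSupport g) : ∀ w, HasCompactSupport (dw w g)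
  | [] => h
  | false :: w => (dw_supp h w).fderiv_apply ℝ (1, 0)
  | true :: w => (dw_supp h w).fderiv_apply ℝ (0, 1)

theorem dw_bdd {g : P → ℝ} (hg : ContDiff ℝ ∞ g) (h : HasCompactSupport g) (w : List Bool) :
    ∃ C, ∀ z, |dw w g z| ≤ C :=
  (contDiff_dw hg w).continuous.bounded_above_of_compact_support (dw_supp h w)

theorem dv_lin {f g : P → ℝ} (hf : ContDiff ℝ ∞ f) (hg : ContDiff ℝ ∞ g) (a b : ℝ) (e : P) :
    dv e (fun z => a * f z + b * g z) = fun z => a * dv e f z + b * dv e g z := by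
  funext z
  have h1 := hf.differentiable (by simp) z
  have h2 := hg.differentiable (by simp) z
  rw [dv_add (h1.const_mul a) (h2.const_mul b), dv_const_mul a h1, dv_const_mul b h2]

theorem dw_lin {f g : P → ℝ} (hf : ContDiff ℝ ∞ f) (hg : ContDiff ℝ ∞ g) (a b : ℝ) :
    ∀ w, dw w (fun z => a * f z + b * g z) = fun z => a * dw w f z + b * dw w g z
  | [] => rfl
  | false :: w => by
      rw [dw_false, dw_lin hf hg a b w, d1_eq, dv_lin (contDiff_dw hf w) (contDiff_dw hg w)]; rfl
  | true :: w => by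
      rw [dw_true, dw_lin hf hg a b w, d2_eq, dv_lin (contDiff_dw hf w) (contDiff_dw hg w)]; rfl

theorem dv_scale {g : P → ℝ} (hg : ContDiff ℝ ∞ g) (a lam : ℝ) (e : P) :
    dv e (fun z => a * g (lam • z)) = fun z => a * lam * dv e g (lam • z) := by
  funext z
  have h1 : DifferentiableAt ℝ (fun z : P => g (lam • z)) z :=
    (hg.differentiable (by simp) _).comp z (by fun_prop)
  rw [dv_const_mul a h1]
  simp only [dv]
  rw [fderiv_comp_smul]
  simp [mul_assoc]

theorem dw_scale {g : P → ℝ} (hg : ContDiff ℝ ∞ g) (lam : ℝ) :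
    ∀ w, dw w (fun z => g (lam • z)) = fun z => lam ^ w.length * dw w g (lam • z)
  | [] => by funext z; simp
  | false :: w => by
      rw [dw_false, dw_scale hg lam w, d1_eq, dv_scale (contDiff_dw hg w), List.length_cons,
        pow_succ]; rfl
  | true :: w => by
      rw [dw_true, dw_scale hg lam w, d2_eq, dv_scale (contDiff_dw hg w), List.length_cons,
        pow_succ]; rfl

theorem phi0_eq (ε : ℝ) : phi0 ε = fun z => ε * g0 z + 0 * g0 z := by
  funext z; simp [phi0, g0]

theorem phi_eq (ε : ℝ) (m : ℕ) (lam : ℝ) :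
    phi ε m lam = fun z => ε * g0 z + (lam ^ (m + 2))⁻¹ * g1 (lam • z) := by
  funext z
  have : rs (lam • z) = lam ^ 2 * rs z := by simp [rs]; ring
  simp [phi, prof, g0, g1, this]

theorem g1s_smooth (lam : ℝ) : ContDiff ℝ ∞ fun z : P => g1 (lam • z) :=
  g1_smooth.comp (by fun_prop)

theorem phi0_ev (ε : ℝ) (z : P) (hz : rs z < 50) :
    phi0 ε =ᶠ[nhds z] fun p => ε * (rs p / 4 - rs p ^ 2 / 16) := by
  filter_upwards [rs_smooth.continuous.continuousAt.eventually (gt_mem_nhds hz)] with p hp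
  unfold phi0 prof0
  rw [cut.one_of_mem_closedBall, one_mul]
  rw [mem_closedBall_zero_iff, Real.norm_eq_abs, abs_of_nonneg (rs_nonneg p)]
  exact hp.le

theorem dv_rs (e p : P) : dv e rs p = 2 * p.1 * e.1 + 2 * p.2 * e.2 := by
  unfold rs
  rw [dv_add (by fun_prop) (by fun_prop), dv_pow 2 (by fun_prop), dv_pow 2 (by fun_prop), dv_fst,
    dv_snd]
  norm_num

theorem dv_psi (ε : ℝ) (e : P) : dv e (fun p => ε * (rs p / 4 - rs p ^ 2 / 16))
    = fun p => ε * (1 / 4 - rs p / 8) * (2 * p.1 * e.1 + 2 * p.2 * e.2) := by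
  funext p
  rw [dv_comp (h := fun s => ε * (s / 4 - s ^ 2 / 16)) (h' := ε * (1 / 4 - rs p / 8)) ?_
    (rs_smooth.differentiable (by simp) p), dv_rs]
  have := (((hasDerivAt_id (rs p)).div_const 4).sub
    ((hasDerivAt_pow 2 (rs p)).div_const 16)).const_mul ε
  exact this.congr_deriv (by simp; left; ring)

theorem dv_dv_psi (ε : ℝ) (e p : P) : dv e (dv e (fun p => ε * (rs p / 4 - rs p ^ 2 / 16))) p
    = ε * (- (2 * p.1 * e.1 + 2 * p.2 * e.2) ^ 2 / 8
      + (1 / 4 - rs p / 8) * (2 * e.1 ^ 2 + 2 * e.2 ^ 2)) := by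
  have hr := rs_smooth.differentiable (by simp) p
  rw [dv_psi, dv_mul (by fun_prop) (by fun_prop)]
  rw [dv_comp (h := fun s => ε * (1 / 4 - s / 8)) (h' := ε * (- 1 / 8)) ?_ hr, dv_rs]
  · have : dv e (fun p : P => 2 * p.1 * e.1 + 2 * p.2 * e.2) p = 2 * e.1 ^ 2 + 2 * e.2 ^ 2 := by
      have e1 : (fun p : P => 2 * p.1 * e.1 + 2 * p.2 * e.2)
          = fun p : P => (2 * e.1) * p.1 + (2 * e.2) * p.2 := by funext p; ring
      rw [e1, dv_add (by fun_prop) (by fun_prop), dv_const_mul _ (by fun_prop),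
        dv_const_mul _ (by fun_prop), dv_fst, dv_snd]
      ring
    rw [this]; ring
  · have := (((hasDerivAt_id (rs p)).div_const 8).const_sub (1 / 4)).const_mul ε
    exact this.congr_deriv (by ring)

end Phi

open Phi in
theorem phiFacts : StmtPhi := by
  refine ⟨fun ε => ?_, fun ε m lam => ?_, fun w => ?_, fun ε m lam hl z hz => ?_, phi0_ev,
    fun ε z hz => ?_⟩
  · exact contDiff_const.mul g0_smooth
  · rw [phi_eq]
    exact (contDiff_const.mul g0_smooth).add (contDiff_const.mul (g1s_smooth lam))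
  · obtain ⟨C0, h0⟩ := dw_bdd g0_smooth g0_supp w
    obtain ⟨C1, h1⟩ := dw_bdd g1_smooth g1_supp w
    refine ⟨max C0 C1, fun ε m lam hε hl z => ?_⟩
    rw [phi_eq, phi0_eq, dw_lin g0_smooth g0_smooth, dw_lin g0_smooth (g1s_smooth lam),
      dw_scale g1_smooth]
    have hl0 : 0 < lam := by linarith
    constructor
    · simp only [zero_mul, add_zero]
      rw [abs_mul, abs_of_nonneg hε, mul_comm]
      exact mul_le_mul_of_nonneg_right ((h0 z).trans (le_max_left _ _)) hε
    · simp only [zero_mul, add_zero, add_sub_cancel_left]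
      rw [← mul_assoc, abs_mul, abs_of_nonneg (by positivity), mul_comm, div_eq_inv_mul]
      exact mul_le_mul_of_nonneg_right ((h1 _).trans (le_max_right _ _)) (by positivity)
  · have hc : Continuous fun p => lam ^ 2 * rs p := continuous_const.mul rs_smooth.continuous
    filter_upwards [hc.continuousAt.eventually (lt_mem_nhds hz)] with p hp
    unfold phi phi0 prof
    rw [bump.zero_of_le_dist, mul_zero, add_zero]
    rw [Real.dist_eq, sub_zero]
    exact le_trans (by simpa [bump] using hp.le) (le_abs_self _)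
  · have h := phi0_ev ε z hz
    filter_upwards [h, dv_congr (e := (1, 0)) (dv_congr (e := (1, 0)) h),
      dv_congr (e := (0, 1)) (dv_congr (e := (0, 1)) h)] with p h0 h1 h2
    unfold Kf
    simp only [d1_eq, d2_eq]
    rw [h0, h1, h2, dv_dv_psi, dv_dv_psi]
    simp only [rs]
    ring

end Crest.Agent.R220
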