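import Crest.Agent.R220.PointPhi

/-! C4: pointwise facts on the coefficients. -/

set_option autoImplicit false
open scoped ContDiff Topology
open Set MeasureTheory Filter

namespace Crest.Agent.R220

namespace Point

theorem slice1 {F : P → ℝ} (hF : ContDiff ℝ ∞ F) (r v : ℝ) :
    HasDerivAt (fun r => F (r, v)) (d1 F (r, v)) r :=
  (dd hF (r, v)).hasFDerivAt.comp_hasDerivAt r ((hasDerivAt_id r).prodMk (hasDerivAt_const r v))

theorem slice2 {F : P → ℝ} (hF : ContDiff ℝ ∞ F) (t s : ℝ) :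
    HasDerivAt (fun s => F (t, s)) (d2 F (t, s)) s :=
  (dd hF (t, s)).hasFDerivAt.comp_hasDerivAt s ((hasDerivAt_const s t).prodMk (hasDerivAt_id s))

theorem mv1 {F : P → ℝ} (hF : ContDiff ℝ ∞ F) {L : ℝ} (h : ∀ r, |r| < 2 → |d1 F (r, 0)| ≤ L)
    (h0 : F 0 = 0) {t : ℝ} (ht : |t| < 2) : |F (t, 0)| ≤ 2 * L := by
  have hL : 0 ≤ L := (abs_nonneg _).trans (h 0 (by simp))
  have := (convex_Ioo (-2 : ℝ) 2).norm_image_sub_le_of_norm_hasDerivWithin_le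
    (f := fun r => F (r, 0)) (f' := fun r => d1 F (r, 0)) (C := L) (x := 0) (y := t)
    (fun r _ => (slice1 hF r 0).hasDerivWithinAt) (fun r hr => h r (abs_lt.2 hr))
    (by constructor <;> norm_num) (abs_lt.1 ht)
  have e0 : F (0, 0) = 0 := h0
  simp only [e0, sub_zero, Real.norm_eq_abs] at this
  nlinarith

theorem mv2 {F : P → ℝ} (hF : ContDiff ℝ ∞ F) {t : ℝ} (h : ∀ s, |s| < 2 → 1 / 4 ≤ d2 F (t, s))
    {v : ℝ} (hv0 : 0 ≤ v) (hv : v < 2) : F (t, 0) + v / 4 ≤ F (t, v) := by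
  have := (convex_Ioo (-2 : ℝ) 2).mul_sub_le_image_sub_of_le_deriv (f := fun s => F (t, s))
    (fun s _ => (slice2 hF t s).continuousAt.continuousWithinAt)
    (fun s _ => (slice2 hF t s).differentiableAt.differentiableWithinAt) (C := 1 / 4)
    (fun s hs => by
      rw [(slice2 hF t s).deriv]
      exact h s (abs_lt.2 (mem_Ioo.1 (interior_subset hs))))
    0 (by constructor <;> norm_num) v ⟨by linarith, hv⟩ hv0
  linarith

theorem Gam1_bd {g1 g2 u1 u2 w1 w2 γ U : ℝ} (h1 : |g1| ≤ γ) (h2 : |g2| ≤ γ) (hu1 : |u1| ≤ U)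
    (hu2 : |u2| ≤ U) (hw1 : |w1| ≤ 2) (hw2 : |w2| ≤ 2) :
    |Gam1 g1 g2 u1 u2 w1 w2| ≤ 12 * U * γ := by
  unfold Gam1
  refine (abs_sub_le' (abs_add_le'
    (abs_mul_le (abs_add_le' (abs_mul_le hu1 h1) (abs_mul_le hu2 h2)) hw1)
    (abs_mul_le (abs_add_le' (abs_mul_le hw1 h1) (abs_mul_le hw2 h2)) hu1))
    (abs_mul_le (abs_add_le' (abs_mul_le hu1 hw1) (abs_mul_le hu2 hw2)) h1)).trans (le_of_eq ?_)
  ring

theorem Gam2_bd {g1 g2 u1 u2 w1 w2 γ U : ℝ} (h1 : |g1| ≤ γ) (h2 : |g2| ≤ γ) (hu1 : |u1| ≤ U)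
    (hu2 : |u2| ≤ U) (hw1 : |w1| ≤ 2) (hw2 : |w2| ≤ 2) :
    |Gam2 g1 g2 u1 u2 w1 w2| ≤ 12 * U * γ := by
  unfold Gam2
  refine (abs_sub_le' (abs_add_le'
    (abs_mul_le (abs_add_le' (abs_mul_le hu1 h1) (abs_mul_le hu2 h2)) hw2)
    (abs_mul_le (abs_add_le' (abs_mul_le hw1 h1) (abs_mul_le hw2 h2)) hu2))
    (abs_mul_le (abs_add_le' (abs_mul_le hu1 hw1) (abs_mul_le hu2 hw2)) h2)).trans (le_of_eq ?_)
  ring

section cfg
variable {ε Γ a0 M : ℝ} {φ K0 : P → ℝ} (c : Cfg φ a0 M) {z : P}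

theorem x_le (hz : z ∈ sq 2) : |c.x z| ≤ 41 / 40 * ‖z‖ := by
  have h1 := c.geomx z hz
  have h2 := abs_add_le' h1 (abs_fst_le z)
  rw [sub_add_cancel] at h2
  linarith

theorem y_le (hz : z ∈ sq 2) : |c.y z| ≤ 41 / 40 * ‖z‖ := by
  have h1 := c.geomy z hz
  have h2 := abs_add_le' h1 (abs_snd_le z)
  rw [sub_add_cancel] at h2
  linarith

theorem x_le' (hz : z ∈ sq 2) : |c.x z| ≤ 41 / 20 := by
  have := x_le c hz
  have := mem_sq.1 hz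
  linarith

theorem y_le' (hz : z ∈ sq 2) : |c.y z| ≤ 41 / 20 := by
  have := y_le c hz
  have := mem_sq.1 hz
  linarith

theorem rs_le (hz : z ∈ sq 2) : rs (c.x z, c.y z) ≤ 1681 / 800 * ‖z‖ ^ 2 := by
  have h1 := abs_mul_le (x_le c hz) (x_le c hz)
  have h2 := abs_mul_le (y_le c hz) (y_le c hz)
  rw [abs_mul_self] at h1 h2
  simp only [rs]
  nlinarith

theorem rs_le' (hz : z ∈ sq 2) : rs (c.x z, c.y z) ≤ 17 / 2 := by
  have h1 := rs_le c hz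
  have h2 := mem_sq.1 hz
  have h3 := norm_nonneg z
  nlinarith

theorem rs_ge (hz : z ∈ sq 2) : 1521 / 1600 * ‖z‖ ^ 2 ≤ rs (c.x z, c.y z) := by
  have h3 := norm_nonneg z
  have key : ∀ a b : ℝ, |a - b| ≤ ‖z‖ / 40 → |b| = ‖z‖ → 1521 / 1600 * ‖z‖ ^ 2 ≤ a ^ 2 := by
    intro a b h1 h2
    have h4 : 39 / 40 * ‖z‖ ≤ |a| := by
      have := abs_sub_abs_le_abs_sub b a
      rw [abs_sub_comm] at this
      linarith
    rw [← sq_abs a]
    nlinarith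
  simp only [rs]
  rcases le_total |z.1| |z.2| with h | h
  · have := key _ _ (c.geomy z hz) (by rw [Prod.norm_def]; exact (max_eq_right h).symm)
    nlinarith [sq_nonneg (c.x z)]
  · have := key _ _ (c.geomx z hz) (by rw [Prod.norm_def]; exact (max_eq_left h).symm)
    nlinarith [sq_nonneg (c.y z)]

theorem a_abs (ha0 : 0 < a0) : |c.a| ≤ 1 / 100 := by
  rw [abs_of_pos (ha0.trans_le c.ha0)]; exact c.ha1

theorem v_abs (hz : z ∈ sq 2) : |z.2| ≤ 2 := (mem_sq'.1 hz).2.le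

theorem β_abs (hz : z ∈ sq 2) : |c.β z| ≤ 2 := by
  have := c.β_lb z hz
  rw [abs_of_pos (by linarith)]; exact c.β_ub z hz

theorem W_ge (z : P) : 1 ≤ c.W z := by
  unfold Cfg.W
  nlinarith [sq_nonneg (c.a * z.2), sq_nonneg (c.q z)]

theorem W_le (ha0 : 0 < a0) (hz : z ∈ sq 2) : c.W z ≤ 51 / 50 := by
  have h1 := abs_mul_le (a_abs c ha0) (v_abs hz)
  have h2 := abs_mul_le h1 h1
  have h3 := abs_mul_le (c.q_bd z hz) (c.q_bd z hz)
  rw [abs_mul_self] at h2 h3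
  unfold Cfg.W
  nlinarith

theorem W2_ge (z : P) : 1 ≤ c.W z ^ 2 := one_le_pow₀ (W_ge c z)

theorem W2_le (ha0 : 0 < a0) (hz : z ∈ sq 2) : c.W z ^ 2 ≤ 21 / 20 := by
  have h1 := W_le c ha0 hz
  have h2 := W_ge c z
  nlinarith

theorem W2_abs (ha0 : 0 < a0) (hz : z ∈ sq 2) : |c.W z ^ 2| ≤ 21 / 20 := by
  rw [abs_of_nonneg (sq_nonneg _)]; exact W2_le c ha0 hz

theorem Winv_abs (z : P) : |(c.W z)⁻¹| ≤ 1 := by
  have := W_ge c z
  rw [abs_of_pos (by positivity)]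
  exact inv_le_one_of_one_le₀ this

theorem ia_pos (ha0 : 0 < a0) : 0 < (c.a ^ 2)⁻¹ := by
  have := ha0.trans_le c.ha0
  positivity

theorem ia_abs (ha0 : 0 < a0) : |(c.a ^ 2)⁻¹| ≤ (c.a ^ 2)⁻¹ := (abs_of_pos (ia_pos c ha0)).le

theorem contDiff_W : ContDiff ℝ ∞ c.W := by
  have := c.smq
  unfold Cfg.W
  fun_prop

theorem contDiff_k {K : P → ℝ} (hK : ContDiff ℝ ∞ K) : ContDiff ℝ ∞ (c.k K) := by
  have h1 := contDiff_W c
  have h2 := c.smx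
  have h3 := c.smy
  unfold Cfg.k
  fun_prop

theorem k_abs {K : P → ℝ} (ha0 : 0 < a0) (hε : 0 < ε) (hz : z ∈ sq 2)
    (h : |K (c.x z, c.y z)| ≤ 9 * ε) : |c.k K z| ≤ 10 * (ε / c.a ^ 2) := by
  have := ia_pos c ha0
  simp only [Cfg.k, div_eq_mul_inv]
  refine (abs_mul_le (abs_mul_le h (W2_abs c ha0 hz)) (ia_abs c ha0)).trans ?_
  nlinarith [mul_pos hε this]

theorem βA_abs {K : P → ℝ} {D : ℝ} (ha0 : 0 < a0) (hz : z ∈ sq 2)
    (h1 : |d1 K (c.x z, c.y z)| ≤ D * ε) (h2 : |d2 K (c.x z, c.y z)| ≤ D * ε) :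
    |c.β z * c.A K z| ≤ 9 * D * (ε / c.a ^ 2) := by
  have := ia_pos c ha0
  have hD : 0 ≤ D * ε := (abs_nonneg _).trans h1
  simp only [Cfg.A, div_eq_mul_inv]
  refine (abs_mul_le (β_abs c hz) (abs_mul_le (abs_mul_le (abs_add_le'
    (abs_mul_le (c.ξ1_bd z hz) h1) (abs_mul_le (c.ξ2_bd z hz) h2)) (W2_abs c ha0 hz))
    (ia_abs c ha0))).trans ?_
  nlinarith [mul_nonneg hD this.le]

variable (hG : Good ε Γ φ K0)
include hG

theorem K0_abs (hε : 0 < ε) (hz : z ∈ sq 2) : |K0 (c.x z, c.y z)| ≤ 44 / 5 * ε := by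
  have h1 := rs_le' c hz
  have h0 := rs_nonneg (c.x z, c.y z)
  obtain ⟨E, G, e1, e2, -, -, -, e3, -, -⟩ := hG.ex _ (h1.trans (by norm_num))
  rw [e3]
  refine (abs_mul_le (abs_mul_le (abs_of_pos hε).le (B := 11 / 10) (abs_le.2 ⟨by linarith, e2⟩))
    (B := 8) (abs_le.2 ⟨by linarith, by linarith⟩)).trans (le_of_eq (by ring))

theorem K_abs (hε : 0 < ε) (hz : z ∈ sq 2) : |Kf φ (c.x z, c.y z)| ≤ 9 * ε := by
  have := abs_add_le' (hG.k0 (c.x z, c.y z)) (K0_abs c hG hε hz)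
  rw [sub_add_cancel] at this
  linarith

theorem dK0_abs (hε : 0 < ε) (hz : z ∈ sq 2) :
    |d1 K0 (c.x z, c.y z)| ≤ (123 / 40 * ‖z‖) * ε ∧ |d2 K0 (c.x z, c.y z)| ≤ (123 / 40 * ‖z‖) * ε := by
  obtain ⟨E, G, -, -, -, g1, g2, -, e4, e5⟩ := hG.ex _ ((rs_le' c hz).trans (by norm_num))
  have hGa : |G| ≤ 3 / 2 := abs_le.2 ⟨by linarith, g2⟩
  rw [e4, e5]
  exact ⟨(abs_mul_le (abs_mul_le (abs_mul_le abs_two.le (x_le c hz)) (abs_of_pos hε).le)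
      hGa).trans (le_of_eq (by ring)),
    (abs_mul_le (abs_mul_le (abs_mul_le abs_two.le (y_le c hz)) (abs_of_pos hε).le)
      hGa).trans (le_of_eq (by ring))⟩

theorem dK_abs (hε : 0 < ε) (hz : z ∈ sq 2) :
    |d1 (Kf φ) (c.x z, c.y z)| ≤ (13 / 2) * ε ∧ |d2 (Kf φ) (c.x z, c.y z)| ≤ (13 / 2) * ε := by
  obtain ⟨h1, h2⟩ := dK0_abs c hG hε hz
  have a1 := abs_add_le' (hG.k1 (c.x z, c.y z)) h1
  have a2 := abs_add_le' (hG.k2 (c.x z, c.y z)) h2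
  rw [sub_add_cancel] at a1 a2
  have hn := mem_sq.1 hz
  have : 123 / 40 * ‖z‖ * ε ≤ 123 / 40 * 2 * ε := by gcongr
  constructor <;> linarith

theorem d2k_abs (ha0 : 0 < a0) (hε : 0 < ε) (hz : z ∈ sq 2) :
    |d2 (c.k (Kf φ)) z| ≤ 61 * (ε / c.a ^ 2) := by
  have hia := ia_pos c ha0
  have hq := dd c.smq z
  have hW : d2 c.W z = 2 * (c.a * z.2) * c.a + 2 * c.q z * (-c.a * c.α z) := by
    rw [← c.q_v z hz, d2_eq, d2_eq]
    unfold Cfg.W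
    rw [dv_add (by fun_prop) (by fun_prop), dv_add (by fun_prop) (by fun_prop), dv_const,
      dv_pow 2 (by fun_prop), dv_pow 2 hq, dv_const_mul _ (by fun_prop), dv_snd]
    norm_num
  have hWa : |d2 c.W z| ≤ 1 / 1000 := by
    rw [hW]
    have ha := a_abs c ha0
    refine (abs_add_le' (abs_mul_le (abs_mul_le abs_two.le (abs_mul_le ha (v_abs hz))) ha)
      (abs_mul_le (abs_mul_le abs_two.le (c.q_bd z hz))
        (abs_mul_le (A := 1 / 100) (by rwa [abs_neg]) (c.α_bd z hz)))).trans (by norm_num)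
  have hk : d2 (c.k (Kf φ)) z = c.β z * c.A (Kf φ) z +
      Kf φ (c.x z, c.y z) * (2 * c.W z * d2 c.W z) * (c.a ^ 2)⁻¹ := by
    have e : c.k (Kf φ) = fun z => (c.a ^ 2)⁻¹ * (Kf φ (c.x z, c.y z) * c.W z ^ 2) := by
      funext z; simp only [Cfg.k]; ring
    have s1 : ContDiff ℝ ∞ fun z => Kf φ (c.x z, c.y z) := hG.smK.comp (c.smx.prodMk c.smy)
    have s2 : ContDiff ℝ ∞ fun z => c.W z ^ 2 := (contDiff_W c).pow 2
    rw [e, d2_eq, dv_const_mul _ (dd (s1.mul s2) z), dv_mul (dd s1 z) (dd s2 z),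
      dv_comp2 (dd hG.smK _) (dd c.smx z) (dd c.smy z), dv_pow 2 (dd (contDiff_W c) z),
      ← d2_eq, ← d2_eq, ← d2_eq, c.x_v z hz, c.y_v z hz]
    simp only [Cfg.A]
    norm_num
    ring
  rw [hk]
  obtain ⟨h1, h2⟩ := dK_abs c hG hε hz
  have hWabs : |c.W z| ≤ 51 / 50 := by
    have := W_ge c z
    rw [abs_of_pos (by linarith)]; exact W_le c ha0 hz
  refine (abs_add_le' (βA_abs c ha0 hz h1 h2) (abs_mul_le (abs_mul_le (K_abs c hG hε hz)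
    (abs_mul_le (abs_mul_le abs_two.le hWabs) hWa)) (ia_abs c ha0))).trans ?_
  rw [div_eq_mul_inv ε]
  nlinarith [mul_pos hε hia]

theorem d1α_abs (ha0 : 0 < a0) (hε : 0 < ε) (hz : z ∈ sq 2) :
    |d1 c.α z| ≤ (122 + 10 * |M|) * (ε / c.a ^ 2) := by
  have ha := ha0.trans_le c.ha0
  have sk := contDiff_k c hG.smK
  have e1 : d2 c.q =ᶠ[𝓝 z] fun z => -c.a * c.α z := by
    filter_upwards [sq_mem_nhds hz] with w hw using c.q_v w hw
  have e2 : d1 c.q =ᶠ[𝓝 z] fun z => c.a * (c.k (Kf φ) z * c.β z) := by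
    filter_upwards [sq_mem_nhds hz] with w hw
    rw [c.q_t w hw, mul_assoc]
    rfl
  have h1 : d1 (d2 c.q) z = -c.a * d1 c.α z :=
    (dv_congr e1).self_of_nhds.trans (dv_const_mul _ (dd c.smα z))
  have h2 : d2 (d1 c.q) z =
      c.a * (d2 (c.k (Kf φ)) z * c.β z + c.k (Kf φ) z * d2 c.β z) := by
    refine (dv_congr e2).self_of_nhds.trans ?_
    rw [dv_const_mul _ (dd (sk.mul c.smβ) z), dv_mul (dd sk z) (dd c.smβ z)]
    rfl
  have h3 : d1 c.α z = -(d2 (c.k (Kf φ)) z * c.β z + c.k (Kf φ) z * d2 c.β z) := by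
    have := d1_d2_comm (c.smq.contDiffAt (x := z))
    rw [h1, h2] at this
    apply mul_left_cancel₀ ha.ne'
    linarith
  rw [h3, abs_neg]
  have h4 : |d2 c.β z| ≤ |M| := (c.βM 1 (by norm_num) z hz).trans (le_abs_self M)
  refine (abs_add_le' (abs_mul_le (d2k_abs c hG ha0 hε hz) (β_abs c hz))
    (abs_mul_le (k_abs c ha0 hε hz (K_abs c hG hε hz)) h4)).trans (le_of_eq (by ring))

omit hG in
theorem dω (e z : P) : dv e (fun z => c.ξ1 z * c.x z + c.ξ2 z * c.y z) z =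
    dv e c.ξ1 z * c.x z + dv e c.ξ2 z * c.y z + (c.ξ1 z * dv e c.x z + c.ξ2 z * dv e c.y z) := by
  rw [dv_add (dd (c.smξ1.mul c.smx) z) (dd (c.smξ2.mul c.smy) z),
    dv_mul (dd c.smξ1 z) (dd c.smx z), dv_mul (dd c.smξ2 z) (dd c.smy z)]
  ring

theorem d2ω_ge (ha0 : 0 < a0) (hΓ : Γ * ε ≤ 1 / 2000) (hz : z ∈ sq 2) :
    1 / 4 ≤ d2 (fun z => c.ξ1 z * c.x z + c.ξ2 z * c.y z) z := by
  rw [d2_eq, dω, ← d2_eq, ← d2_eq, ← d2_eq, ← d2_eq, c.x_v z hz, c.y_v z hz]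
  have g1 := (hG.b1 (c.x z, c.y z)).trans hΓ
  have g2 := (hG.b2 (c.x z, c.y z)).trans hΓ
  have ha := a_abs c ha0
  have hβ : |-c.β z| ≤ 2 := by rw [abs_neg]; exact β_abs c hz
  have h1 : |d2 c.ξ1 z| ≤ 1 / 30 := by
    rw [c.ξ1_v z hz, div_eq_mul_inv]
    refine (abs_add_le' (abs_mul_le hβ (Gam1_bd g1 g2 (c.ξ1_bd z hz) (c.ξ2_bd z hz)
      (c.ξ1_bd z hz) (c.ξ2_bd z hz))) (abs_mul_le (abs_mul_le ha (abs_add_le'
        (abs_mul_le (c.q_bd z hz) (c.ζ1_bd z hz))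
        (abs_mul_le (abs_mul_le ha (v_abs hz)) (c.ξ1_bd z hz)))) (Winv_abs c z))).trans
      (by norm_num)
  have h2 : |d2 c.ξ2 z| ≤ 1 / 30 := by
    rw [c.ξ2_v z hz, div_eq_mul_inv]
    refine (abs_add_le' (abs_mul_le hβ (Gam2_bd g1 g2 (c.ξ1_bd z hz) (c.ξ2_bd z hz)
      (c.ξ1_bd z hz) (c.ξ2_bd z hz))) (abs_mul_le (abs_mul_le ha (abs_add_le'
        (abs_mul_le (c.q_bd z hz) (c.ζ2_bd z hz))
        (abs_mul_le (abs_mul_le ha (v_abs hz)) (c.ξ2_bd z hz)))) (Winv_abs c z))).trans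
      (by norm_num)
  have h3 := abs_le.1 (abs_add_le' (abs_mul_le h1 (x_le' c hz)) (abs_mul_le h2 (y_le' c hz)))
  have h4 : 9 / 10 ≤ c.ξ1 z ^ 2 + c.ξ2 z ^ 2 := by
    have g0 := (hG.b0 (c.x z, c.y z)).trans hΓ
    have e1 := Real.abs_exp_sub_one_le (x := 2 * φ (c.x z, c.y z))
      ((abs_mul_le abs_two.le g0).trans (by norm_num))
    have e2 := abs_mul_le abs_two.le g0
    have e3 := (abs_le.1 e1).2
    have e4 := c.gram22 z hz
    have e5 : 0 ≤ c.ξ1 z ^ 2 + c.ξ2 z ^ 2 := by positivity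
    have e6 : Real.exp (2 * φ (c.x z, c.y z)) * (c.ξ1 z ^ 2 + c.ξ2 z ^ 2) ≤
        11 / 10 * (c.ξ1 z ^ 2 + c.ξ2 z ^ 2) := mul_le_mul_of_nonneg_right (by linarith) e5
    nlinarith [sq_nonneg (c.a * z.2)]
  have h5 : 1 / 2 * (9 / 10) ≤ c.β z * (c.ξ1 z ^ 2 + c.ξ2 z ^ 2) :=
    mul_le_mul (c.β_lb z hz) h4 (by norm_num) (by linarith [c.β_lb z hz])
  nlinarith

theorem ω_ge (ha0 : 0 < a0) (hε : 0 < ε) (hΓ : Γ * ε ≤ 1 / 2000) (hz : z ∈ sq 2) (hv : 0 ≤ z.2) :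
    z.2 / 4 - (222 * Γ + (3904 + 320 * |M|) / a0 ^ 2) * ε ≤ c.ξ1 z * c.x z + c.ξ2 z * c.y z := by
  obtain ⟨t, v⟩ := z
  obtain ⟨ht, hv2⟩ := mem_sq'.1 hz
  have sω : ContDiff ℝ ∞ fun z => c.ξ1 z * c.x z + c.ξ2 z * c.y z :=
    (c.smξ1.mul c.smx).add (c.smξ2.mul c.smy)
  have hm : ∀ r : ℝ, |r| < 2 → ((r, 0) : P) ∈ sq 2 := fun r hr => mem_sq'.2 ⟨hr, by simp⟩
  have h0 : (0 : P) ∈ sq 2 := mem_sq.2 (by simp)
  have he : ε / c.a ^ 2 ≤ ε / a0 ^ 2 := by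
    have := c.ha0
    gcongr
  have hα : ∀ r : ℝ, |r| < 2 → |c.α (r, 0)| ≤ 2 * ((122 + 10 * |M|) * (ε / a0 ^ 2)) := fun r hr =>
    mv1 c.smα (fun r hr => (d1α_abs c hG ha0 hε (hm r hr)).trans
      (mul_le_mul_of_nonneg_left he (by positivity))) c.α0 hr
  have h1 : ∀ r : ℝ, |r| < 2 → |d1 (fun z => c.ξ1 z * c.x z + c.ξ2 z * c.y z) (r, 0)| ≤
      111 * (Γ * ε) + 16 * ((122 + 10 * |M|) * (ε / a0 ^ 2)) := by
    intro r hr
    have hz := hm r hr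
    set z : P := (r, 0) with hzdef
    rw [d1_eq, dω, ← d1_eq, ← d1_eq, ← d1_eq, ← d1_eq, c.x_t z hz, c.y_t z hz, c.ξ1_t z hz,
      c.ξ2_t z hz]
    have g1 := hG.b1 (c.x z, c.y z)
    have g2 := hG.b2 (c.x z, c.y z)
    have u1 := abs_add_le' (c.ζ1_bd z hz) (abs_mul_le (c.α_bd z hz) (c.ξ1_bd z hz))
    have u2 := abs_add_le' (c.ζ2_bd z hz) (abs_mul_le (c.α_bd z hz) (c.ξ2_bd z hz))
    have a1 := Gam1_bd g1 g2 u1 u2 (c.ξ1_bd z hz) (c.ξ2_bd z hz)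
    have a2 := Gam2_bd g1 g2 u1 u2 (c.ξ1_bd z hz) (c.ξ2_bd z hz)
    rw [← abs_neg] at a1 a2
    have a3 : c.ξ1 z * c.ζ1 z + c.ξ2 z * c.ζ2 z = 0 := by
      have := c.gram12 z hz
      rw [show z.2 = 0 from rfl, mul_zero, zero_mul] at this
      exact (mul_eq_zero.1 this).resolve_left (Real.exp_pos _).ne'
    have a4 : c.ξ1 z * (c.ζ1 z + c.α z * c.ξ1 z) + c.ξ2 z * (c.ζ2 z + c.α z * c.ξ2 z) =
        c.α z * (c.ξ1 z * c.ξ1 z + c.ξ2 z * c.ξ2 z) := by linear_combination a3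
    rw [a4]
    have hΓ0 : 0 ≤ Γ * ε := (abs_nonneg _).trans g1
    refine (abs_add_le' (abs_add_le' (abs_mul_le a1 (x_le' c hz)) (abs_mul_le a2 (y_le' c hz)))
      (abs_mul_le (hα r hr) (abs_add_le' (abs_mul_le (c.ξ1_bd z hz) (c.ξ1_bd z hz))
        (abs_mul_le (c.ξ2_bd z hz) (c.ξ2_bd z hz))))).trans ?_
    linarith
  have hx0 : c.x 0 = 0 := by simpa using c.geomx 0 h0
  have hy0 : c.y 0 = 0 := by simpa using c.geomy 0 h0
  have h2 := mv1 sω h1 (by simp [hx0, hy0]) ht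
  have h3 := mv2 sω (t := t) (fun s hs => d2ω_ge c hG ha0 hΓ (mem_sq'.2 ⟨ht, hs⟩)) hv
    (abs_lt.1 hv2).2
  have h4 := (abs_le.1 h2).1
  have h5 : (222 * Γ + (3904 + 320 * |M|) / a0 ^ 2) * ε =
      2 * (111 * (Γ * ε) + 16 * ((122 + 10 * |M|) * (ε / a0 ^ 2))) := by ring
  rw [h5]
  linarith

theorem q_abs (ha0 : 0 < a0) (hε : 0 < ε) (he : ε / c.a ^ 2 ≤ 1) (hz : z ∈ sq 2) :
    |c.q z| ≤ ‖z‖ := by
  have h0 : (0 : P) ∈ sq 2 := mem_sq.2 (by simp)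
  have := abs_sub_le_of_d (f := c.q) (r := 2) (C := 1) (fun z _ => dd c.smq z) (fun z hz => by
    have ha := a_abs c ha0
    have h1 : |d1 c.q z| ≤ 1 / 100 * 10 * 2 := by
      rw [c.q_t z hz]
      exact abs_mul_le (abs_mul_le ha ((k_abs c ha0 hε hz (K_abs c hG hε hz)).trans
        (by linarith))) (β_abs c hz)
    have h2 : |d2 c.q z| ≤ 1 / 100 * (1 / 10) := by
      rw [c.q_v z hz]
      exact abs_mul_le (by rwa [abs_neg]) (c.α_bd z hz)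
    linarith) h0 hz
  simpa [c.q0] using this

omit hG in
theorem block1S (hz : z ∈ sq 2) : |c.S z| ≤ 10 ∧ |d1 c.S z| ≤ 100 ∧ |d2 c.S z| ≤ 100 := by
  have hS : ∀ e : P, dv e c.S z = 2 * c.x z * dv e c.x z + 2 * c.y z * dv e c.y z := by
    intro e
    have hx := dd c.smx z
    have hy := dd c.smy z
    unfold Cfg.S
    rw [dv_sub (by fun_prop) (by fun_prop), dv_add (by fun_prop) (by fun_prop), dv_const,
      dv_pow 2 hx, dv_pow 2 hy]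
    norm_num
  refine ⟨?_, ?_, ?_⟩
  · have h1 := rs_le' c hz
    have h0 := rs_nonneg (c.x z, c.y z)
    simp only [rs] at h1 h0
    simp only [Cfg.S]
    rw [abs_le]; constructor <;> linarith
  · rw [d1_eq, hS, ← d1_eq, ← d1_eq, c.x_t z hz, c.y_t z hz]
    refine (abs_add_le' (abs_mul_le (abs_mul_le abs_two.le (x_le' c hz))
      (abs_add_le' (c.ζ1_bd z hz) (abs_mul_le (c.α_bd z hz) (c.ξ1_bd z hz))))
      (abs_mul_le (abs_mul_le abs_two.le (y_le' c hz))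
      (abs_add_le' (c.ζ2_bd z hz) (abs_mul_le (c.α_bd z hz) (c.ξ2_bd z hz))))).trans (by norm_num)
  · rw [d2_eq, hS, ← d2_eq, ← d2_eq, c.x_v z hz, c.y_v z hz]
    refine (abs_add_le' (abs_mul_le (abs_mul_le abs_two.le (x_le' c hz))
      (abs_mul_le (β_abs c hz) (c.ξ1_bd z hz)))
      (abs_mul_le (abs_mul_le abs_two.le (y_le' c hz))
      (abs_mul_le (β_abs c hz) (c.ξ2_bd z hz)))).trans (by norm_num)

theorem block2 (ha0 : 0 < a0) (hε : 0 < ε) (hz : z ∈ sq 2) (hn : ‖z‖ ≤ 1 / 2) :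
    c.k (Kf φ) z ≤ - (ε / c.a ^ 2) / 10 ∧ c.S z ≤ - 2 / 5 := by
  have h1 := rs_le c hz
  have h2 : rs (c.x z, c.y z) ≤ 11 / 20 := by nlinarith [norm_nonneg z]
  have hia := ia_pos c ha0
  refine ⟨?_, by simp only [rs] at h2; simp only [Cfg.S]; linarith⟩
  obtain ⟨E, G, e1, -, -, -, -, e3, -, -⟩ := hG.ex _ (h2.trans (by norm_num))
  have h3 : E * (rs (c.x z, c.y z) - 1) ≤ -2 / 5 := by nlinarith
  have h4 : K0 (c.x z, c.y z) ≤ ε * (-2 / 5) := by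
    rw [e3, mul_assoc]; exact mul_le_mul_of_nonneg_left h3 hε.le
  have h5 : Kf φ (c.x z, c.y z) ≤ -ε / 10 := by
    have := (abs_le.1 (hG.k0 (c.x z, c.y z))).2
    linarith
  have h6 : Kf φ (c.x z, c.y z) * c.W z ^ 2 ≤ -ε / 10 := by
    have := W2_ge c z
    nlinarith
  simp only [Cfg.k, div_eq_mul_inv] at h6 ⊢
  nlinarith

theorem far_eq (hz : z ∈ sq 2) (hn : 1 / 4 ≤ ‖z‖) : Kf φ =ᶠ[𝓝 (c.x z, c.y z)] K0 := by
  refine hG.far _ ?_
  have := rs_ge c hz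
  nlinarith

theorem k_far (hz : z ∈ sq 2) (hn : 1 / 4 ≤ ‖z‖) (ha0 : 0 < a0) :
    ∃ T : ℝ, 9 / 10 ≤ T ∧ T ≤ 2 ∧ c.k (Kf φ) z = (ε / c.a ^ 2) * T * c.S z := by
  obtain ⟨E, G, e1, e2, -, -, -, e3, -, -⟩ := hG.ex _ ((rs_le' c hz).trans (by norm_num))
  have h1 := W2_ge c z
  have h2 := W2_le c ha0 hz
  refine ⟨E * c.W z ^ 2, by nlinarith, by nlinarith, ?_⟩
  simp only [Cfg.k, (far_eq c hG hz hn).self_of_nhds, e3, Cfg.S, rs]
  ring

theorem block3 (ha0 : 0 < a0) (hε : 0 < ε) (hz : z ∈ sq 2) (hn : 1 / 4 ≤ ‖z‖) :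
    (ε / c.a ^ 2) * c.S z ^ 2 / 2 ≤ c.k (Kf φ) z * c.S z ∧
      |c.k (Kf φ) z| ≤ 10 * (ε / c.a ^ 2) * |c.S z| := by
  obtain ⟨T, t1, t2, hk⟩ := k_far c hG hz hn ha0
  have he : 0 < ε / c.a ^ 2 := mul_pos hε (ia_pos c ha0)
  rw [hk]
  constructor
  · have : 0 ≤ ε / c.a ^ 2 * c.S z ^ 2 := by positivity
    nlinarith
  · refine (abs_mul_le (abs_mul_le (abs_of_pos he).le (B := 10) (abs_le.2 ⟨by linarith, by linarith⟩))
      le_rfl).trans (le_of_eq (by ring))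

theorem block5 (ha0 : 0 < a0) (hε : 0 < ε) (hz : z ∈ sq 2) (hn : 5 / 4 ≤ ‖z‖) :
    (ε / c.a ^ 2) / 10 ≤ c.k (Kf φ) z := by
  obtain ⟨T, t1, t2, hk⟩ := k_far c hG hz (by linarith) ha0
  have he : 0 < ε / c.a ^ 2 := mul_pos hε (ia_pos c ha0)
  have h1 : 2 / 5 ≤ c.S z := by
    have := rs_ge c hz
    simp only [rs] at this
    simp only [Cfg.S]
    nlinarith
  have h2 : 1 / 10 ≤ T * c.S z := by nlinarith
  rw [hk, mul_assoc]
  nlinarith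

theorem block4 (ha0 : 0 < a0) (hε : 0 < ε) (hΓ : Γ * ε ≤ 1 / 2000) {c2 : ℝ} (hc2 : 0 < c2)
    (hkey : (222 * Γ + (3904 + 320 * |M|) / a0 ^ 2) * ε ≤ c2 / 8)
    (hz : z ∈ sq 2) (hn : 1 / 4 ≤ ‖z‖) (hv : c2 ≤ z.2) :
    (ε / c.a ^ 2) * (c2 / 100) ≤ c.β z * c.A (Kf φ) z := by
  have hω := ω_ge c hG ha0 hε hΓ hz (by linarith)
  obtain ⟨E, G, -, -, -, g1, -, -, e4, e5⟩ := hG.ex _ ((rs_le' c hz).trans (by norm_num))
  have f1 : d1 (Kf φ) (c.x z, c.y z) = d1 K0 (c.x z, c.y z) :=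
    (dv_congr (far_eq c hG hz hn)).self_of_nhds
  have f2 : d2 (Kf φ) (c.x z, c.y z) = d2 K0 (c.x z, c.y z) :=
    (dv_congr (far_eq c hG hz hn)).self_of_nhds
  have he : 0 < ε / c.a ^ 2 := mul_pos hε (ia_pos c ha0)
  have h1 : c.β z * c.A (Kf φ) z = (ε / c.a ^ 2) *
      (2 * (c.β z * (G * (c.W z ^ 2 * (c.ξ1 z * c.x z + c.ξ2 z * c.y z))))) := by
    simp only [Cfg.A, f1, f2, e4, e5]
    ring
  rw [h1]
  refine mul_le_mul_of_nonneg_left ?_ he.le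
  have a1 : 1 * (c2 / 8) ≤ c.W z ^ 2 * (c.ξ1 z * c.x z + c.ξ2 z * c.y z) :=
    mul_le_mul (W2_ge c z) (by linarith) (by linarith) (sq_nonneg _)
  have a2 := mul_le_mul g1 a1 (by linarith) (by linarith)
  have a3 := mul_le_mul (c.β_lb z hz) a2 (by linarith) (by linarith [c.β_lb z hz])
  linarith

theorem block6 (ha0 : 0 < a0) (hε : 0 < ε) (he : ε / c.a ^ 2 ≤ 1) (hz : z ∈ sq 2) :
    |c.k K0 z + ε / c.a ^ 2| ≤ 100 * ‖z‖ ^ 2 ∧ |c.β z * c.A K0 z| ≤ 100 * ‖z‖ ∧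
      |c.B K0 z| ≤ 100 * ‖z‖ ∧ |c.C K0 z| ≤ 100 * ‖z‖ := by
  have he0 : 0 < ε / c.a ^ 2 := mul_pos hε (ia_pos c ha0)
  have hn := norm_nonneg z
  have hq := q_abs c hG ha0 hε he hz
  have ha := a_abs c ha0
  have hk : |c.k K0 z| ≤ 10 :=
    (k_abs c ha0 hε hz ((K0_abs c hG hε hz).trans (by linarith))).trans (by linarith)
  refine ⟨?_, ?_, ?_, ?_⟩
  · obtain ⟨E, G, e1, e2, e0, -, -, e3, -, -⟩ := hG.ex _ ((rs_le' c hz).trans (by norm_num))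
    have hs := rs_le c hz
    have hs0 := rs_nonneg (c.x z, c.y z)
    have h1 : c.k K0 z + ε / c.a ^ 2 = (ε / c.a ^ 2) * (E * rs (c.x z, c.y z) * c.W z ^ 2 -
        ((E - 1) * c.W z ^ 2 + (c.W z - 1) * (c.W z + 1))) := by
      simp only [Cfg.k, e3]
      ring
    have hW1 : |c.W z - 1| ≤ 2 * ‖z‖ ^ 2 := by
      have a1 := abs_mul_le ha (abs_snd_le z)
      have a2 := abs_mul_le a1 a1
      have a3 := abs_mul_le hq hq
      rw [abs_mul_self] at a2 a3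
      rw [abs_of_nonneg (by linarith [W_ge c z])]
      simp only [Cfg.W]
      nlinarith
    have hW2 : |c.W z + 1| ≤ 3 := by
      have := W_ge c z
      have := W_le c ha0 hz
      rw [abs_le]; constructor <;> linarith
    rw [h1]
    refine (abs_mul_le ((abs_of_pos he0).le.trans he) (abs_sub_le' (abs_mul_le (abs_mul_le
      (A := 11 / 10) (abs_le.2 ⟨by linarith, e2⟩) ((abs_of_nonneg hs0).le.trans hs))
      (W2_abs c ha0 hz)) (abs_add_le' (abs_mul_le (e0.trans hs) (W2_abs c ha0 hz))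
      (abs_mul_le hW1 hW2)))).trans ?_
    nlinarith [sq_nonneg ‖z‖]
  · obtain ⟨h1, h2⟩ := dK0_abs c hG hε hz
    refine (βA_abs c ha0 hz h1 h2).trans ?_
    nlinarith
  · simp only [Cfg.B, div_eq_mul_inv]
    refine (abs_mul_le (abs_mul_le (abs_mul_le (abs_mul_le (A := 4) (by norm_num) hk) ha) hq)
      (Winv_abs c z)).trans (by linarith)
  · simp only [Cfg.C, div_eq_mul_inv, _root_.sq]
    refine (abs_mul_le (abs_mul_le (abs_mul_le (abs_mul_le (A := 4) (by norm_num) hk)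
      (abs_mul_le ha ha)) (abs_snd_le z)) (Winv_abs c z)).trans (by linarith)

end cfg

end Point

open Point in
theorem pointOf : StmtPointOf := by
  intro hP cs hcs a0 ha0 M
  obtain ⟨Γ, hΓ, hgood⟩ := good hP
  set D : ℝ := 222 * Γ + (3904 + 320 * |M|) / a0 ^ 2 with hD
  have hD0 : 0 < D := by positivity
  refine ⟨min (min (1 / 1000) (a0 ^ 2)) (min (1 / (2000 * Γ)) ((cs / (8 * D)) ^ 2)),
    by positivity, fun ε hε hε1 m hm => ?_⟩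
  have h1 : ε ≤ 1 / 1000 := hε1.trans ((min_le_left _ _).trans (min_le_left _ _))
  have h2 : ε ≤ a0 ^ 2 := hε1.trans ((min_le_left _ _).trans (min_le_right _ _))
  have h3 : ε ≤ 1 / (2000 * Γ) := hε1.trans ((min_le_right _ _).trans (min_le_left _ _))
  have h4 : ε ≤ (cs / (8 * D)) ^ 2 := hε1.trans ((min_le_right _ _).trans (min_le_right _ _))
  have h3' : Γ * ε ≤ 1 / 2000 := by
    rw [le_div_iff₀ (by positivity)] at h3
    linarith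
  have hs : 0 < √ε := Real.sqrt_pos.2 hε
  have h4' : D * ε ≤ cs * √ε / 8 := by
    have a1 : √ε ≤ cs / (8 * D) := Real.sqrt_le_iff.2 ⟨by positivity, h4⟩
    rw [le_div_iff₀ (by positivity)] at a1
    have a2 : √ε * √ε = ε := Real.mul_self_sqrt hε.le
    nlinarith
  obtain ⟨lam1, hlam⟩ := hgood ε hε h1 h3' m hm
  refine ⟨100, lam1, fun lam hl c => ?_⟩
  have hG := hlam lam hl
  have he : ε / c.a ^ 2 ≤ 1 := by
    have ha := c.ha0
    have hap := ha0.trans_le ha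
    rw [div_le_one (by positivity)]
    exact h2.trans (by gcongr)
  have he0 : 0 < ε / c.a ^ 2 := mul_pos hε (ia_pos c ha0)
  refine ⟨he, fun z hz => ⟨⟨?_, ?_, block1S c hz⟩, block2 c hG ha0 hε hz, block3 c hG ha0 hε hz,
    block4 c hG ha0 hε h3' (by positivity) h4' hz, block5 c hG ha0 hε hz,
    block6 c hG ha0 hε he hz⟩⟩
  · exact (k_abs c ha0 hε hz (K_abs c hG hε hz)).trans (by linarith)
  · obtain ⟨a1, a2⟩ := dK_abs c hG hε hz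
    exact (βA_abs c ha0 hz a1 a2).trans (by linarith)

end Crest.Agent.R220
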