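import Crest.Agent.R220.Basic

/-! C3: Sobolev inequality on the fixed domains. -/

set_option autoImplicit false
open scoped ContDiff Topology Manifold
open Set MeasureTheory Filter

namespace Crest.Agent.R220

namespace Sobolev

theorem one_dim {g : ℝ → ℝ} (hg : ContDiff ℝ 1 g) (hc : HasCompactSupport g) (x : ℝ) :
    |g x| ≤ ∫ y, |deriv g y| := by
  rw [← hc.integral_Iic_deriv_eq hg x]
  have hi : Integrable (deriv g) :=
    (hg.continuous_deriv le_rfl).integrable_of_hasCompactSupport hc.deriv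
  refine abs_integral_le_integral_abs.trans ?_
  exact setIntegral_le_integral hi.abs (Eventually.of_forall fun y => abs_nonneg _)

theorem slice1 {F : P → ℝ} (hF : ContDiff ℝ ∞ F) (hc : HasCompactSupport F) (t v : ℝ) :
    |F (t, v)| ≤ ∫ r, |d1 F (r, v)| := by
  have hemb : Topology.IsClosedEmbedding (fun r : ℝ => ((r, v) : P)) :=
    (Isometry.of_dist_eq fun a b => by simp [Prod.dist_eq]).isClosedEmbedding
  have h := one_dim (g := fun r => F (r, v))
    ((hF.of_le (by norm_cast)).comp (contDiff_id.prodMk contDiff_const))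
    (hc.comp_isClosedEmbedding hemb) t
  refine h.trans (le_of_eq ?_)
  congr 1
  funext r
  congr 1
  have h1 : HasDerivAt (fun r : ℝ => ((r, v) : P)) (1, 0) r :=
    (hasDerivAt_id r).prodMk (hasDerivAt_const r v)
  exact ((hF.differentiable (by simp) (r, v)).hasFDerivAt.comp_hasDerivAt r h1).deriv

theorem slice2 {F : P → ℝ} (hF : ContDiff ℝ ∞ F) (hc : HasCompactSupport F) (t v : ℝ) :
    |F (t, v)| ≤ ∫ s, |d2 F (t, s)| := by
  have hemb : Topology.IsClosedEmbedding (fun s : ℝ => ((t, s) : P)) :=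
    (Isometry.of_dist_eq fun a b => by simp [Prod.dist_eq]).isClosedEmbedding
  have h := one_dim (g := fun s => F (t, s))
    ((hF.of_le (by norm_cast)).comp (contDiff_const.prodMk contDiff_id))
    (hc.comp_isClosedEmbedding hemb) v
  refine h.trans (le_of_eq ?_)
  congr 1
  funext s
  congr 1
  have h1 : HasDerivAt (fun s : ℝ => ((t, s) : P)) (0, 1) s :=
    (hasDerivAt_const s t).prodMk (hasDerivAt_id s)
  exact ((hF.differentiable (by simp) (t, s)).hasFDerivAt.comp_hasDerivAt s h1).deriv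

theorem hcs_dv {e : P} {F : P → ℝ} (hc : HasCompactSupport F) : HasCompactSupport (dv e F) :=
  hc.fderiv_apply ℝ e

theorem two_dim {F : P → ℝ} (hF : ContDiff ℝ ∞ F) (hc : HasCompactSupport F) (z : P) :
    |F z| ≤ ∫ p, |d1 (d2 F) p| := by
  obtain ⟨t, v⟩ := z
  have hc2 : HasCompactSupport (d2 F) := hcs_dv hc
  have hc12 : HasCompactSupport (d1 (d2 F)) := hcs_dv hc2
  have hi : Integrable (fun p => |d1 (d2 F) p|) ((volume : Measure ℝ).prod volume) :=
    ((contDiff_d1 (contDiff_d2 hF)).continuous.integrable_of_hasCompactSupport hc12).abs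
  refine (slice2 hF hc t v).trans ?_
  rw [Measure.volume_eq_prod, integral_prod_symm _ hi]
  exact integral_mono_of_nonneg (Eventually.of_forall fun s => abs_nonneg _)
    hi.integral_prod_right (Eventually.of_forall fun s => slice1 (contDiff_d2 hF) hc2 t s)

theorem exists_cut {K U : Set P} (hK : IsCompact K) (hU : IsOpen U) (hKU : K ⊆ U) :
    ∃ θ : P → ℝ, ContDiff ℝ ∞ θ ∧ HasCompactSupport θ ∧ (∀ z ∈ K, θ z = 1) ∧
      ∀ z ∉ U, θ =ᶠ[𝓝 z] fun _ => 0 := by
  obtain ⟨L, hL, hKL, hLU⟩ := exists_compact_between hK hU hKU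
  obtain ⟨θ, h1, h0, -⟩ := exists_contMDiffMap_one_nhds_of_subset_interior (n := ⊤) 𝓘(ℝ, P)
    hK.isClosed hKL
  refine ⟨θ, θ.contMDiff.contDiff, HasCompactSupport.intro hL h0,
    fun z hz => h1.self_of_nhdsSet z hz, fun z hz => ?_⟩
  filter_upwards [hL.isClosed.isOpen_compl.mem_nhds (fun h => hz (hLU h))] with w hw
  exact h0 w hw

theorem bdd {g : P → ℝ} (hg : Continuous g) (hc : HasCompactSupport g) : ∃ B, ∀ z, |g z| ≤ B :=
  hg.bounded_above_of_compact_support hc

theorem general {K U : Set P} (hK : IsCompact K) (hU : IsOpen U) (hKU : K ⊆ U) {r : ℝ}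
    (hUr : U ⊆ sq r) : ∃ C : ℝ, ∀ f : P → ℝ, ContDiff ℝ ∞ f → ∀ z ∈ K,
      |f z| ≤ C * (1 + ∫ p in U, (f p ^ 2 + d1 f p ^ 2 + d2 f p ^ 2 + d1 (d2 f) p ^ 2)) := by
  obtain ⟨θ, hθ, hc, h1, h0⟩ := exists_cut hK hU hKU
  obtain ⟨B0, hB0⟩ := bdd hθ.continuous hc
  obtain ⟨B1, hB1⟩ := bdd (contDiff_d1 hθ).continuous (hcs_dv hc)
  obtain ⟨B2, hB2⟩ := bdd (contDiff_d2 hθ).continuous (hcs_dv hc)
  obtain ⟨B3, hB3⟩ := bdd (contDiff_d1 (contDiff_d2 hθ)).continuous (hcs_dv (hcs_dv hc))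
  have p0 : 0 ≤ B0 := (abs_nonneg _).trans (hB0 0)
  have p1 : 0 ≤ B1 := (abs_nonneg _).trans (hB1 0)
  have p2 : 0 ≤ B2 := (abs_nonneg _).trans (hB2 0)
  have p3 : 0 ≤ B3 := (abs_nonneg _).trans (hB3 0)
  set B := B0 + B1 + B2 + B3 with hB
  have hBpos : 0 ≤ B := by positivity
  refine ⟨B * (2 * volume.real U + 1), fun f hf z hz => ?_⟩
  have hF : ContDiff ℝ ∞ fun p => θ p * f p := hθ.mul hf
  have hFc : HasCompactSupport fun p => θ p * f p := hc.mul_right
  have dd : ∀ {g : P → ℝ}, ContDiff ℝ ∞ g → ∀ p, DifferentiableAt ℝ g p :=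
    fun hg p => hg.differentiable (by simp) p
  have e2 : d2 (fun p => θ p * f p) = fun p => d2 θ p * f p + θ p * d2 f p := by
    funext p
    exact dv_mul (dd hθ p) (dd hf p)
  have e12 : ∀ p, d1 (d2 fun p => θ p * f p) p = d1 (d2 θ) p * f p + d2 θ p * d1 f p +
      (d1 θ p * d2 f p + θ p * d1 (d2 f) p) := by
    intro p
    rw [e2, d1_eq, dv_add (dd ((contDiff_d2 hθ).mul hf) p) (dd (hθ.mul (contDiff_d2 hf)) p),
      dv_mul (dd (contDiff_d2 hθ) p) (dd hf p), dv_mul (dd hθ p) (dd (contDiff_d2 hf) p)]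
    rfl
  have hz1 : |f z| ≤ ∫ p, |d1 (d2 fun p => θ p * f p) p| := by
    have := two_dim hF hFc z
    rwa [h1 z hz, one_mul] at this
  have hoff : ∀ p ∉ U, |d1 (d2 fun p => θ p * f p) p| = 0 := by
    intro p hp
    have a0 : (fun p => θ p * f p) =ᶠ[𝓝 p] fun _ => 0 := by
      filter_upwards [h0 p hp] with w hw
      rw [hw, zero_mul]
    have a1 : d2 (fun p => θ p * f p) =ᶠ[𝓝 p] fun _ => 0 :=
      (dv_congr a0).trans (Eventually.of_forall fun w => dv_const 0)
    have a2 : d1 (d2 fun p => θ p * f p) =ᶠ[𝓝 p] fun _ => 0 :=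
      (dv_congr a1).trans (Eventually.of_forall fun w => dv_const 0)
    rw [a2.self_of_nhds, abs_zero]
  rw [← setIntegral_eq_integral_of_forall_compl_eq_zero hoff] at hz1
  set Q : P → ℝ := fun p => f p ^ 2 + d1 f p ^ 2 + d2 f p ^ 2 + d1 (d2 f) p ^ 2 with hQ
  have hQc : Continuous Q := by
    have c0 := hf.continuous
    have c1 := (contDiff_d1 hf).continuous
    have c2 := (contDiff_d2 hf).continuous
    have c3 := (contDiff_d1 (contDiff_d2 hf)).continuous
    simp only [hQ]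
    fun_prop
  have hQi : IntegrableOn Q U := integrableOn_of_subset_sq hQc hUr
  have hci : IntegrableOn (fun _ : P => (2 : ℝ)) U := integrableOn_of_subset_sq continuous_const hUr
  have hpt : ∀ p, |d1 (d2 fun p => θ p * f p) p| ≤ B * (2 + Q p) := by
    intro p
    rw [e12]
    have t : ∀ (a b A : ℝ), |a| ≤ A → A ≤ B → |a * b| ≤ B * (1 / 2 + b ^ 2) := by
      intro a b A h1 h2
      rw [abs_mul]
      refine mul_le_mul (h1.trans h2) ?_ (abs_nonneg _) hBpos
      rw [← sq_abs b]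
      nlinarith [sq_nonneg (|b| - 1 / 2)]
    have t1 := t _ (f p) _ (hB3 p) (by linarith)
    have t2 := t _ (d1 f p) _ (hB2 p) (by linarith)
    have t3 := t _ (d2 f p) _ (hB1 p) (by linarith)
    have t4 := t _ (d1 (d2 f) p) _ (hB0 p) (by linarith)
    have u1 := abs_add_le (d1 (d2 θ) p * f p + d2 θ p * d1 f p)
      (d1 θ p * d2 f p + θ p * d1 (d2 f) p)
    have u2 := abs_add_le (d1 (d2 θ) p * f p) (d2 θ p * d1 f p)
    have u3 := abs_add_le (d1 θ p * d2 f p) (θ p * d1 (d2 f) p)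
    simp only [hQ]
    linarith
  have hint : ∫ p in U, |d1 (d2 fun p => θ p * f p) p| ≤ ∫ p in U, B * (2 + Q p) :=
    integral_mono_of_nonneg (Eventually.of_forall fun _ => abs_nonneg _)
      ((hci.add hQi).const_mul B) (Eventually.of_forall hpt)
  rw [integral_const_mul, integral_add hci hQi, setIntegral_const, smul_eq_mul] at hint
  have hQ0 : 0 ≤ ∫ p in U, Q p := integral_nonneg fun p => by simp only [hQ]; positivity
  have hv : 0 ≤ volume.real U := measureReal_nonneg
  refine hz1.trans (hint.trans ?_)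
  rw [mul_assoc]
  refine mul_le_mul_of_nonneg_left ?_ hBpos
  nlinarith [mul_nonneg hv hQ0]

theorem gf_nonneg (t : ℝ) : 0 ≤ gf t := by
  have := gb.le_one (x := t)
  unfold gf; linarith

theorem gf_le_one (t : ℝ) : gf t ≤ 1 := by
  have := gb.nonneg (x := t)
  unfold gf; linarith

theorem continuous_gf : Continuous gf := continuous_const.sub gb.continuous

end Sobolev

open Sobolev in
theorem sobolev : StmtSobolev := by
  intro c2 hc hc' τ τ' hτ hττ hτ'
  have hg := continuous_gf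
  have hL : ∀ s : ℝ, Continuous fun z : P =>
      (-c2 + s * (c2 / 2)) * (1 - gf z.1) + c2 * (1 + s) * gf z.1 := fun s => by fun_prop
  let K : Set P := {z | |z.1| ≤ 2 - τ' / 4 ∧ z.2 ≤ 2 - τ' / 4 ∧
    (-c2 + τ' * (c2 / 2)) * (1 - gf z.1) + c2 * (1 + τ') * gf z.1 ≤ z.2}
  have hU : IsOpen (Om c2 (-c2) (c2 / 2) τ) := by
    exact (isOpen_lt continuous_fst.abs continuous_const).inter
      ((isOpen_lt continuous_snd continuous_const).inter (isOpen_lt (hL τ) continuous_snd))
  have hUr : Om c2 (-c2) (c2 / 2) τ ⊆ sq 2 := by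
    rintro z ⟨h1, h2, h3⟩
    have g0 := gf_nonneg z.1
    have g1 := gf_le_one z.1
    refine mem_sq'.2 ⟨by linarith, abs_lt.2 ⟨?_, by linarith⟩⟩
    have a1 : 0 ≤ c2 * (1 + τ) * gf z.1 := by positivity
    have a2 : 0 ≤ τ * (c2 / 2) * (1 - gf z.1) := by
      have : 0 ≤ 1 - gf z.1 := by linarith
      positivity
    nlinarith
  have hKU : K ⊆ Om c2 (-c2) (c2 / 2) τ := by
    rintro z ⟨h1, h2, h3⟩
    have g0 := gf_nonneg z.1
    refine ⟨by linarith, by linarith, lt_of_lt_of_le ?_ h3⟩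
    have a1 : 0 < (τ' - τ) * c2 * (1 + gf z.1) := by
      have : 0 < τ' - τ := by linarith
      positivity
    nlinarith
  have hK : IsCompact K := by
    refine (isCompact_closedBall (0 : P) 2).of_isClosed_subset ?_
      (hKU.trans (hUr.trans Metric.ball_subset_closedBall))
    exact (isClosed_le continuous_fst.abs continuous_const).inter
      ((isClosed_le continuous_snd continuous_const).inter (isClosed_le (hL τ') continuous_snd))
  obtain ⟨C, hC⟩ := general hK hU hKU hUr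
  exact ⟨C, fun f hf z hz => hC f hf z ⟨hz.1.le, hz.2.1.le, hz.2.2.le⟩⟩

end Crest.Agent.R220
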