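import Crest.Agent.R220.TestAux

/-! C5: the test-function contradiction. -/

set_option autoImplicit false
open scoped ContDiff Topology
open Set MeasureTheory Filter

namespace Crest.Agent.R220
namespace Test

/-- the weak form of the equation -/
theorem weak {ψ u k a1 a2 E Y : P → ℝ} (c0 : ℝ) (hψ : ContDiff ℝ ∞ ψ) (hc : HasCompactSupport ψ)
    (hu : ContDiff ℝ ∞ u) (hk : ContDiff ℝ ∞ k) (ha1 : ContDiff ℝ ∞ a1) (ha2 : ContDiff ℝ ∞ a2)
    (hY : ContDiff ℝ ∞ Y)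
    (heq : ∀ z, ψ z ≠ 0 → d1 (d1 u) z + k z * d2 (d2 u) z + a1 z * d2 u z + a2 z * d1 u z
        + Y z = E z) :
    ∫ z, ψ z * Y z = (∫ z, ψ z * E z) - (∫ z, (d1 (d1 ψ) z - c0 ^ 2 * d2 (d2 ψ) z) * u z)
      + (∫ z, d2 (fun z => ψ z * (k z + c0 ^ 2)) z * d2 u z)
      - (∫ z, (ψ z * a1 z) * d2 u z) - ∫ z, (ψ z * a2 z) * d1 u z := by
  have hi : ∀ {f g : P → ℝ}, ContDiff ℝ ∞ f → HasCompactSupport f → ContDiff ℝ ∞ g →
      Integrable fun z => f z * g z := fun hf hc hg =>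
    (hf.mul hg).continuous.integrable_of_hasCompactSupport hc.mul_right
  have hφ : ContDiff ℝ ∞ fun z => ψ z * (k z + c0 ^ 2) := hψ.mul (hk.add contDiff_const)
  have hφc : HasCompactSupport fun z => ψ z * (k z + c0 ^ 2) := hc.mul_right
  have e1 : ∫ z, ψ z * d1 (d1 u) z = ∫ z, d1 (d1 ψ) z * u z := by
    rw [d1_eq (d1 u), integral_mul_dv hψ (contDiff_d1 hu) hc, ← d1_eq, d1_eq u,
      integral_mul_dv (contDiff_d1 hψ) hu (compact_d1 hc), neg_neg, ← d1_eq]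
  have e2 : ∫ z, ψ z * d2 (d2 u) z = ∫ z, d2 (d2 ψ) z * u z := by
    rw [d2_eq (d2 u), integral_mul_dv hψ (contDiff_d2 hu) hc, ← d2_eq, d2_eq u,
      integral_mul_dv (contDiff_d2 hψ) hu (compact_d2 hc), neg_neg, ← d2_eq]
  have e3 : ∫ z, (ψ z * (k z + c0 ^ 2)) * d2 (d2 u) z =
      - ∫ z, d2 (fun z => ψ z * (k z + c0 ^ 2)) z * d2 u z := by
    rw [d2_eq (d2 u), integral_mul_dv hφ (contDiff_d2 hu) hφc, ← d2_eq]
  have e4 : ∫ z, (d1 (d1 ψ) z - c0 ^ 2 * d2 (d2 ψ) z) * u z =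
      (∫ z, d1 (d1 ψ) z * u z) - c0 ^ 2 * ∫ z, d2 (d2 ψ) z * u z := by
    rw [← integral_const_mul, ← integral_sub
      (hi (contDiff_d1 (contDiff_d1 hψ)) (compact_d1 (compact_d1 hc)) hu)
      ((hi (contDiff_d2 (contDiff_d2 hψ)) (compact_d2 (compact_d2 hc)) hu).const_mul _)]
    congr 1
    funext z
    ring
  have i1 := hi hψ hc (contDiff_d1 (contDiff_d1 hu))
  have i2 := hi hφ hφc (contDiff_d2 (contDiff_d2 hu))
  have i3 := (hi hψ hc (contDiff_d2 (contDiff_d2 hu))).const_mul (c0 ^ 2)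
  have i4 := hi (hψ.mul ha1) hc.mul_right (contDiff_d2 hu)
  have i5 := hi (hψ.mul ha2) hc.mul_right (contDiff_d1 hu)
  have i6 := hi hψ hc hY
  have e5 : ∫ z, ψ z * E z = ∫ z, (ψ z * d1 (d1 u) z + (ψ z * (k z + c0 ^ 2)) * d2 (d2 u) z
      - c0 ^ 2 * (ψ z * d2 (d2 u) z) + (ψ z * a1 z) * d2 u z + (ψ z * a2 z) * d1 u z
      + ψ z * Y z) := by
    congr 1
    funext z
    by_cases h : ψ z = 0
    · simp [h]
    · rw [← heq z h]
      ring
  rw [integral_add (by exact (((i1.add i2).sub i3).add i4).add i5) i6,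
    integral_add (by exact ((i1.add i2).sub i3).add i4) i5,
    integral_add (by exact (i1.add i2).sub i3) i4,
    integral_sub (by exact i1.add i2) i3, integral_add i1 i2, integral_const_mul, e1, e2, e3] at e5
  rw [e4, e5]
  ring

theorem iter_congr {a b : ℝ → ℝ} {x : ℝ} (h : a =ᶠ[𝓝 x] b) :
    ∀ j : ℕ, deriv^[j] a =ᶠ[𝓝 x] deriv^[j] b
  | 0 => h
  | j + 1 => by
    rw [Function.iterate_succ_apply', Function.iterate_succ_apply']
    exact (iter_congr h j).deriv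

/-- the main term -/
theorem main_term {lam c0 L κ : ℝ} {m : ℕ} {h χ : ℝ → ℝ} {Z : P → ℝ} (hh : ContDiff ℝ ∞ h)
    (hχ : ContDiff ℝ ∞ χ) (hh1 : ∀ x, |x| < 5 → h =ᶠ[𝓝 x] fun y => y ^ (m + 6)) (hh2 : Van 6 h)
    (hχ1 : ∀ x, |x| < 1 → χ =ᶠ[𝓝 x] fun y => y ^ 0) (hχ2 : Van 2 χ) (hlam : 0 < lam)
    (hL : 3 ≤ L) (h0 : 0 ≤ c0) (h1 : c0 ≤ 1) (hR : (2 * L + 6) / lam < 2) (hκ : 0 < κ)
    (hZ : ContDiff ℝ ∞ Z) (hZ0 : ∀ z ∈ sq 2, 2 / lam < ‖z‖ → Z z = 0)
    (hmain : ∫ z in sq 2, (lam * (z.2 - c0 * z.1)) ^ 2 * Z z ≤ - κ * (lam ^ (m + 2))⁻¹) :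
    κ * lam ^ 2 ≤ |∫ z, T lam c0 L h χ z * d2^[m + 4] Z z| := by
  have hL0 : 0 < L := by linarith
  rw [integral_mul_d2_iter hZ _ (contDiff_T hh hχ) (compact_T hlam hL0 h0 h1 hh2 hχ2),
    d2_iter_T hh hχ]
  set Pm : ℝ := ∏ i ∈ Finset.range (m + 4), (((m + 6 : ℕ) : ℝ) - i) with hPm
  have hP : 1 ≤ Pm := by
    refine Finset.prod_induction _ (fun x : ℝ => 1 ≤ x) (fun a b => one_le_mul_of_one_le_of_one_le)
      le_rfl fun i hi => ?_
    have : (i : ℝ) < (m + 4 : ℕ) := by exact_mod_cast Finset.mem_range.1 hi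
    push_cast at this ⊢
    linarith
  have e1 : ∫ z, lam ^ (m + 4) * T lam c0 L (deriv^[m + 4] h) χ z * Z z =
      ∫ z in sq 2, lam ^ (m + 4) * T lam c0 L (deriv^[m + 4] h) χ z * Z z := by
    refine (setIntegral_eq_integral_of_forall_compl_eq_zero fun z hz => ?_).symm
    have : T lam c0 L (deriv^[m + 4] h) χ z = 0 := by
      by_contra hne
      exact hz (mem_sq.2 ((norm_le_of_box hlam hL0 h0 h1
        (T_ne_zero (hh2.iter _) hχ2 hne)).trans_lt hR))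
    rw [this, mul_zero, zero_mul]
  have e2 : ∫ z in sq 2, lam ^ (m + 4) * T lam c0 L (deriv^[m + 4] h) χ z * Z z =
      ∫ z in sq 2, (lam ^ (m + 4) * Pm) * ((lam * (z.2 - c0 * z.1)) ^ 2 * Z z) := by
    refine setIntegral_congr_fun (measurableSet_sq 2) fun z hz => ?_
    by_cases hz2 : 2 / lam < ‖z‖
    · simp [hZ0 z hz hz2]
    · have k0 : lam * ‖z‖ ≤ 2 := by
        rw [not_lt, le_div_iff₀ hlam] at hz2
        linarith
      have k1 : lam * |z.1| ≤ 2 := (mul_le_mul_of_nonneg_left (abs_fst_le z) hlam.le).trans k0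
      have k2 : lam * |z.2| ≤ 2 := (mul_le_mul_of_nonneg_left (abs_snd_le z) hlam.le).trans k0
      have k3 : |lam * (z.2 - c0 * z.1)| < 5 := by
        rw [abs_mul, abs_of_pos hlam]
        have : |z.2 - c0 * z.1| ≤ |z.2| + |z.1| := by
          refine (abs_sub _ _).trans ?_
          rw [abs_mul, abs_of_nonneg h0]
          nlinarith [abs_nonneg z.1]
        nlinarith
      have k4 : |lam * z.1 / L| < 1 := by
        rw [abs_div, abs_mul, abs_of_pos hlam, abs_of_pos hL0, div_lt_one hL0]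
        linarith
      have k5 := (iter_congr (hh1 _ k3) (m + 4)).eq_of_nhds
      have k6 := (hχ1 _ k4).eq_of_nhds
      simp only [T]
      rw [k5, k6, iter_deriv_pow, show m + 6 - (m + 4) = 2 by omega]
      ring
  rw [e1, e2, integral_const_mul]
  refine le_trans ?_ (neg_le_abs _)
  have h3 : lam ^ (m + 4) * (κ * (lam ^ (m + 2))⁻¹) = κ * lam ^ 2 := by
    field_simp
    ring
  have h4 : κ * (lam ^ (m + 2))⁻¹ ≤ - ∫ z in sq 2, (lam * (z.2 - c0 * z.1)) ^ 2 * Z z := by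
    linarith
  have h5 : 0 < κ * (lam ^ (m + 2))⁻¹ := by positivity
  calc κ * lam ^ 2 = lam ^ (m + 4) * 1 * (κ * (lam ^ (m + 2))⁻¹) := by rw [mul_one, h3]
    _ ≤ lam ^ (m + 4) * Pm * (- ∫ z in sq 2, (lam * (z.2 - c0 * z.1)) ^ 2 * Z z) := by gcongr
    _ = _ := by ring

/-- the wave term -/
theorem wave_term {lam c0 c1 L B C : ℝ} {h χ : ℝ → ℝ} {u : P → ℝ} (hh : ContDiff ℝ ∞ h)
    (hχ : ContDiff ℝ ∞ χ) (hh2 : Van 6 h)
    (hχ1 : ∀ x, |x| < 1 → χ =ᶠ[𝓝 x] fun y => y ^ 0) (hχ2 : Van 2 χ)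
    (hh3 : ∀ x, |h x| ≤ B ∧ |deriv h x| ≤ B)
    (hχ3 : ∀ x, |deriv χ x| ≤ B ∧ |deriv (deriv χ) x| ≤ B) (hlam : 0 < lam)
    (hL : 3 ≤ L) (hc1 : 0 < c1) (hL' : 11 ≤ c1 * L) (h0 : c1 ≤ c0) (h1 : c0 ≤ 1)
    (hR : (2 * L + 6) / lam < 1 / 8) (hu : ContDiff ℝ ∞ u)
    (hp : ∫ z in {z : P | |z.1| < 1 / 8 ∧ 4 / lam < z.2 ∧ z.2 < 1}, u z ^ 2 ≤ C)
    (hm : ∫ z in {z : P | |z.1| < 1 / 8 ∧ 4 / lam < - z.2 ∧ - z.2 < 1}, u z ^ 2 ≤ C) :
    |∫ z, (d1 (d1 (T lam c0 L h χ)) z - c0 ^ 2 * d2 (d2 (T lam c0 L h χ)) z) * u z| ≤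
      3 * B ^ 2 / 2 * (4 * (2 * L + 6) ^ 2 + 2 * C) * lam := by
  have hL0 : 0 < L := by linarith
  have h00 : 0 ≤ c0 := by linarith
  have h4 : 0 < 4 / lam := by positivity
  set Dp := {z : P | |z.1| < 1 / 8 ∧ 4 / lam < z.2 ∧ z.2 < 1} with hDp
  set Dm := {z : P | |z.1| < 1 / 8 ∧ 4 / lam < - z.2 ∧ - z.2 < 1} with hDm
  have mp : MeasurableSet Dp := by
    refine IsOpen.measurableSet ?_
    exact (isOpen_lt continuous_fst.abs continuous_const).inter
      ((isOpen_lt continuous_const continuous_snd).inter (isOpen_lt continuous_snd continuous_const))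
  have mm : MeasurableSet Dm := by
    refine IsOpen.measurableSet ?_
    exact (isOpen_lt continuous_fst.abs continuous_const).inter
      ((isOpen_lt continuous_const continuous_snd.neg).inter
        (isOpen_lt continuous_snd.neg continuous_const))
  have hu2 : Continuous fun z => u z ^ 2 := hu.continuous.pow 2
  have ip : IntegrableOn (fun z => u z ^ 2) Dp := by
    refine integrableOn_of_subset_sq hu2 (r := 1) fun z hz => mem_sq'.2 ⟨?_, ?_⟩
    · linarith [hz.1]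
    · rw [abs_lt]
      constructor <;> linarith [hz.2.1, hz.2.2]
  have im : IntegrableOn (fun z => u z ^ 2) Dm := by
    refine integrableOn_of_subset_sq hu2 (r := 1) fun z hz => mem_sq'.2 ⟨?_, ?_⟩
    · linarith [hz.1]
    · rw [abs_lt]
      constructor <;> linarith [hz.2.1, hz.2.2]
  have hdis : Disjoint Dp Dm := Set.disjoint_left.2 fun z hz hz' => by linarith [hz.2.1, hz'.2.1]
  have hle : ∫ z in Dp ∪ Dm, u z ^ 2 ≤ 2 * C := by
    rw [setIntegral_union hdis mm ip im]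
    linarith
  have hχ1' : ∀ x, |x| < 1 → deriv χ x = 0 ∧ deriv (deriv χ) x = 0 := fun x hx => by
    have k1 := (hχ1 x hx).deriv
    have k2 := k1.deriv
    exact ⟨by simpa using k1.eq_of_nhds, by simpa using k2.eq_of_nhds⟩
  have key := est (w := fun z => d1 (d1 (T lam c0 L h χ)) z - c0 ^ 2 * d2 (d2 (T lam c0 L h χ)) z)
    (g := u) (G2 := fun z => u z ^ 2) (mp.union mm) (r := (2 * L + 6) / lam)
    (A := 3 * B ^ 2 * lam ^ 2) (θ := lam) (by positivity) (by positivity) hlam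
    (fun z hz => by
      simp only [wave_T hh hχ] at hz ⊢
      have hbox : (|lam * (z.2 - c0 * z.1)| ≤ 6 ∧ |lam * z.1 / L| ≤ 2) ∧ 1 ≤ |lam * z.1 / L| := by
        constructor
        · by_cases k : T lam c0 L (deriv h) (deriv χ) z = 0
          · refine T_ne_zero hh2 hχ2.deriv.deriv fun k' => hz ?_
            simp [k, k']
          · exact T_ne_zero hh2.deriv hχ2.deriv k
        · by_contra k
          obtain ⟨k1, k2⟩ := hχ1' _ (not_le.1 k)
          exact hz (by simp [T, k1, k2])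
      have hn := norm_le_of_box hlam hL0 h00 h1 hbox.1
      refine ⟨?_, hn, ?_⟩
      · have k1 : |z.1| < 1 / 8 := ((abs_fst_le z).trans hn).trans_lt hR
        have k2 : |z.2| < 1 / 8 := ((abs_snd_le z).trans hn).trans_lt hR
        obtain ⟨⟨k3, -⟩, k4⟩ := hbox
        rw [abs_div, abs_mul, abs_of_pos hlam, abs_of_pos hL0, le_div_iff₀ hL0, one_mul] at k4
        rw [abs_le] at k3
        rw [abs_lt] at k2
        have k5 : 11 ≤ c0 * (lam * |z.1|) := by nlinarith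
        rcases le_total 0 z.1 with k6 | k6
        · refine Or.inl ⟨k1, ?_, by linarith⟩
          rw [abs_of_nonneg k6] at k5
          rw [div_lt_iff₀ hlam]
          nlinarith
        · refine Or.inr ⟨k1, ?_, by linarith⟩
          rw [abs_of_nonpos k6] at k5
          rw [div_lt_iff₀ hlam]
          nlinarith
      · have k1 := abs_T_le (lam := lam) (c0 := c0) (L := L) (fun x => (hh3 x).2)
          (fun x => (hχ3 x).1) z
        have k2 := abs_T_le (lam := lam) (c0 := c0) (L := L) (fun x => (hh3 x).1)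
          (fun x => (hχ3 x).2) z
        have k3 : lam / L ≤ lam := div_le_self hlam.le (by linarith)
        have k4 : 0 ≤ lam / L := by positivity
        have k5 : lam * c0 ≤ lam := mul_le_of_le_one_right hlam.le h1
        calc _ ≤ |-2 * (lam * c0) * (lam / L) * T lam c0 L (deriv h) (deriv χ) z| +
              |(lam / L) ^ 2 * T lam c0 L h (deriv (deriv χ)) z| := abs_add_le _ _
          _ = 2 * (lam * c0) * (lam / L) * |T lam c0 L (deriv h) (deriv χ) z| +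
              (lam / L) ^ 2 * |T lam c0 L h (deriv (deriv χ)) z| := by
            rw [abs_mul, abs_mul, abs_mul, abs_mul ((lam / L) ^ 2), abs_of_nonneg k4,
              abs_of_nonneg (mul_nonneg hlam.le h00), abs_of_nonneg (sq_nonneg (lam / L))]
            norm_num
          _ ≤ 2 * lam * lam * B ^ 2 + lam ^ 2 * B ^ 2 := by gcongr
          _ = _ := by ring)
    (fun z => le_rfl) (ip.union im) hle
  refine key.trans (le_of_eq ?_)
  field_simp
  ring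

end Test

open Test in
theorem test : StmtTest := by
  intro c1 δ κ C m hc1 hδ hδ8 hκ
  obtain ⟨h, B1, hh, hB1, hh1, hh2, hh3⟩ :=
    exists_profile (m + 6) (r1 := 5) (r2 := 6) (by norm_num) (by norm_num)
  obtain ⟨χ, B2, hχ, hB2, hχ1, hχ2, hχ3⟩ :=
    exists_profile 0 (r1 := 1) (r2 := 2) (by norm_num) (by norm_num)
  obtain ⟨B, hBa, hBb⟩ : ∃ B, B1 ≤ B ∧ B2 ≤ B := ⟨max B1 B2, le_max_left _ _, le_max_right _ _⟩
  obtain ⟨L, hL, hL'⟩ : ∃ L : ℝ, 3 ≤ L ∧ 11 ≤ c1 * L :=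
    ⟨max 3 (11 / c1), le_max_left _ _, by
      rw [← div_le_iff₀' hc1]
      exact le_max_right _ _⟩
  obtain ⟨R, hR⟩ : ∃ R, R = 2 * L + 6 := ⟨_, rfl⟩
  obtain ⟨K, hK⟩ : ∃ K, K = B ^ 2 / 2 * (4 * R ^ 2 + C) + 3 * B ^ 2 / 2 * (4 * R ^ 2 + 2 * C) +
    B ^ 2 * C * (R ^ 2 + R) / 2 * (4 * R ^ 2 + C) + B ^ 2 * C * R / 2 * (4 * R ^ 2 + C) +
    B ^ 2 * C * R / 2 * (4 * R ^ 2 + C) := ⟨_, rfl⟩
  refine ⟨max (R / δ + 1) (K / κ + 1), fun lam hlam1 c0 u k a1 a2 E Z hu hk ha1 ha2 hE hZ h0 h1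
    heq hZ0 hco hDu hEE hp hm hmain => ?_⟩
  have hL0 : 0 < L := by linarith
  have hR0 : 0 < R := by linarith
  have h00 : 0 ≤ c0 := by linarith
  have hl1 : R / δ < lam := by linarith [le_max_left (R / δ + 1) (K / κ + 1)]
  have hl2 : K / κ < lam := by linarith [le_max_right (R / δ + 1) (K / κ + 1)]
  have hlam : 0 < lam := (div_pos hR0 hδ).trans hl1
  have hr : R / lam < δ := by
    rw [div_lt_iff₀ hδ] at hl1
    rw [div_lt_iff₀ hlam]
    linarith
  have hr0 : 0 ≤ R / lam := by positivity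
  have hC : 0 ≤ C := (integral_nonneg fun z => sq_nonneg _).trans hp
  have bh0 : ∀ x, |h x| ≤ B := fun x => (hh3 x).1.trans hBa
  have bh1 : ∀ x, |deriv h x| ≤ B := fun x => (hh3 x).2.1.trans hBa
  have bχ0 : ∀ x, |χ x| ≤ B := fun x => (hχ3 x).1.trans hBb
  have hψ : ContDiff ℝ ∞ (T lam c0 L h χ) := contDiff_T hh hχ
  have hbox : ∀ {a : ℝ → ℝ}, Van 6 a → ∀ z, T lam c0 L a χ z ≠ 0 → ‖z‖ ≤ R / lam :=
    fun ha z hz => hR ▸ norm_le_of_box hlam hL0 h00 h1 (T_ne_zero ha hχ2 hz)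
  have hsq : ∀ z : P, ‖z‖ ≤ R / lam → z ∈ sq δ ∧ z ∈ sq 2 := fun z hz =>
    ⟨mem_sq.2 (by linarith), mem_sq.2 (by linarith)⟩
  have hw := weak (E := E) c0 hψ (compact_T hlam hL0 h00 h1 hh2 hχ2) hu hk ha1 ha2
    (contDiff_d2_iter hZ (m + 4)) fun z hz => heq z (hsq z (hbox hh2 z hz)).2
  have I5 := main_term hh hχ hh1 hh2 hχ1 hχ2 hlam hL h00 h1 (by rw [← hR]; linarith) hκ hZ hZ0 hmain
  have I1 := wave_term hh hχ hh2 hχ1 hχ2 (fun x => ⟨bh0 x, bh1 x⟩)
    (fun x => ⟨(hχ3 x).2.1.trans hBb, (hχ3 x).2.2.trans hBb⟩) hlam hL hc1 hL' h0 h1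
    (by rw [← hR]; linarith) hu hp hm
  rw [← hR] at I1
  have iD : IntegrableOn (fun z => d1 u z ^ 2 + d2 u z ^ 2) (sq δ) :=
    integrableOn_of_subset_sq (((contDiff_d1 hu).continuous.pow 2).add
      ((contDiff_d2 hu).continuous.pow 2)) subset_rfl
  have I4 : |∫ z, T lam c0 L h χ z * E z| ≤ B ^ 2 / 2 * (4 * R ^ 2 + C) * lam := by
    refine (est (G2 := fun z => E z ^ 2) (measurableSet_sq δ) hr0 (sq_nonneg B) (pow_pos hlam 3)
      (fun z hz => ⟨(hsq z (hbox hh2 z hz)).1, hbox hh2 z hz, abs_T_le bh0 bχ0 z⟩)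
      (fun z => le_rfl) (integrableOn_of_subset_sq (hE.continuous.pow 2) subset_rfl) hEE).trans
      (le_of_eq ?_)
    field_simp
    ring
  have I3 : ∀ (a g : P → ℝ), (∀ z ∈ sq 2, |a z| ≤ C * ‖z‖) →
      (∀ z, g z ^ 2 ≤ d1 u z ^ 2 + d2 u z ^ 2) →
      |∫ z, (T lam c0 L h χ z * a z) * g z| ≤ B ^ 2 * C * R / 2 * (4 * R ^ 2 + C) * lam := by
    intro a g ha hg
    refine (est (A := B ^ 2 * (C * (R / lam))) (measurableSet_sq δ) hr0 (by positivity)
      (pow_pos hlam 4) (fun z hz => ?_) hg iD hDu).trans (le_of_eq ?_)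
    · have k := hbox hh2 z (left_ne_zero_of_mul hz)
      refine ⟨(hsq z k).1, k, ?_⟩
      rw [abs_mul]
      exact mul_le_mul (abs_T_le bh0 bχ0 z)
        ((ha z (hsq z k).2).trans (mul_le_mul_of_nonneg_left k hC)) (abs_nonneg _) (sq_nonneg _)
    · field_simp
      ring
  have I3a := I3 a1 (d2 u) (fun z hz => (hco z hz).2.2.1) fun z => by nlinarith [sq_nonneg (d1 u z)]
  have I3b := I3 a2 (d1 u) (fun z hz => (hco z hz).2.2.2) fun z => by nlinarith [sq_nonneg (d2 u z)]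
  have I2 : |∫ z, d2 (fun z => T lam c0 L h χ z * (k z + c0 ^ 2)) z * d2 u z| ≤
      B ^ 2 * C * (R ^ 2 + R) / 2 * (4 * R ^ 2 + C) * lam := by
    refine (est (A := lam * B ^ 2 * (C * (R / lam) ^ 2) + B ^ 2 * (C * (R / lam)))
      (measurableSet_sq δ) hr0 (by positivity) (pow_pos hlam 4) (fun z hz => ?_)
      (fun z => by nlinarith [sq_nonneg (d1 u z)]) iD hDu).trans (le_of_eq ?_)
    · have hkd := hk.differentiable (by simp) z
      have e : d2 (fun z => T lam c0 L h χ z * (k z + c0 ^ 2)) z =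
          lam * T lam c0 L (deriv h) χ z * (k z + c0 ^ 2) + T lam c0 L h χ z * d2 k z := by
        rw [d2_eq, dv_mul (g := fun z => k z + c0 ^ 2) (hψ.differentiable (by simp) z)
          (by fun_prop), dv_add hkd (by fun_prop), dv_const, add_zero, ← d2_eq, ← d2_eq, d2_T hh hχ]
      rw [e] at hz ⊢
      have k1 : ‖z‖ ≤ R / lam := by
        by_cases k : T lam c0 L h χ z = 0
        · refine hbox hh2.deriv z fun k' => hz ?_
          simp [k, k']
        · exact hbox hh2 z k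
      refine ⟨(hsq z k1).1, k1, (abs_add_le _ _).trans ?_⟩
      obtain ⟨k2, k3, -⟩ := hco z (hsq z k1).2
      have k4 := abs_T_le (lam := lam) (c0 := c0) (L := L) bh0 bχ0 z
      have k5 := abs_T_le (lam := lam) (c0 := c0) (L := L) bh1 bχ0 z
      have k6 : |k z + c0 ^ 2| ≤ C * (R / lam) ^ 2 := k2.trans (by gcongr)
      have k7 : |d2 k z| ≤ C * (R / lam) := k3.trans (by gcongr)
      rw [abs_mul, abs_mul, abs_mul, abs_of_pos hlam]
      gcongr
    · field_simp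
      ring
  rw [hw] at I5
  have hfin : κ * lam ^ 2 ≤ K * lam := by
    rw [abs_le] at I1 I2 I3a I3b I4
    refine I5.trans (abs_le.2 ⟨?_, ?_⟩)
    · rw [hK]
      linarith [I1.1, I1.2, I2.1, I2.2, I3a.1, I3a.2, I3b.1, I3b.2, I4.1, I4.2]
    · rw [hK]
      linarith [I1.1, I1.2, I2.1, I2.2, I3a.1, I3a.2, I3b.1, I3b.2, I4.1, I4.2]
  rw [div_lt_iff₀ hκ] at hl2
  nlinarith

end Crest.Agent.R220
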