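import Crest.Agent.R220.Core
import Crest.Agent.R220.NonFlat
import Crest.Agent.R220.Normalize
import Crest.Agent.R220.Global
import Crest.Agent.R220.Est
import Crest.Agent.R220.Ident
import Crest.Agent.R220.CfgOf
import Crest.Agent.R220.MainOf
import Crest.Agent.R220.Phi
import Crest.Agent.R220.Sobolev
import Crest.Agent.R220.Point
import Crest.Agent.R220.Test

set_option autoImplicit false

namespace Crest.Agent.R220

theorem final_of_energy (hE : StmtEnergy) : StmtFinal :=
  global (local_of phiFacts (cfgOf est ident) (mainOf phiFacts est)
    (core phiFacts hE sobolev (pointOf phiFacts) test)) nonFlat normalize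

end Crest.Agent.R220
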