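import Crest.Agent.R220.Basic

/-! C4, part 1: the facts on the conformal factor that are used. -/

set_option autoImplicit false
open scoped ContDiff Topology
open Set MeasureTheory Filter

namespace Crest.Agent.R220

namespace Point

theorem abs_mul_le {a b A B : ℝ} (ha : |a| ≤ A) (hb : |b| ≤ B) : |a * b| ≤ A * B := by
  rw [abs_mul]
  exact mul_le_mul ha hb (abs_nonneg _) ((abs_nonneg _).trans ha)

theorem abs_add_le' {a b A B : ℝ} (ha : |a| ≤ A) (hb : |b| ≤ B) : |a + b| ≤ A + B :=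
  (abs_add_le a b).trans (add_le_add ha hb)

theorem abs_sub_le' {a b A B : ℝ} (ha : |a| ≤ A) (hb : |b| ≤ B) : |a - b| ≤ A + B :=
  (abs_sub a b).trans (add_le_add ha hb)

theorem dd {g : P → ℝ} (hg : ContDiff ℝ ∞ g) (p : P) : DifferentiableAt ℝ g p :=
  hg.differentiable (by simp) p

structure Good (ε Γ : ℝ) (φ K0 : P → ℝ) : Prop where
  smK : ContDiff ℝ ∞ (Kf φ)
  b0 : ∀ p, |φ p| ≤ Γ * ε
  b1 : ∀ p, |d1 φ p| ≤ Γ * ε
  b2 : ∀ p, |d2 φ p| ≤ Γ * ε
  k0 : ∀ p, |Kf φ p - K0 p| ≤ ε / 100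
  k1 : ∀ p, |d1 (Kf φ) p - d1 K0 p| ≤ ε / 100
  k2 : ∀ p, |d2 (Kf φ) p - d2 K0 p| ≤ ε / 100
  far : ∀ p, 1 / 20 ≤ rs p → Kf φ =ᶠ[𝓝 p] K0
  ex : ∀ p, rs p ≤ 9 → ∃ E G : ℝ, 9 / 10 ≤ E ∧ E ≤ 11 / 10 ∧ |E - 1| ≤ rs p ∧ 1 / 2 ≤ G ∧
    G ≤ 3 / 2 ∧ K0 p = ε * E * (rs p - 1) ∧ d1 K0 p = 2 * p.1 * ε * G ∧ d2 K0 p = 2 * p.2 * ε * G

theorem contDiff_Kf {φ : P → ℝ} (h : ContDiff ℝ ∞ φ) : ContDiff ℝ ∞ (Kf φ) := by
  have h1 := contDiff_d1 (contDiff_d1 h)
  have h2 := contDiff_d2 (contDiff_d2 h)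
  unfold Kf
  fun_prop

theorem Kf_congr {φ ψ : P → ℝ} {p : P} (h : φ =ᶠ[𝓝 p] ψ) : Kf φ =ᶠ[𝓝 p] Kf ψ := by
  filter_upwards [h, dw_congr h [false, false], dw_congr h [true, true]] with z h0 h1 h2
  simp only [dw_false, dw_true, dw_nil] at h1 h2
  simp only [Kf, h0, h1, h2]

theorem dv_Kf {φ : P → ℝ} (h : ContDiff ℝ ∞ φ) (e p : P) :
    dv e (Kf φ) p = Real.exp (-2 * φ p) * (2 * dv e φ p * (d1 (d1 φ) p + d2 (d2 φ) p) -
      (dv e (d1 (d1 φ)) p + dv e (d2 (d2 φ)) p)) := by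
  have h1 := contDiff_d1 (contDiff_d1 h)
  have h2 := contDiff_d2 (contDiff_d2 h)
  have h3 : ContDiff ℝ ∞ fun z => -2 * φ z := by fun_prop
  unfold Kf
  rw [dv_mul (dd (by fun_prop) p) (dd (h1.add h2) p), dv_neg, dv_exp (dd h3 p),
    dv_const_mul _ (dd h p), dv_add (dd h1 p) (dd h2 p)]
  ring

theorem exp_diff {a a' b b' δ : ℝ} (ha' : |a'| ≤ 1 / 4) (hd : |a - a'| ≤ δ) (hδ : δ ≤ 1 / 4)
    (hb : |b| ≤ 1) {D : ℝ} (hD : |b - b'| ≤ D) :
    |Real.exp (-2 * a) * b - Real.exp (-2 * a') * b'| ≤ 8 * δ + 2 * D := by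
  have h1 : |Real.exp (-2 * a')| ≤ 2 := by
    have := Real.abs_exp_sub_one_le (x := -2 * a') (by rw [abs_mul]; norm_num; linarith)
    rw [abs_mul] at this
    norm_num at this
    rw [abs_le] at this ⊢
    constructor
    · have := Real.exp_pos (-2 * a'); linarith
    · have h := this.2
      rw [neg_mul]
      linarith
  have h2 : |Real.exp (-2 * (a - a')) - 1| ≤ 4 * δ := by
    have := Real.abs_exp_sub_one_le (x := -2 * (a - a')) (by rw [abs_mul]; norm_num; linarith)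
    rw [abs_mul, abs_neg, abs_two] at this
    linarith
  have h3 : Real.exp (-2 * a) * b - Real.exp (-2 * a') * b' =
      Real.exp (-2 * a') * (Real.exp (-2 * (a - a')) - 1) * b + Real.exp (-2 * a') * (b - b') := by
    have : Real.exp (-2 * a) = Real.exp (-2 * a') * Real.exp (-2 * (a - a')) := by
      rw [← Real.exp_add]; congr 1; ring
    rw [this]; ring
  rw [h3]
  refine (abs_add_le' (abs_mul_le (abs_mul_le h1 h2) hb) (abs_mul_le h1 hD)).trans (le_of_eq ?_)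
  ring

theorem dv_rs (e p : P) : dv e rs p = 2 * p.1 * e.1 + 2 * p.2 * e.2 := by
  unfold rs
  rw [dv_add (by fun_prop) (by fun_prop), dv_pow 2 (by fun_prop), dv_pow 2 (by fun_prop), dv_fst,
    dv_snd]
  norm_num

theorem rs_nonneg (p : P) : 0 ≤ rs p := by unfold rs; positivity

theorem ex_K0 {ε : ℝ} (hε : 0 < ε) (hε' : ε ≤ 1 / 1000) {K0 : P → ℝ} {p : P} (hp : rs p ≤ 9)
    (h : K0 =ᶠ[𝓝 p] fun p => ε * Real.exp (-2 * (ε * (rs p / 4 - rs p ^ 2 / 16))) * (rs p - 1)) :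
    ∃ E G : ℝ, 9 / 10 ≤ E ∧ E ≤ 11 / 10 ∧ |E - 1| ≤ rs p ∧ 1 / 2 ≤ G ∧
    G ≤ 3 / 2 ∧ K0 p = ε * E * (rs p - 1) ∧ d1 K0 p = 2 * p.1 * ε * G ∧
      d2 K0 p = 2 * p.2 * ε * G := by
  have hs := rs_nonneg p
  set s := rs p with hs'
  set E := Real.exp (-2 * (ε * (s / 4 - s ^ 2 / 16))) with hE
  have hg : |s / 4 - s ^ 2 / 16| ≤ s := by
    rw [abs_le]; constructor <;> nlinarith
  have h1 : |-2 * (ε * (s / 4 - s ^ 2 / 16))| ≤ 2 * (1 / 1000 * s) := by
    refine abs_mul_le (by norm_num) (abs_mul_le (by rwa [abs_of_pos hε]) hg)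
  have h2 : |E - 1| ≤ s / 250 := by
    have := Real.abs_exp_sub_one_le (x := -2 * (ε * (s / 4 - s ^ 2 / 16))) (by linarith)
    linarith
  have h3 := abs_le.1 h2
  have hd : ∀ e : P, dv e K0 p =
      ε * E * (1 - 2 * ε * ((1 / 4 - s / 8) * (s - 1))) * (2 * p.1 * e.1 + 2 * p.2 * e.2) := by
    intro e
    rw [(dv_congr h).self_of_nhds]
    have hH : HasDerivAt (fun s : ℝ => ε * Real.exp (-2 * (ε * (s / 4 - s ^ 2 / 16))) * (s - 1))
        (ε * E * (1 - 2 * ε * ((1 / 4 - s / 8) * (s - 1)))) (rs p) := by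
      have a1 : HasDerivAt (fun s : ℝ => -2 * (ε * (s / 4 - s ^ 2 / 16)))
          (-2 * (ε * (1 / 4 - 2 * s / 16))) s := by
        have b1 := ((hasDerivAt_id s).div_const 4).sub ((hasDerivAt_pow 2 s).div_const 16)
        have b2 := (b1.const_mul ε).const_mul (-2)
        simpa using b2
      have a2 := (a1.exp.const_mul ε).mul ((hasDerivAt_id s).sub_const 1)
      refine a2.congr_deriv ?_
      simp only [id, hE]
      ring
    have hrs : DifferentiableAt ℝ rs p := by unfold rs; fun_prop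
    rw [dv_comp hH hrs, dv_rs]
  have h4 : |2 * ε * ((1 / 4 - s / 8) * (s - 1))| ≤ 2 * (1 / 1000) * (1 * 8) := by
    refine abs_mul_le (abs_mul_le (by norm_num) (by rwa [abs_of_pos hε])) (abs_mul_le ?_ ?_)
    · rw [abs_le]; constructor <;> linarith
    · rw [abs_le]; constructor <;> linarith
  have h5 := abs_le.1 h4
  refine ⟨E, E * (1 - 2 * ε * ((1 / 4 - s / 8) * (s - 1))), by linarith, by linarith, by linarith,
    ?_, ?_, h.self_of_nhds, ?_, ?_⟩
  · have : (9 / 10 : ℝ) * (9 / 10) ≤ E * (1 - 2 * ε * ((1 / 4 - s / 8) * (s - 1))) :=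
      mul_le_mul (by linarith) (by linarith) (by norm_num) (by linarith)
    linarith
  · have : E * (1 - 2 * ε * ((1 / 4 - s / 8) * (s - 1))) ≤ (11 / 10 : ℝ) * (11 / 10) :=
      mul_le_mul (by linarith) (by linarith) (by linarith) (by norm_num)
    linarith
  · rw [d1_eq, hd]; ring
  · rw [d2_eq, hd]; ring

theorem good (hP : StmtPhi) : ∃ Γ > (0 : ℝ), ∀ ε : ℝ, 0 < ε → ε ≤ 1 / 1000 → Γ * ε ≤ 1 / 2000 →
    ∀ m : ℕ, 6 ≤ m → ∃ lam1 : ℝ, ∀ lam, lam1 ≤ lam → Good ε Γ (phi ε m lam) (Kf (phi0 ε)) := by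
  obtain ⟨h1, h2, h3, h4, -, h6⟩ := hP
  choose Cw hCw using h3
  obtain ⟨C, hC⟩ : ∃ C, ∀ w : List Bool, w.length ≤ 3 → Cw w ≤ C := by
    obtain ⟨C, hC⟩ := ((List.finite_length_le Bool 3).image Cw).bddAbove
    exact ⟨C, fun w hw => hC ⟨w, hw, rfl⟩⟩
  have hC0 : 0 ≤ C := by
    have := (hCw [] 1 0 1 zero_le_one le_rfl 0).1
    have h := hC [] (by simp)
    have := abs_nonneg (dw [] (phi0 1) 0)
    linarith
  refine ⟨C + 1, by linarith, fun ε hε hε' hΓ m hm => ⟨max 5 (2400 * C / ε), fun lam hlam => ?_⟩⟩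
  have hl5 : 5 ≤ lam := (le_max_left _ _).trans hlam
  have hl1 : 1 ≤ lam := by linarith
  have hl0 : 0 < lam := by linarith
  have hlC : C / lam ≤ ε / 2400 := by
    have := (le_max_right _ _).trans hlam
    rw [div_le_iff₀ hε] at this
    rw [div_le_div_iff₀ hl0 (by norm_num)]
    linarith
  have hA : ∀ w : List Bool, w.length ≤ 3 → ∀ z, |dw w (phi0 ε) z| ≤ C * ε := fun w hw z =>
    (hCw w ε m lam hε.le hl1 z).1.trans (mul_le_mul_of_nonneg_right (hC w hw) hε.le)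
  have hB : ∀ w : List Bool, w.length ≤ 3 → ∀ z,
      |dw w (phi ε m lam) z - dw w (phi0 ε) z| ≤ ε / 2400 := by
    intro w hw z
    refine (hCw w ε m lam hε.le hl1 z).2.trans (le_trans ?_ hlC)
    have e1 : lam ^ w.length / lam ^ (m + 2) ≤ 1 / lam := by
      rw [div_le_div_iff₀ (by positivity) hl0, one_mul, ← pow_succ]
      exact pow_le_pow_right₀ hl1 (by omega)
    calc Cw w * (lam ^ w.length / lam ^ (m + 2)) ≤ C * (1 / lam) :=
          mul_le_mul (hC w hw) e1 (by positivity) hC0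
      _ = C / lam := by ring
  have hD : ∀ w : List Bool, w.length ≤ 3 → ∀ z, |dw w (phi ε m lam) z| ≤ (C + 1) * ε := by
    intro w hw z
    have a1 := hA w hw z
    have a2 := hB w hw z
    have a3 := abs_add_le' a1 a2
    rw [add_sub_cancel] at a3
    linarith
  have hA' : ∀ w : List Bool, w.length ≤ 3 → ∀ z, |dw w (phi0 ε) z| ≤ 1 / 2000 := fun w hw z =>
    (hA w hw z).trans (by linarith)
  have hD' : ∀ w : List Bool, w.length ≤ 3 → ∀ z, |dw w (phi ε m lam) z| ≤ 1 / 2000 :=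
    fun w hw z => (hD w hw z).trans hΓ
  have hgrad : ∀ (b : Bool) (e : P), (∀ f : P → ℝ, ∀ w, dw (b :: w) f = dv e (dw w f)) → ∀ p,
      |dv e (Kf (phi ε m lam)) p - dv e (Kf (phi0 ε)) p| ≤ ε / 100 := by
    intro b e he p
    rw [dv_Kf (h2 ε m lam), dv_Kf (h1 ε)]
    have u1 := hD' [b] (by simp) p
    have u2 := hD' [false, false] (by simp) p
    have u3 := hD' [true, true] (by simp) p
    have u4 := hD' [b, false, false] (by simp) p
    have u5 := hD' [b, true, true] (by simp) p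
    have v1 := hA' [b] (by simp) p
    have w1 := hB [b] (by simp) p
    have w2 := hB [false, false] (by simp) p
    have w3 := hB [true, true] (by simp) p
    have w4 := hB [b, false, false] (by simp) p
    have w5 := hB [b, true, true] (by simp) p
    simp only [he, dw_false, dw_true, dw_nil] at u1 u2 u3 u4 u5 v1 w1 w2 w3 w4 w5
    refine (exp_diff (δ := ε / 2400) (D := 8 * (ε / 2400)) ((hA' [] (by simp) p).trans (by norm_num))
      (hB [] (by simp) p) (by linarith) ?_ ?_).trans (by linarith)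
    · refine (abs_sub_le' (abs_mul_le (abs_mul_le (abs_two.le) u1) (abs_add_le' u2 u3))
        (abs_add_le' u4 u5)).trans (by norm_num)
    · have t := abs_sub_le' (abs_add_le'
        (abs_mul_le (abs_mul_le (abs_two.le) w1) (abs_add_le' u2 u3))
        (abs_mul_le (abs_mul_le (abs_two.le) v1) (abs_add_le' w2 w3))) (abs_add_le' w4 w5)
      refine le_trans (le_of_eq ?_) (t.trans (by linarith))
      congr 1
      ring
  refine ⟨contDiff_Kf (h2 ε m lam), hD [] (by simp), hD [false] (by simp), hD [true] (by simp),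
    fun p => ?_, hgrad false (1, 0) (fun _ _ => rfl), hgrad true (0, 1) (fun _ _ => rfl),
    fun p hp => Kf_congr (h4 ε m lam hl0 p ?_), fun p hp => ex_K0 hε hε' hp (h6 ε p (by linarith))⟩
  · have u2 := hD' [false, false] (by simp) p
    have u3 := hD' [true, true] (by simp) p
    have w2 := hB [false, false] (by simp) p
    have w3 := hB [true, true] (by simp) p
    simp only [dw_false, dw_true, dw_nil] at u2 u3 w2 w3
    have t := exp_diff (δ := ε / 2400) (D := ε / 2400 + ε / 2400)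
      (b := d1 (d1 (phi ε m lam)) p + d2 (d2 (phi ε m lam)) p)
      (b' := d1 (d1 (phi0 ε)) p + d2 (d2 (phi0 ε)) p)
      ((hA' [] (by simp) p).trans (by norm_num))
      (hB [] (by simp) p) (by linarith) ((abs_add_le' u2 u3).trans (by norm_num))
      (le_trans (le_of_eq (by congr 1; ring)) (abs_add_le' w2 w3))
    refine le_trans (le_of_eq ?_) (t.trans (by linarith))
    rw [← abs_neg]
    congr 1
    simp only [Kf, dw_nil]
    ring
  · have : (25 : ℝ) ≤ lam ^ 2 := by nlinarith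
    nlinarith

end Point

end Crest.Agent.R220
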