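import Crest.Agent.R220.Level2

/-! One step of the `L²` induction, and the Sobolev step. -/

set_option autoImplicit false
open scoped ContDiff Topology
open Set MeasureTheory Filter

namespace Crest.Agent.R220

/-- the body of `StmtEnergy` -/
def EnergyAt (cs ε : ℝ) : Prop :=
  ∀ C1 : ℝ, ∀ τ τ' : ℝ,
    0 < τ → τ < τ' → τ' < 1 → ∃ C : ℝ, ∀ (e d d' : ℝ) (u k a1 a2 E S : P → ℝ),
      ContDiff ℝ ∞ u → ContDiff ℝ ∞ k → ContDiff ℝ ∞ a1 → ContDiff ℝ ∞ a2 → ContDiff ℝ ∞ E →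
      ContDiff ℝ ∞ S → ε ≤ e → e ≤ 1 → |d| ≤ cs * √ε → 0 < d' → d' ≤ cs * √ε →
      (∀ z ∈ sq 2, d1 (d1 u) z + k z * d2 (d2 u) z + a1 z * d2 u z + a2 z * d1 u z = E z) →
      (∀ z ∈ sq 2, |k z| ≤ C1 * e ∧ |d2 k z| ≤ C1 * e ∧ |a1 z| ≤ C1 * e ∧ |a2 z| ≤ C1 * e ∧
        |S z| ≤ 10 ∧ |d1 S z| ≤ C1 ∧ |d2 S z| ≤ C1) →
      (∀ z ∈ sq 2, ‖z‖ ≤ 1 / 2 → k z ≤ - e / 10 ∧ S z ≤ - 2 / 5) →
      (∀ z ∈ sq 2, 1 / 4 ≤ ‖z‖ → e * S z ^ 2 / 2 ≤ k z * S z) →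
      (∀ z ∈ sq 2, 1 / 4 ≤ ‖z‖ → cs * √ε ≤ z.2 →
        e * (cs * √ε / 100 - C1 * |S z|) ≤ a1 z - d2 k z / 2) →
      (∀ z ∈ sq 2, 5 / 4 ≤ ‖z‖ → e / 10 ≤ k z) →
      ∫ z in Om (cs * √ε) d d' τ', (d1 u z ^ 2 + d2 u z ^ 2)
        ≤ C * ∫ z in Om (cs * √ε) d d' τ, (u z ^ 2 + E z ^ 2)

/-- the body of `StmtPoint` -/
def PtFacts (cs ε C : ℝ) {m : ℕ} {lam a0 M : ℝ} (c : Cfg (phi ε m lam) a0 M) : Prop :=
  ε / c.a ^ 2 ≤ 1 ∧ ∀ z ∈ sq 2,
      (|c.k (Kf (phi ε m lam)) z| ≤ 100 * (ε / c.a ^ 2) ∧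
        |c.β z * c.A (Kf (phi ε m lam)) z| ≤ 1000 * (ε / c.a ^ 2) ∧
        |c.S z| ≤ 10 ∧ |d1 c.S z| ≤ 100 ∧ |d2 c.S z| ≤ 100) ∧
      (‖z‖ ≤ 1 / 2 → c.k (Kf (phi ε m lam)) z ≤ - (ε / c.a ^ 2) / 10 ∧ c.S z ≤ - 2 / 5) ∧
      (1 / 4 ≤ ‖z‖ → (ε / c.a ^ 2) * c.S z ^ 2 / 2 ≤ c.k (Kf (phi ε m lam)) z * c.S z ∧
        |c.k (Kf (phi ε m lam)) z| ≤ 10 * (ε / c.a ^ 2) * |c.S z|) ∧
      (1 / 4 ≤ ‖z‖ → cs * √ε ≤ z.2 →
        (ε / c.a ^ 2) * (cs * √ε / 100) ≤ c.β z * c.A (Kf (phi ε m lam)) z) ∧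
      (5 / 4 ≤ ‖z‖ → (ε / c.a ^ 2) / 10 ≤ c.k (Kf (phi ε m lam)) z) ∧
      (|c.k (Kf (phi0 ε)) z + ε / c.a ^ 2| ≤ C * ‖z‖ ^ 2 ∧
        |c.β z * c.A (Kf (phi0 ε)) z| ≤ C * ‖z‖ ∧ |c.B (Kf (phi0 ε)) z| ≤ C * ‖z‖ ∧
        |c.C (Kf (phi0 ε)) z| ≤ C * ‖z‖)

theorem gf_nonneg' (t : ℝ) : 0 ≤ gf t := by unfold gf; linarith [gb.le_one (x := t)]
theorem gf_le_one' (t : ℝ) : gf t ≤ 1 := by unfold gf; linarith [gb.nonneg (x := t)]
theorem continuous_gf' : Continuous gf := continuous_const.sub gb.continuous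
theorem gf_eq_zero {t : ℝ} (ht : |t| ≤ 1 / 8) : gf t = 0 := by
  unfold gf
  rw [gb.one_of_mem_closedBall (by simpa [gb] using ht)]; ring

theorem isOpen_Om (c2 d d' τ : ℝ) : IsOpen (Om c2 d d' τ) := by
  have := continuous_gf'
  have h1 : IsOpen {z : P | |z.1| < 2 - τ / 4} := isOpen_lt (by fun_prop) (by fun_prop)
  have h2 : IsOpen {z : P | z.2 < 2 - τ / 4} := isOpen_lt (by fun_prop) (by fun_prop)
  have h3 : IsOpen {z : P | (d + τ * d') * (1 - gf z.1) + c2 * (1 + τ) * gf z.1 < z.2} :=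
    isOpen_lt (by fun_prop) (by fun_prop)
  exact h1.inter (h2.inter h3)

theorem Om_subset_sq {c2 d d' τ : ℝ} (hc : c2 ≤ 1) (hd : |d| ≤ c2) (hd' : 0 < d') (hτ : 0 < τ) :
    Om c2 d d' τ ⊆ sq 2 := by
  rintro z ⟨h1, h2, h3⟩
  have g0 := gf_nonneg' z.1
  have g1 := gf_le_one' z.1
  have hc0 : 0 ≤ c2 := (abs_nonneg _).trans hd
  have hd1 := (abs_le.1 hd).1
  refine mem_sq'.2 ⟨by linarith, abs_lt.2 ⟨?_, by linarith⟩⟩
  have : 0 ≤ c2 * (1 + τ) * gf z.1 := by positivity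
  have : -1 * (1 - gf z.1) ≤ (d + τ * d') * (1 - gf z.1) := by
    apply mul_le_mul_of_nonneg_right _ (by linarith); nlinarith
  linarith

theorem Om_mono {c2 d d' τ τ' : ℝ} (hc : 0 ≤ c2) (hd' : 0 < d') (hτ : τ ≤ τ') :
    Om c2 d d' τ' ⊆ Om c2 d d' τ := by
  rintro z ⟨h1, h2, h3⟩
  have g0 := gf_nonneg' z.1
  have g1 := gf_le_one' z.1
  refine ⟨by linarith, by linarith, lt_of_le_of_lt ?_ h3⟩
  have : 0 ≤ 1 - gf z.1 := by linarith
  gcongr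

/-- the nested domains as a `Dom` -/
def omDom (c2 : ℝ) (d d' : ℕ → ℝ) (τ : ℝ) : Dom where
  Ω n := Om c2 (d n) (d' n) τ ∩ sq 2
  sub _ := inter_subset_right
  meas _ := (isOpen_Om _ _ _ _).measurableSet.inter (measurableSet_sq 2)

structure Wt where
  G : ℕ → ℕ → ℝ
  G1 : ∀ o n, 1 ≤ G o n
  Gm : ∀ o o' n, o ≤ o' → G o n ≤ G o' n

def Wt.shift (w : Wt) : Wt :=
  ⟨fun o => w.G (o + 1), fun _ _ => w.G1 _ _, fun _ _ _ h => w.Gm _ _ _ (by omega)⟩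

def ctx (O : Dom) (w : Wt) (l N : ℕ) : Ctx := ⟨O, w.G, l, N, w.G1, w.Gm⟩

theorem Cl.shift {O : Dom} {w : Wt} {l N o J : ℕ} {f : Fam} (h : Cl (ctx O w l N) o J f) :
    Cl (ctx O w.shift l N) o J f :=
  ⟨h.1, fun j hj hN => ⟨(ctx O w l N).L2_mono (h.2 j hj hN).1 (Nat.le_succ _), (h.2 j hj hN).2⟩⟩

namespace Cfg
variable {φ : P → ℝ} {a0 M : ℝ} (c : Cfg φ a0 M)

theorem u_t (s : ℕ) {z : P} (hz : z ∈ sq 2) : d1 (d2^[s] c.β) z = d2^[s + 1] c.α z := by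
  rw [d1_d2_iter c.smβ, Function.iterate_succ_apply]
  exact (d2_iter_congr_sq c.α_v s z hz).symm

theorem α_t_iter (hφ : ContDiff ℝ ∞ φ) (ha0 : 0 < a0) (s : ℕ) {z : P} (hz : z ∈ sq 2) :
    d1 (d2^[s] c.α) z = - d2^[s + 1] (fun z => c.k (Kf φ) z * c.β z) z := by
  rw [d1_d2_iter c.smα, d2_iter_congr_sq (fun z hz => c.α_t hφ ha0 hz) s z hz, d2_iter_neg,
    Function.iterate_succ_apply]

theorem u_tt (hφ : ContDiff ℝ ∞ φ) (ha0 : 0 < a0) (s : ℕ) {z : P} (hz : z ∈ sq 2) :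
    d1 (d1 (d2^[s] c.β)) z = - d2^[s + 2] (fun z => c.k (Kf φ) z * c.β z) z := by
  rw [← c.α_t_iter hφ ha0 (s + 1) hz]
  exact (dv_congr (eventuallyEq_of_sq (fun z hz => c.u_t s hz) hz)).eq_of_nhds

theorem αBC_le (ha0 : 0 < a0) (K : P → ℝ) {z : P} (hz : z ∈ sq 2) :
    |c.α z * c.B K z + c.C K z| ≤ |c.k K z| ∧ |c.β z * c.B K z| ≤ |c.k K z| := by
  have hW := c.one_le_W z
  have ha := c.ha1
  have ha' := ha0.trans_le c.ha0
  have hα := c.α_bd z hz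
  have hq := c.q_bd z hz
  have hv := (mem_sq'.1 hz).2.le
  have hβ : |c.β z| ≤ 2 := abs_le.2 ⟨by linarith [c.β_lb z hz], c.β_ub z hz⟩
  have hB : |c.B K z| ≤ |c.k K z| / 100 := by
    unfold B
    rw [abs_div, abs_of_pos (c.W_pos z), abs_mul, abs_mul, abs_mul, abs_of_pos ha']
    refine (div_le_self (by positivity) hW).trans ?_
    calc |(-4 : ℝ)| * |c.k K z| * c.a * |c.q z| ≤ 4 * |c.k K z| * (1 / 100) * (1 / 10) := by
          rw [show |(-4 : ℝ)| = 4 by norm_num]; gcongr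
      _ ≤ _ := by linarith [abs_nonneg (c.k K z)]
  have hC : |c.C K z| ≤ |c.k K z| / 100 := by
    unfold C
    rw [abs_div, abs_of_pos (c.W_pos z), abs_mul, abs_mul, abs_mul, abs_of_pos (pow_pos ha' 2)]
    refine (div_le_self (by positivity) hW).trans ?_
    calc |(4 : ℝ)| * |c.k K z| * c.a ^ 2 * |z.2| ≤ 4 * |c.k K z| * (1 / 100) ^ 2 * 2 := by
          rw [show |(4 : ℝ)| = 4 by norm_num]; gcongr
      _ ≤ _ := by linarith [abs_nonneg (c.k K z)]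
  constructor
  · refine (abs_add_le _ _).trans ?_
    rw [abs_mul]
    have : |c.α z| * |c.B K z| ≤ 1 / 10 * (|c.k K z| / 100) := by gcongr
    linarith [abs_nonneg (c.k K z)]
  · rw [abs_mul]
    have : |c.β z| * |c.B K z| ≤ 2 * (|c.k K z| / 100) := by gcongr
    linarith [abs_nonneg (c.k K z)]

end Cfg

section family
variable {φ : ℕ → P → ℝ} {a0 M : ℝ} (c : ∀ n, Cfg (φ n) a0 M)

def Lev (O : Dom) (w : Wt) (l N : ℕ) : Prop :=
  (∀ J, Cl (ctx O w l N) 3 J fun n => (c n).α) ∧ (∀ J, Cl (ctx O w l N) 3 J fun n => (c n).β)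

def PhiOK (O : Dom) (w : Wt) (L : ℕ) : Prop :=
  ∀ v : List Bool, L2 O (w.G v.length) (Phi c v) ∧ (v.length ≤ L → Bd O (Phi c v))

theorem gen_zero {O : Dom} {w : Wt} {l N L : ℕ} (ha0 : 0 < a0) (ε : ℝ)
    (hφ : ∀ n, ContDiff ℝ ∞ (φ n)) (hΦ : PhiOK c O w L) (hL : l ≤ L) (hl : 2 ≤ l)
    (hN : N + 3 ≤ 2 * l + 1) (h : Lev c O w l N) :
    ∀ J, Gen c (ctx O w l N) (fun v => max v.length 2) ε J :=
  closure c hN ha0 ε hφ (fun _ => le_max_right _ _)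
    (fun b v => by simp only [List.length_cons]; omega) (fun b => by simp)
    (by simpa [ctx] using hl) (fun v => ⟨(ctx O w l N).L2_mono (hΦ v).1 (le_max_left _ _),
      fun h => (hΦ v).2 (by simp only [ctx] at h; omega)⟩) h.1 h.2

theorem gen_one {O : Dom} {w : Wt} {l N L : ℕ} (ha0 : 0 < a0) (ε : ℝ)
    (hφ : ∀ n, ContDiff ℝ ∞ (φ n)) (hΦ : PhiOK c O w L) (hL : l + 1 ≤ L) (hl : 2 ≤ l)
    (hN : N + 3 ≤ 2 * l + 1) (h : Lev c O w l N) :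
    ∀ J, Gen c (ctx O w.shift l N) (fun v => max (v.length - 1) 2) ε J :=
  closure c hN ha0 ε hφ (fun _ => le_max_right _ _)
    (fun b v => by simp only [List.length_cons]; omega) (fun b => by simp)
    (by simpa [ctx] using hl) (fun v => ⟨(ctx O w l N).L2_mono (hΦ v).1
      (show v.length ≤ max (v.length - 1) 2 + 1 by omega),
      fun h => (hΦ v).2 (by simp only [ctx] at h; omega)⟩)
    (fun J => (h.1 J).shift) (fun J => (h.2 J).shift)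

end family

section step
variable {cs ε : ℝ} {m : ℕ} {lam : ℕ → ℝ} {a0 M Cp : ℝ} (c : ∀ n, Cfg (phi ε m (lam n)) a0 M)

theorem step (hP : StmtPhi) (hE : EnergyAt cs ε) (hPt : ∀ n, PtFacts cs ε Cp (c n)) (ha0 : 0 < a0)
    (hε : 0 < ε) (hc2 : cs * √ε ≤ 1) {d d' : ℕ → ℝ} (hd : ∀ n, |d n| ≤ cs * √ε)
    (hd' : ∀ n, 0 < d' n) (hd'' : ∀ n, d' n ≤ cs * √ε) {w : Wt} {l N L : ℕ} {τ τ' : ℝ}
    (hτ : 0 < τ) (hττ : τ < τ') (hτ' : τ' < 1) (hΦ : PhiOK c (omDom (cs * √ε) d d' τ) w L)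
    (hL : l + 1 ≤ L) (hl : 3 ≤ l) (hlN : l ≤ N) (hN : N + 3 ≤ 2 * l)
    (h : Lev c (omDom (cs * √ε) d d' τ) w l N) : Lev c (omDom (cs * √ε) d d' τ') w l (N + 1) := by
  obtain ⟨s, rfl⟩ : ∃ s, N = s + 3 := ⟨N - 3, by omega⟩
  have hφ := fun n => hP.2.1 ε m (lam n)
  have hG := gen_one c ha0 ε hφ hΦ hL (by omega) (by omega) h
  have hK := coef_Kf c (X := ctx _ w.shift l (s + 3)) (by simp only [ctx]; omega) ha0 hφ hG
    (fun v hv => by omega)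
  have hR : L2 (omDom (cs * √ε) d d' τ) (w.G (s + 3 + 1)) (Rem c (fun n => Kf (phi ε m (lam n))) s) :=
    L2_Rem c (X := ctx _ w.shift l (s + 3)) rfl hN hK (fun J => (h.1 J).shift)
      (fun J => (h.2 J).shift)
  have hu : L2 (omDom (cs * √ε) d d' τ) (w.G (s + 3 + 1)) (D s fun n => (c n).β) :=
    (ctx _ w l (s + 3)).L2_mono ((h.2 s).2 s le_rfl (by simp only [ctx]; omega)).1 (by omega)
  obtain ⟨C, hC⟩ := hE (2000 * (s + 3)) τ τ' hτ hττ hτ'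
  obtain ⟨C1, hC1⟩ := hR
  obtain ⟨C2, hC2⟩ := hu
  have hc0 : 0 ≤ cs * √ε := (abs_nonneg _).trans (hd 0)
  have eΩ : ∀ n σ, 0 < σ → (omDom (cs * √ε) d d' σ).Ω n = Om (cs * √ε) (d n) (d' n) σ :=
    fun n σ hσ => inter_eq_left.2 (Om_subset_sq hc2 (hd n) (hd' n) hσ)
  have key : ∀ n, ∫ z in (omDom (cs * √ε) d d' τ').Ω n,
      (d2^[s + 1] (c n).α z ^ 2 + d2^[s + 1] (c n).β z ^ 2)
        ≤ max C 0 * (C2 + C1) * w.G (s + 3 + 1) n ^ 2 := by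
    intro n
    have hKn := contDiff_Kf (hφ n)
    have sk := (c n).smk hKn
    have sA := (c n).smA hKn
    have sB := (c n).smB hKn
    have sβ := (c n).smβ
    have su := contDiff_d2_iter sβ s
    have sR := sm_Rem c (K := fun n => Kf (phi ε m (lam n))) (fun n => contDiff_Kf (hφ n)) s n
    obtain ⟨he1, hpt⟩ := hPt n
    have ha := ha0.trans_le (c n).ha0
    have he0 : ε ≤ ε / (c n).a ^ 2 := by
      rw [le_div_iff₀ (by positivity)]
      have := (c n).ha1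
      have : (c n).a ^ 2 ≤ 1 := by nlinarith
      nlinarith
    set e := ε / (c n).a ^ 2
    have hs0 : (0 : ℝ) ≤ s := by positivity
    have := hC e (d n) (d' n) (d2^[s] (c n).β) ((c n).k (Kf (phi ε m (lam n))))
      (fun z => (s + 2) * d2 ((c n).k (Kf (phi ε m (lam n)))) z
        + (c n).β z * (c n).A (Kf (phi ε m (lam n))) z)
      (fun z => (c n).β z * (c n).B (Kf (phi ε m (lam n))) z)
      (fun z => - Rem c (fun n => Kf (phi ε m (lam n))) s n z) (c n).S su sk (by fun_prop)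
      (by fun_prop) sR.neg (c n).smS he0 he1 (hd n) (hd' n) (hd'' n)
      (fun z hz => by
        rw [(c n).u_tt (hφ n) ha0 s hz, (c n).u_t s hz]
        simp only [Rem, Function.iterate_succ_apply']
        ring)
      (fun z hz => by
        obtain ⟨⟨b1, b2, b3, b4, b5⟩, -⟩ := hpt z hz
        obtain ⟨b6, b7⟩ := (c n).αBC_le ha0 (Kf (phi ε m (lam n))) hz
        have b8 : |d2 ((c n).k (Kf (phi ε m (lam n)))) z| ≤ 1100 * e := by
          rw [(c n).k_v hKn hz, add_assoc]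
          linarith [abs_add_le ((c n).β z * (c n).A (Kf (phi ε m (lam n))) z)
            ((c n).α z * (c n).B (Kf (phi ε m (lam n))) z + (c n).C (Kf (phi ε m (lam n))) z)]
        have he : 0 ≤ e := hε.le.trans he0
        refine ⟨by nlinarith, by nlinarith, ?_, by nlinarith, b3, by nlinarith, by nlinarith⟩
        refine (abs_add_le _ _).trans ?_
        rw [abs_mul, abs_of_nonneg (show (0 : ℝ) ≤ s + 2 by positivity)]
        nlinarith [mul_le_mul_of_nonneg_left b8 (show (0 : ℝ) ≤ s + 2 by positivity)])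
      (fun z hz h1 => (hpt z hz).2.1 h1)
      (fun z hz h1 => ((hpt z hz).2.2.1 h1).1)
      (fun z hz h1 h2 => by
        have b1 := ((hpt z hz).2.2.1 h1).2
        have b2 := (hpt z hz).2.2.2.1 h1 h2
        have b6 := ((c n).αBC_le ha0 (Kf (phi ε m (lam n))) hz).1
        have he : 0 ≤ e := hε.le.trans he0
        rw [(c n).k_v hKn hz]
        have b7 := (abs_le.1 (b6.trans b1)).1
        have b8 : 0 ≤ e * (cs * √ε / 100) := by positivity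
        have b9 : 0 ≤ e * |(c n).S z| := by positivity
        nlinarith [mul_le_mul_of_nonneg_left b7 hs0, mul_le_mul_of_nonneg_left b2 hs0,
          mul_nonneg hs0 b9, mul_nonneg hs0 b8])
      (fun z hz h1 => (hpt z hz).2.2.2.2.1 h1)
    rw [← eΩ n τ hτ, ← eΩ n τ' (hτ.trans hττ)] at this
    have e1 : ∫ z in (omDom (cs * √ε) d d' τ').Ω n,
        (d2^[s + 1] (c n).α z ^ 2 + d2^[s + 1] (c n).β z ^ 2)
        = ∫ z in (omDom (cs * √ε) d d' τ').Ω n,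
          (d1 (d2^[s] (c n).β) z ^ 2 + d2 (d2^[s] (c n).β) z ^ 2) :=
      setIntegral_congr_fun ((omDom _ _ _ _).meas n) fun z hz => by
        simp only [(c n).u_t s hz.2, Function.iterate_succ_apply']
    rw [e1]
    refine this.trans ?_
    have i1 : IntegrableOn (fun z => d2^[s] (c n).β z ^ 2) _ :=
      (omDom (cs * √ε) d d' τ).int (su.continuous.pow 2) n
    have i2 : IntegrableOn (fun z => (- Rem c (fun n => Kf (phi ε m (lam n))) s n z) ^ 2) _ :=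
      (omDom (cs * √ε) d d' τ).int (sR.neg.continuous.pow 2) n
    have hnn : 0 ≤ ∫ z in (omDom (cs * √ε) d d' τ).Ω n,
        (d2^[s] (c n).β z ^ 2 + (- Rem c (fun n => Kf (phi ε m (lam n))) s n z) ^ 2) :=
      integral_nonneg fun z => by positivity
    refine (mul_le_mul_of_nonneg_right (le_max_left C 0) hnn).trans ?_
    rw [mul_assoc]
    refine mul_le_mul_of_nonneg_left ?_ (le_max_right _ _)
    rw [integral_add i1 i2]
    have := hC1 n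
    have := hC2 n
    simp only [neg_sq, D] at *
    linarith
  have hsub : ∀ n, (omDom (cs * √ε) d d' τ').Ω n ⊆ (omDom (cs * √ε) d d' τ).Ω n :=
    fun n => inter_subset_inter_left _ (Om_mono hc0 (hd' n) hττ.le)
  have sα := (h.1 0).1
  have sβ := (h.2 0).1
  have main : ∀ f : Fam, Sm f → (∀ J, Cl (ctx (omDom (cs * √ε) d d' τ) w l (s + 3)) 3 J f) →
      (∀ n z, D (s + 1) f n z ^ 2 ≤ d2^[s + 1] (c n).α z ^ 2 + d2^[s + 1] (c n).β z ^ 2) →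
      ∀ J, Cl (ctx (omDom (cs * √ε) d d' τ') w l (s + 3 + 1)) 3 J f := by
    intro f sf hf hle J
    refine ⟨sf, fun j _ hj => ?_⟩
    simp only [ctx] at hj ⊢
    rcases Nat.lt_or_ge (3 + j) (s + 3 + 1) with h1 | h1
    · have := (hf j).2 j le_rfl (by simp only [ctx]; omega)
      exact ⟨this.1.subset (sf.D j) hsub, fun h2 => (this.2 h2).subset hsub⟩
    · obtain rfl : j = s + 1 := by omega
      refine ⟨⟨max C 0 * (C2 + C1), fun n => ?_⟩, fun h2 => by omega⟩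
      rw [show 3 + (s + 1) = s + 3 + 1 by omega]
      refine le_trans ?_ (key n)
      exact setIntegral_mono_on ((omDom _ _ _ _).int ((sf.D _ n).continuous.pow 2) n)
        ((omDom _ _ _ _).int (((sα.D _ n).continuous.pow 2).add ((sβ.D _ n).continuous.pow 2)) n)
        ((omDom _ _ _ _).meas n) fun z _ => hle n z
  exact ⟨main _ sα h.1 fun n z => le_add_of_nonneg_right (sq_nonneg _),
    main _ sβ h.2 fun n z => le_add_of_nonneg_left (sq_nonneg _)⟩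

end step

end Crest.Agent.R220
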