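import Crest.Agent.R220.Basic

/-! Auxiliary lemmas for the test-function argument. -/

set_option autoImplicit false
open scoped ContDiff Topology
open Set MeasureTheory Filter

namespace Crest.Agent.R220
namespace Test

/-- vanishing outside `[-r, r]` -/
def Van (r : ℝ) (a : ℝ → ℝ) : Prop := ∀ x, r < |x| → a =ᶠ[𝓝 x] fun _ => 0

theorem Van.deriv {r : ℝ} {a : ℝ → ℝ} (h : Van r a) : Van r (deriv a) := fun x hx => by
  have := (h x hx).deriv
  simpa using this

theorem Van.iter {r : ℝ} {a : ℝ → ℝ} (h : Van r a) : ∀ j : ℕ, Van r (_root_.deriv^[j] a)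
  | 0 => h
  | j + 1 => by rw [Function.iterate_succ_apply']; exact (h.iter j).deriv

theorem Van.abs_le {r : ℝ} {a : ℝ → ℝ} (h : Van r a) {x : ℝ} (hx : a x ≠ 0) : |x| ≤ r := by
  by_contra hc
  exact hx (h x (not_le.1 hc)).eq_of_nhds

theorem Van.bdd {r : ℝ} {a : ℝ → ℝ} (h : Van r a) (ha : Continuous a) : ∃ B, ∀ x, |a x| ≤ B := by
  have hc : HasCompactSupport a := HasCompactSupport.intro (isCompact_closedBall 0 r) fun x hx => by
    by_contra h0
    exact hx (by simpa using h.abs_le h0)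
  obtain ⟨B, hB⟩ := ha.bounded_above_of_compact_support hc
  exact ⟨B, hB⟩

theorem contDiff_deriv {a : ℝ → ℝ} (ha : ContDiff ℝ ∞ a) : ContDiff ℝ ∞ (deriv a) := by
  simpa using ha.iterate_deriv 1

theorem exists_profile (n : ℕ) {r1 r2 : ℝ} (h1 : 0 < r1) (h2 : r1 < r2) :
    ∃ (h : ℝ → ℝ) (B : ℝ), ContDiff ℝ ∞ h ∧ 0 ≤ B ∧
      (∀ x, |x| < r1 → h =ᶠ[𝓝 x] fun y => y ^ n) ∧ Van r2 h ∧
      ∀ x, |h x| ≤ B ∧ |deriv h x| ≤ B ∧ |deriv (deriv h) x| ≤ B := by
  let f : ContDiffBump (0 : ℝ) := ⟨r1, r2, h1, h2⟩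
  have hs : ContDiff ℝ ∞ fun y : ℝ => y ^ n * f y := (contDiff_id.pow n).mul f.contDiff
  have hv : Van r2 fun y : ℝ => y ^ n * f y := by
    intro x hx
    have : {y : ℝ | r2 < |y|} ∈ 𝓝 x := (isOpen_lt continuous_const continuous_abs).mem_nhds hx
    filter_upwards [this] with y hy
    rw [f.zero_of_le_dist (by simpa using le_of_lt hy), mul_zero]
  obtain ⟨B0, hB0⟩ := hv.bdd hs.continuous
  obtain ⟨B1, hB1⟩ := hv.deriv.bdd (contDiff_deriv hs).continuous
  obtain ⟨B2, hB2⟩ := hv.deriv.deriv.bdd (contDiff_deriv (contDiff_deriv hs)).continuous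
  refine ⟨fun y => y ^ n * f y, max B0 (max B1 B2), hs,
    (abs_nonneg _).trans ((hB0 0).trans (le_max_left _ _)), fun x hx => ?_, hv, fun x =>
    ⟨(hB0 x).trans (le_max_left _ _), (hB1 x).trans ((le_max_left _ _).trans (le_max_right _ _)),
      (hB2 x).trans ((le_max_right _ _).trans (le_max_right _ _))⟩⟩
  filter_upwards [f.eventuallyEq_one_of_mem_ball (x := x) (by simpa using hx)] with y hy
  simp [hy]

/-- product test functions -/
noncomputable def T (lam c0 L : ℝ) (a b : ℝ → ℝ) : P → ℝ :=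
  fun z => a (lam * (z.2 - c0 * z.1)) * b (lam * z.1 / L)

variable {lam c0 L : ℝ} {a b : ℝ → ℝ}

theorem contDiff_T (ha : ContDiff ℝ ∞ a) (hb : ContDiff ℝ ∞ b) : ContDiff ℝ ∞ (T lam c0 L a b) := by
  unfold T
  exact (ha.comp (by fun_prop)).mul (hb.comp (by fun_prop))

theorem dv_T (ha : ContDiff ℝ ∞ a) (hb : ContDiff ℝ ∞ b) (e z : P) :
    dv e (T lam c0 L a b) z = lam * (e.2 - c0 * e.1) * T lam c0 L (deriv a) b z +
      lam * e.1 / L * T lam c0 L a (deriv b) z := by
  have ha' : ∀ x, HasDerivAt a (deriv a x) x := fun x => (ha.differentiable (by simp) x).hasDerivAt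
  have hb' : ∀ x, HasDerivAt b (deriv b x) x := fun x => (hb.differentiable (by simp) x).hasDerivAt
  have h1 : dv e (fun z : P => lam * (z.2 - c0 * z.1)) z = lam * (e.2 - c0 * e.1) := by
    rw [dv_const_mul _ (by fun_prop), dv_sub (by fun_prop) (by fun_prop),
      dv_const_mul _ (by fun_prop), dv_fst, dv_snd]
  have h2 : dv e (fun z : P => lam * z.1 / L) z = lam * e.1 / L := by
    have : (fun z : P => lam * z.1 / L) = fun z : P => (lam / L) * z.1 := by
      funext z; ring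
    rw [this, dv_const_mul _ (by fun_prop), dv_fst]
    ring
  have ha2 : Differentiable ℝ a := ha.differentiable (by simp)
  have hb2 : Differentiable ℝ b := hb.differentiable (by simp)
  unfold T
  rw [dv_mul (f := fun z : P => a (lam * (z.2 - c0 * z.1))) (g := fun z : P => b (lam * z.1 / L))
    (by fun_prop) (by fun_prop),
    dv_comp (f := fun z : P => lam * (z.2 - c0 * z.1)) (ha' _) (by fun_prop),
    dv_comp (f := fun z : P => lam * z.1 / L) (hb' _) (by fun_prop), h1, h2]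
  ring

theorem d2_T (ha : ContDiff ℝ ∞ a) (hb : ContDiff ℝ ∞ b) :
    d2 (T lam c0 L a b) = fun z => lam * T lam c0 L (deriv a) b z := by
  funext z
  rw [d2_eq, dv_T ha hb]
  simp

theorem d1_T (ha : ContDiff ℝ ∞ a) (hb : ContDiff ℝ ∞ b) :
    d1 (T lam c0 L a b) =
      fun z => -(lam * c0) * T lam c0 L (deriv a) b z + lam / L * T lam c0 L a (deriv b) z := by
  funext z
  rw [d1_eq, dv_T ha hb]
  simp

theorem d2_iter_T (ha : ContDiff ℝ ∞ a) (hb : ContDiff ℝ ∞ b) :
    ∀ j : ℕ, d2^[j] (T lam c0 L a b) = fun z => lam ^ j * T lam c0 L (deriv^[j] a) b z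
  | 0 => by simp
  | j + 1 => by
    rw [Function.iterate_succ_apply', d2_iter_T ha hb j]
    funext z
    rw [d2_eq, dv_const_mul _ ((contDiff_T (ha.iterate_deriv j) hb).differentiable (by simp) z),
      ← d2_eq, d2_T (ha.iterate_deriv j) hb, Function.iterate_succ_apply']
    ring

theorem wave_T (ha : ContDiff ℝ ∞ a) (hb : ContDiff ℝ ∞ b) (z : P) :
    d1 (d1 (T lam c0 L a b)) z - c0 ^ 2 * d2 (d2 (T lam c0 L a b)) z =
      -2 * (lam * c0) * (lam / L) * T lam c0 L (deriv a) (deriv b) z +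
        (lam / L) ^ 2 * T lam c0 L a (deriv (deriv b)) z := by
  have ha' := contDiff_deriv ha
  have hb' := contDiff_deriv hb
  have k1 := (contDiff_T (lam := lam) (c0 := c0) (L := L) ha' hb).differentiable (by simp) z
  have k2 := (contDiff_T (lam := lam) (c0 := c0) (L := L) ha hb').differentiable (by simp) z
  rw [d1_T ha hb, d2_T ha hb, d1_eq, d2_eq, dv_add (by fun_prop) (by fun_prop),
    dv_const_mul _ k1, dv_const_mul _ k2, dv_const_mul _ k1, ← d1_eq, ← d1_eq, ← d2_eq,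
    d1_T ha' hb, d1_T ha hb', d2_T ha' hb]
  ring

theorem T_ne_zero {z : P} (ha : Van 6 a) (hb : Van 2 b) (h : T lam c0 L a b z ≠ 0) :
    |lam * (z.2 - c0 * z.1)| ≤ 6 ∧ |lam * z.1 / L| ≤ 2 :=
  ⟨ha.abs_le (left_ne_zero_of_mul h), hb.abs_le (right_ne_zero_of_mul h)⟩

theorem norm_le_of_box {z : P} (hlam : 0 < lam) (hL : 0 < L) (h0 : 0 ≤ c0) (h1 : c0 ≤ 1)
    (h : |lam * (z.2 - c0 * z.1)| ≤ 6 ∧ |lam * z.1 / L| ≤ 2) : ‖z‖ ≤ (2 * L + 6) / lam := by
  obtain ⟨k1, k2⟩ := h
  rw [abs_mul, abs_of_pos hlam] at k1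
  rw [abs_div, abs_mul, abs_of_pos hlam, abs_of_pos hL, div_le_iff₀ hL] at k2
  have k3 : |z.2| ≤ |z.2 - c0 * z.1| + |z.1| := by
    calc |z.2| = |(z.2 - c0 * z.1) + c0 * z.1| := by ring_nf
      _ ≤ |z.2 - c0 * z.1| + |c0 * z.1| := abs_add_le _ _
      _ ≤ _ := by
        rw [abs_mul, abs_of_nonneg h0]
        nlinarith [abs_nonneg z.1]
  rw [Prod.norm_def, max_le_iff, Real.norm_eq_abs, Real.norm_eq_abs, le_div_iff₀ hlam,
    le_div_iff₀ hlam]
  constructor
  · nlinarith
  · nlinarith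

theorem compact_T (hlam : 0 < lam) (hL : 0 < L) (h0 : 0 ≤ c0) (h1 : c0 ≤ 1) (ha : Van 6 a)
    (hb : Van 2 b) : HasCompactSupport (T lam c0 L a b) :=
  HasCompactSupport.intro (isCompact_closedBall 0 ((2 * L + 6) / lam)) fun z hz => by
    by_contra h
    exact hz (by simpa using norm_le_of_box hlam hL h0 h1 (T_ne_zero ha hb h))

theorem abs_T_le {B : ℝ} (ha : ∀ x, |a x| ≤ B) (hb : ∀ x, |b x| ≤ B) (z : P) :
    |T lam c0 L a b z| ≤ B ^ 2 := by
  unfold T
  rw [abs_mul, pow_two]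
  exact mul_le_mul (ha _) (hb _) (abs_nonneg _) ((abs_nonneg _).trans (ha 0))

theorem compact_d2 {f : P → ℝ} (hc : HasCompactSupport f) : HasCompactSupport (d2 f) :=
  hc.fderiv_apply ℝ _

theorem compact_d1 {f : P → ℝ} (hc : HasCompactSupport f) : HasCompactSupport (d1 f) :=
  hc.fderiv_apply ℝ _

theorem integral_mul_d2_iter {g : P → ℝ} (hg : ContDiff ℝ ∞ g) :
    ∀ (j : ℕ) {f : P → ℝ}, ContDiff ℝ ∞ f → HasCompactSupport f →
      |∫ z, f z * d2^[j] g z| = |∫ z, d2^[j] f z * g z|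
  | 0, _, _, _ => rfl
  | j + 1, f, hf, hc => by
    rw [Function.iterate_succ_apply', d2_eq, integral_mul_dv hf (contDiff_d2_iter hg j) hc, abs_neg,
      ← d2_eq, integral_mul_d2_iter hg j (contDiff_d2 hf) (compact_d2 hc),
      Function.iterate_succ_apply]

theorem volume_ball (r : ℝ) (hr : 0 ≤ r) :
    (volume : Measure P).real (Metric.closedBall 0 r) = (2 * r) ^ 2 := by
  have : Metric.closedBall (0 : P) r = Metric.closedBall (0 : ℝ) r ×ˢ Metric.closedBall (0 : ℝ) r :=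
    (closedBall_prod_same 0 0 r).symm
  rw [this, Measure.volume_eq_prod, measureReal_prod_prod, Real.volume_real_closedBall hr]
  ring

/-- the basic estimate -/
theorem est {w g G2 : P → ℝ} {D : Set P} (hD : MeasurableSet D) {r A θ G : ℝ} (hr : 0 ≤ r)
    (hA : 0 ≤ A) (hθ : 0 < θ) (hw : ∀ z, w z ≠ 0 → z ∈ D ∧ ‖z‖ ≤ r ∧ |w z| ≤ A)
    (hG : ∀ z, g z ^ 2 ≤ G2 z) (hint : IntegrableOn G2 D) (hle : ∫ z in D, G2 z ≤ G) :
    |∫ z, w z * g z| ≤ A / 2 * (θ * (2 * r) ^ 2 + G / θ) := by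
  have hm : MeasurableSet (Metric.closedBall (0 : P) r) := measurableSet_closedBall
  have i1 : Integrable ((Metric.closedBall (0 : P) r).indicator fun _ => (1 : ℝ)) :=
    (integrable_indicator_iff hm).2 (integrableOn_const measure_closedBall_lt_top.ne)
  have i2 : Integrable (D.indicator G2) := (integrable_indicator_iff hD).2 hint
  have key := norm_integral_le_of_norm_le (f := fun z => w z * g z) (μ := volume)
    (g := fun z => A / 2 * (θ * (Metric.closedBall (0 : P) r).indicator (fun _ => (1 : ℝ)) z +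
      θ⁻¹ * D.indicator G2 z))
    (((i1.const_mul θ).add (i2.const_mul θ⁻¹)).const_mul (A / 2))
    (Eventually.of_forall fun z => by
      by_cases h : w z = 0
      · have e1 : 0 ≤ (Metric.closedBall (0 : P) r).indicator (fun _ => (1 : ℝ)) z :=
          indicator_nonneg (fun _ _ => zero_le_one) z
        have e2 : 0 ≤ D.indicator G2 z :=
          indicator_nonneg (fun y _ => (sq_nonneg _).trans (hG y)) z
        simp only [h, zero_mul, norm_zero]
        positivity
      · obtain ⟨k1, k2, k3⟩ := hw z h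
        rw [indicator_of_mem (by simpa using k2), indicator_of_mem k1, Real.norm_eq_abs, abs_mul]
        have k4 : |g z| ≤ (θ * 1 + θ⁻¹ * G2 z) / 2 := by
          have k5 : θ⁻¹ * |g z| ^ 2 ≤ θ⁻¹ * G2 z := by
            rw [sq_abs]
            exact mul_le_mul_of_nonneg_left (hG z) (by positivity)
          have k6 : 0 ≤ θ⁻¹ * (θ - |g z|) ^ 2 := by positivity
          have k7 : θ⁻¹ * (θ - |g z|) ^ 2 = θ - 2 * |g z| + θ⁻¹ * |g z| ^ 2 := by
            field_simp
            ring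
          linarith
        calc |w z| * |g z| ≤ A * ((θ * 1 + θ⁻¹ * G2 z) / 2) := by gcongr
          _ = _ := by ring)
  rw [integral_const_mul, integral_add (i1.const_mul θ) (i2.const_mul θ⁻¹), integral_const_mul,
    integral_const_mul, integral_indicator hm, integral_indicator hD, setIntegral_const,
    volume_ball r hr, smul_eq_mul, mul_one, Real.norm_eq_abs] at key
  refine key.trans ?_
  rw [div_eq_inv_mul G θ]
  gcongr

end Test
end Crest.Agent.R220
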